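import Mathlib

-- ▼ part X212/Kh11/Fib
section

/-!
# X212 / H: fibre lemmas for finite posets (helper11)

`chi A`: Euler characteristic of the order complex of the finite set `A` of a partial order,
`Rch A`: joined in the comparability graph, `Coc`/`Ex`: 1-cocycles / coboundaries.
A monotone map with contractible fibres keeps components, `chi` of lower sets and `H^1`.
-/

set_option autoImplicit false

open Finset

namespace Crest.Agent.X212.Kh11

variable {α β : Type*} [PartialOrder α] [PartialOrder β]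

open Classical in
/-- all chains (the empty one included) inside `A` -/
noncomputable def chs (A : Finset α) : Finset (Finset α) :=
  A.powerset.filter (fun c => IsChain (· ≤ ·) (c : Set α))

lemma mem_chs {A c : Finset α} : c ∈ chs A ↔ c ⊆ A ∧ IsChain (· ≤ ·) (c : Set α) := by
  classical
  simp [chs]

/-- minus the reduced Euler characteristic -/
noncomputable def red (A : Finset α) : ℤ := ∑ c ∈ chs A, (-1) ^ c.card

/-- Euler characteristic of the order complex -/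
noncomputable def chi (A : Finset α) : ℤ := 1 - red A

lemma empty_mem_chs (A : Finset α) : ∅ ∈ chs A := by
  rw [mem_chs]; exact ⟨empty_subset _, by simp [IsChain]⟩

lemma red_empty : red (∅ : Finset α) = 1 := by
  have : chs (∅ : Finset α) = {∅} := by
    ext c
    rw [mem_chs, mem_singleton, subset_empty]
    exact ⟨fun h => h.1, fun h => ⟨h, by subst h; simp [IsChain]⟩⟩
  simp [red, this]

lemma chi_empty : chi (∅ : Finset α) = 0 := by simp [chi, red_empty]

/-- a cone point kills `red` -/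
lemma red_cone {A : Finset α} {m : α} (hm : m ∈ A) (h : ∀ x ∈ A, x ≤ m ∨ m ≤ x) : red A = 0 := by
  classical
  unfold red
  refine sum_involution (fun c _ => if m ∈ c then c.erase m else insert m c) ?_ ?_ ?_ ?_
  · intro c _
    by_cases hc : m ∈ c
    · simp only [hc, if_true]
      have := card_erase_add_one hc
      rw [← this, pow_succ]; ring
    · simp only [hc, if_false]
      rw [card_insert_of_notMem hc, pow_succ]; ring
  · intro c _ _
    by_cases hc : m ∈ c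
    · simp only [hc, if_true]
      intro e
      have : m ∈ c.erase m := by rw [e]; exact hc
      simp at this
    · simp only [hc, if_false]
      intro e
      exact hc (by rw [← e]; exact mem_insert_self _ _)
  · intro c hc
    rw [mem_chs] at hc
    by_cases hmc : m ∈ c
    · simp only [hmc, if_true]
      rw [mem_chs]
      exact ⟨(erase_subset _ _).trans hc.1, hc.2.mono (by simp)⟩
    · simp only [hmc, if_false]
      rw [mem_chs]
      refine ⟨insert_subset hm hc.1, ?_⟩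
      rw [coe_insert]
      refine hc.2.insert ?_
      intro b hb _
      exact (h b (hc.1 hb)).symm
  · intro c _
    by_cases hc : m ∈ c
    · simp [hc]
    · simp [hc, erase_insert hc]

lemma chi_cone {A : Finset α} {m : α} (hm : m ∈ A) (h : ∀ x ∈ A, x ≤ m ∨ m ≤ x) : chi A = 1 := by
  simp [chi, red_cone hm h]

lemma exists_top {c : Finset α} (hc : IsChain (· ≤ ·) (c : Set α)) (hn : c.Nonempty) :
    ∃ m ∈ c, ∀ x ∈ c, x ≤ m := by
  obtain ⟨m, hm⟩ := c.exists_maximal hn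
  refine ⟨m, hm.1, fun x hx => ?_⟩
  rcases hc.total hx hm.1 with h | h
  · exact h
  · exact hm.2 hx h

open Classical in
/-- the Moebius weight of `x` in `A` -/
noncomputable def wt (A : Finset α) (x : α) : ℤ := red (A.filter (· < x))

lemma chi_eq_sum (A : Finset α) : chi A = ∑ x ∈ A, wt A x := by
  classical
  have h1 : red A = 1 + ∑ c ∈ (chs A).erase ∅, (-1 : ℤ) ^ c.card := by
    unfold red
    rw [← add_sum_erase _ _ (empty_mem_chs A)]; simp
  have h2 : ∑ x ∈ A, wt A x = ∑ c ∈ (chs A).erase ∅, -(-1 : ℤ) ^ c.card := by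
    unfold wt red
    rw [sum_sigma']
    refine sum_bij (fun p _ => insert p.1 p.2) ?_ ?_ ?_ ?_
    · rintro ⟨x, c⟩ hp
      simp only [mem_sigma, mem_chs] at hp
      obtain ⟨hx, hc, hch⟩ := hp
      rw [mem_erase, mem_chs]
      refine ⟨(insert_nonempty _ _).ne_empty, insert_subset hx (hc.trans (filter_subset _ _)), ?_⟩
      rw [coe_insert]
      refine hch.insert ?_
      intro b hb _
      exact Or.inr (mem_filter.1 (hc hb)).2.le
    · rintro ⟨x, c⟩ hp ⟨y, d⟩ hq e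
      simp only [mem_sigma, mem_chs] at hp hq
      simp only at e
      have hx : x ∉ c := fun h => lt_irrefl _ (mem_filter.1 (hp.2.1 h)).2
      have hy : y ∉ d := fun h => lt_irrefl _ (mem_filter.1 (hq.2.1 h)).2
      have hxy : x = y := by
        have a1 : x ∈ insert y d := by rw [← e]; exact mem_insert_self _ _
        have a2 : y ∈ insert x c := by rw [e]; exact mem_insert_self _ _
        rcases mem_insert.1 a1 with h | h
        · exact h
        · rcases mem_insert.1 a2 with h' | h'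
          · exact h'.symm
          · exact absurd ((mem_filter.1 (hq.2.1 h)).2.trans (mem_filter.1 (hp.2.1 h')).2)
              (lt_irrefl _)
      subst hxy
      have : c = d := by rw [← erase_insert hx, e, erase_insert hy]
      subst this; rfl
    · intro c hc
      rw [mem_erase, mem_chs] at hc
      obtain ⟨m, hm, hmax⟩ := exists_top hc.2.2 (nonempty_iff_ne_empty.2 hc.1)
      refine ⟨⟨m, c.erase m⟩, ?_, by simp [insert_erase hm]⟩
      simp only [mem_sigma, mem_chs]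
      refine ⟨hc.2.1 hm, ?_, hc.2.2.mono (by simp)⟩
      intro x hx
      rw [mem_erase] at hx
      exact mem_filter.2 ⟨hc.2.1 hx.2, lt_of_le_of_ne (hmax x hx.2) hx.1⟩
    · rintro ⟨x, c⟩ hp
      simp only [mem_sigma, mem_chs] at hp
      have hx : x ∉ c := fun h => lt_irrefl _ (mem_filter.1 (hp.2.1 h)).2
      simp only
      rw [card_insert_of_notMem hx, pow_succ]; ring
  rw [h2, chi, h1, sum_neg_distrib]; ring

/-- `C` is a lower part of `A` -/
def Low (A C : Finset α) : Prop := C ⊆ A ∧ ∀ x ∈ C, ∀ y ∈ A, y ≤ x → y ∈ C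

/-- `C` is an upper part of `A` -/
def Upp (A C : Finset α) : Prop := C ⊆ A ∧ ∀ x ∈ C, ∀ y ∈ A, x ≤ y → y ∈ C

lemma wt_low {A C : Finset α} (h : Low A C) {x : α} (hx : x ∈ C) : wt C x = wt A x := by
  classical
  unfold wt
  congr 1
  ext y
  simp only [mem_filter]
  exact ⟨fun hy => ⟨h.1 hy.1, hy.2⟩, fun hy => ⟨h.2 x hx y hy.1 hy.2.le, hy.2⟩⟩

lemma chi_low {A C : Finset α} (h : Low A C) : chi C = ∑ x ∈ C, wt A x := by
  rw [chi_eq_sum]
  exact sum_congr rfl (fun x hx => wt_low h hx)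

open Classical in
lemma sum_wt_le {A : Finset α} {x : α} (hx : x ∈ A) :
    ∑ y ∈ A.filter (· ≤ x), wt A y = 1 := by
  rw [← chi_low (A := A) (C := A.filter (· ≤ x))]
  · exact chi_cone (m := x) (by simp [hx]) (fun y hy => Or.inl (mem_filter.1 hy).2)
  · exact ⟨filter_subset _ _, fun a ha y hy hle => mem_filter.2 ⟨hy, hle.trans (mem_filter.1 ha).2⟩⟩

open Classical in
/-- the weight is the only function with all lower sums `1` -/
lemma wt_unique {A : Finset α} {g : α → ℤ}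
    (hg : ∀ x ∈ A, ∑ y ∈ A.filter (· ≤ x), g y = 1) : ∀ x ∈ A, g x = wt A x := by
  have key : ∀ n : ℕ, ∀ x ∈ A, (A.filter (· < x)).card = n → g x = wt A x := by
    intro n
    induction n using Nat.strong_induction_on with
    | _ n ih =>
      intro x hx hn
      have e : A.filter (· ≤ x) = insert x (A.filter (· < x)) := by
        ext y
        simp only [mem_filter, mem_insert]
        constructor
        · rintro ⟨h1, h2⟩
          rcases h2.eq_or_lt with h | h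
          · exact Or.inl h
          · exact Or.inr ⟨h1, h⟩
        · rintro (h | h)
          · subst h; exact ⟨hx, le_rfl⟩
          · exact ⟨h.1, h.2.le⟩
      have hnx : x ∉ A.filter (· < x) := by simp
      have a1 := hg x hx
      have a2 := sum_wt_le hx
      rw [e, sum_insert hnx] at a1 a2
      have a3 : ∑ y ∈ A.filter (· < x), g y = ∑ y ∈ A.filter (· < x), wt A y := by
        refine sum_congr rfl (fun y hy => ?_)
        rw [mem_filter] at hy
        refine ih _ ?_ y hy.1 rfl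
        rw [← hn]
        refine card_lt_card ⟨fun t ht => ?_, fun hs => ?_⟩
        · rw [mem_filter] at ht ⊢
          exact ⟨ht.1, ht.2.trans hy.2⟩
        · have := hs (mem_filter.2 hy)
          simp at this
      omega
  exact fun x hx => key _ x hx rfl

open Classical in
/-- cell count: a function with all lower sums `1` computes `chi` of every lower part -/
lemma chi_eq_cells {A C : Finset α} {g : α → ℤ}
    (hg : ∀ x ∈ A, ∑ y ∈ A.filter (· ≤ x), g y = 1) (h : Low A C) : chi C = ∑ x ∈ C, g x := by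
  rw [chi_low h]
  exact sum_congr rfl (fun x hx => (wt_unique hg x (h.1 hx)).symm)

open Classical in
/-- fibre lemma for `chi` -/
theorem chi_fib {A : Finset α} {B C : Finset β} {f : α → β} (hm : ∀ x ∈ A, f x ∈ B)
    (hf : ∀ x ∈ A, ∀ y ∈ A, x ≤ y → f x ≤ f y)
    (h1 : ∀ y ∈ B, chi (A.filter (fun x => f x ≤ y)) = 1) (hC : Low B C) :
    chi (A.filter (fun x => f x ∈ C)) = chi C := by
  have hlow : ∀ D : Finset β, Low B D → Low A (A.filter (fun x => f x ∈ D)) := by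
    intro D hD
    refine ⟨filter_subset _ _, fun x hx y hy hle => mem_filter.2 ⟨hy, ?_⟩⟩
    rw [mem_filter] at hx
    exact hD.2 _ hx.2 _ (hm y hy) (hf y hy x hx.1 hle)
  have hsum : ∀ D : Finset β, Low B D → chi (A.filter (fun x => f x ∈ D)) =
      ∑ y ∈ D, ∑ x ∈ A.filter (fun x => f x = y), wt A x := by
    intro D hD
    rw [chi_low (hlow D hD), ← sum_fiberwise_of_maps_to (g := f) (t := D)
      (fun x hx => (mem_filter.1 hx).2)]
    refine sum_congr rfl (fun y hy => sum_congr ?_ (fun _ _ => rfl))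
    ext x
    simp only [mem_filter]
    exact ⟨fun h => ⟨h.1.1, h.2⟩, fun h => ⟨⟨h.1, h.2 ▸ hy⟩, h.2⟩⟩
  rw [hsum C hC]
  symm
  refine chi_eq_cells (A := B) (fun y hy => ?_) hC
  rw [← hsum _ ⟨filter_subset _ _, fun a ha t ht hle =>
    mem_filter.2 ⟨ht, hle.trans (mem_filter.1 ha).2⟩⟩, ← h1 y hy]
  congr 1
  ext x
  simp only [mem_filter]
  exact ⟨fun h => ⟨h.1, h.2.2⟩, fun h => ⟨h.1, hm x h.1, h.2⟩⟩

lemma red_dual (A : Finset α) : red (α := αᵒᵈ) A = red A := by
  unfold red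
  refine sum_congr ?_ (fun _ _ => rfl)
  ext c
  exact (mem_chs (α := αᵒᵈ)).trans
    ((and_congr Iff.rfl ⟨fun h => h.symm, fun h => h.symm⟩).trans (mem_chs (α := α)).symm)

lemma chi_dual (A : Finset α) : chi (α := αᵒᵈ) A = chi A := by
  unfold chi; rw [red_dual]

open Classical in
/-- fibre lemma for `chi`, upper form -/
theorem chi_fib' {A : Finset α} {B C : Finset β} {f : α → β} (hm : ∀ x ∈ A, f x ∈ B)
    (hf : ∀ x ∈ A, ∀ y ∈ A, x ≤ y → f x ≤ f y)
    (h1 : ∀ y ∈ B, chi (A.filter (fun x => y ≤ f x)) = 1) (hC : Upp B C) :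
    chi (A.filter (fun x => f x ∈ C)) = chi C := by
  have := chi_fib (α := αᵒᵈ) (β := βᵒᵈ) (A := A) (B := B) (C := C) (f := f) hm
    (fun x hx y hy h => hf y hy x hx h) (fun y hy => (chi_dual (α := α) _).trans (h1 y hy)) hC
  exact ((chi_dual (α := α) _).symm.trans this).trans (chi_dual C)

open Classical in
/-- `chi` is additive on two lower parts -/
lemma chi_union_inter {A C D : Finset α} (hC : Low A C) (hD : Low A D) :
    chi (C ∪ D) + chi (C ∩ D) = chi C + chi D := by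
  have h1 : Low A (C ∪ D) := ⟨union_subset hC.1 hD.1, fun x hx y hy h => by
    rcases mem_union.1 hx with a | a
    · exact mem_union_left _ (hC.2 x a y hy h)
    · exact mem_union_right _ (hD.2 x a y hy h)⟩
  have h2 : Low A (C ∩ D) := ⟨inter_subset_left.trans hC.1, fun x hx y hy h =>
    mem_inter.2 ⟨hC.2 x (mem_inter.1 hx).1 y hy h, hD.2 x (mem_inter.1 hx).2 y hy h⟩⟩
  rw [chi_low h1, chi_low h2, chi_low hC, chi_low hD, sum_union_inter]

end Crest.Agent.X212.Kh11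
end

-- ▼ part X212/Kh11/Fib2
section

/-!
# X212 / H: fibre lemmas, part 2: components and cocycles (helper11)
-/

set_option autoImplicit false

open Finset

namespace Crest.Agent.X212.Kh11

variable {α β : Type*} [PartialOrder α] [PartialOrder β]

/-- one step in the comparability graph of `A` -/
def Stp (A : Finset α) (x y : α) : Prop := x ∈ A ∧ y ∈ A ∧ (x ≤ y ∨ y ≤ x)

/-- joined inside `A` -/
def Rch (A : Finset α) : α → α → Prop := Relation.ReflTransGen (Stp A)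

/-- connected (possibly empty) -/
def Cn (A : Finset α) : Prop := ∀ x ∈ A, ∀ y ∈ A, Rch A x y

lemma Rch.rfl {A : Finset α} {x : α} : Rch A x x := Relation.ReflTransGen.refl

lemma Rch.trans {A : Finset α} {x y t : α} (h : Rch A x y) (h' : Rch A y t) : Rch A x t :=
  Relation.ReflTransGen.trans h h'

lemma Rch.of_le {A : Finset α} {x y : α} (hx : x ∈ A) (hy : y ∈ A) (h : x ≤ y) : Rch A x y :=
  Relation.ReflTransGen.single ⟨hx, hy, Or.inl h⟩

lemma Rch.of_ge {A : Finset α} {x y : α} (hx : x ∈ A) (hy : y ∈ A) (h : y ≤ x) : Rch A x y :=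
  Relation.ReflTransGen.single ⟨hx, hy, Or.inr h⟩

lemma Rch.symm {A : Finset α} {x y : α} (h : Rch A x y) : Rch A y x := by
  induction h with
  | refl => exact Rch.rfl
  | tail _ h2 ih =>
    exact Rch.trans (Relation.ReflTransGen.single ⟨h2.2.1, h2.1, h2.2.2.symm⟩) ih

lemma Rch.mono {A B : Finset α} (hAB : A ⊆ B) {x y : α} (h : Rch A x y) : Rch B x y := by
  induction h with
  | refl => exact Rch.rfl
  | tail _ h2 ih => exact Relation.ReflTransGen.tail ih ⟨hAB h2.1, hAB h2.2.1, h2.2.2⟩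

lemma Rch.mem {A : Finset α} {x y : α} (h : Rch A x y) (hx : x ∈ A) : y ∈ A := by
  induction h with
  | refl => exact hx
  | tail _ h2 _ => exact h2.2.1

/-- a property kept along order relations of `A` (both ways) is kept along paths -/
lemma Rch.ind {A : Finset α} {x y : α} (h : Rch A x y) {p : α → Prop} (hx : p x)
    (hp : ∀ a ∈ A, ∀ b ∈ A, a ≤ b → (p a ↔ p b)) : p y := by
  induction h with
  | refl => exact hx
  | tail _ h2 ih =>
    rcases h2.2.2 with h | h
    · exact (hp _ h2.1 _ h2.2.1 h).1 ih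
    · exact (hp _ h2.2.1 _ h2.1 h).2 ih

lemma Rch.eq {γ : Type*} {A : Finset α} {x y : α} (h : Rch A x y) {g : α → γ}
    (hg : ∀ a ∈ A, ∀ b ∈ A, a ≤ b → g a = g b) : g x = g y :=
  h.ind (p := fun t => g x = g t) (Eq.refl _) (fun a ha b hb hab => by rw [hg a ha b hb hab])

lemma Rch.map {A : Finset α} {B : Finset β} {f : α → β} (hm : ∀ x ∈ A, f x ∈ B)
    (hf : ∀ x ∈ A, ∀ y ∈ A, x ≤ y → f x ≤ f y) {x y : α} (h : Rch A x y) :
    Rch B (f x) (f y) :=
  h.ind (p := fun t => Rch B (f x) (f t)) Rch.rfl (fun a ha b hb hab =>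
    ⟨fun h => h.trans (Rch.of_le (hm a ha) (hm b hb) (hf a ha b hb hab)),
     fun h => h.trans (Rch.of_ge (hm b hb) (hm a ha) (hf a ha b hb hab))⟩)

lemma cn_cone {A : Finset α} {m : α} (hm : m ∈ A) (h : ∀ x ∈ A, x ≤ m ∨ m ≤ x) : Cn A :=
  fun x hx y hy => Rch.trans (Relation.ReflTransGen.single ⟨hx, hm, h x hx⟩)
    (Relation.ReflTransGen.single ⟨hm, hy, (h y hy).symm⟩)

lemma rch_dual {A : Finset α} {x y : α} : Rch (α := αᵒᵈ) A x y ↔ Rch A x y := by
  have : Stp (α := αᵒᵈ) A = Stp (α := α) A := by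
    funext a b
    exact propext ⟨fun h => ⟨h.1, h.2.1, h.2.2.symm⟩, fun h => ⟨h.1, h.2.1, h.2.2.symm⟩⟩
  unfold Rch
  rw [this]
  exact Iff.rfl

lemma cn_dual {A : Finset α} : Cn (α := αᵒᵈ) A ↔ Cn A :=
  ⟨fun h x hx y hy => rch_dual.1 (h x hx y hy), fun h x hx y hy => rch_dual.2 (h x hx y hy)⟩

open Classical in
/-- the component of `x` in `A` -/
noncomputable def cmp (A : Finset α) (x : α) : Finset α := A.filter (Rch A x)

lemma mem_cmp {A : Finset α} {x y : α} : y ∈ cmp A x ↔ y ∈ A ∧ Rch A x y := by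
  classical
  simp [cmp]

lemma cmp_low (A : Finset α) (x : α) : Low A (cmp A x) :=
  ⟨fun _ h => (mem_cmp.1 h).1, fun _ ha _ hb h =>
    mem_cmp.2 ⟨hb, (mem_cmp.1 ha).2.trans (Rch.of_ge (mem_cmp.1 ha).1 hb h)⟩⟩

lemma cmp_upp (A : Finset α) (x : α) : Upp A (cmp A x) :=
  ⟨fun _ h => (mem_cmp.1 h).1, fun _ ha _ hb h =>
    mem_cmp.2 ⟨hb, (mem_cmp.1 ha).2.trans (Rch.of_le (mem_cmp.1 ha).1 hb h)⟩⟩

lemma Rch.in_clopen {A C : Finset α} (h1 : Low A C) (h2 : Upp A C) {x y : α} (hx : x ∈ C)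
    (h : Rch A x y) : Rch C x y := by
  have : y ∈ C ∧ Rch C x y := by
    refine h.ind (p := fun t => t ∈ C ∧ Rch C x t) ⟨hx, Rch.rfl⟩ ?_
    intro a ha b hb hab
    constructor
    · rintro ⟨c1, c2⟩
      have := h2.2 a c1 b hb hab
      exact ⟨this, c2.trans (Rch.of_le c1 this hab)⟩
    · rintro ⟨c1, c2⟩
      have := h1.2 b c1 a ha hab
      exact ⟨this, c2.trans (Rch.of_ge c1 this hab)⟩
  exact this.2

lemma cn_cmp (A : Finset α) (x : α) : Cn (cmp A x) := fun _ ha _ hb =>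
  Rch.in_clopen (cmp_low A x) (cmp_upp A x) ha ((mem_cmp.1 ha).2.symm.trans (mem_cmp.1 hb).2)

lemma cmp_eq {A : Finset α} {x y : α} (h : Rch A x y) : cmp A x = cmp A y := by
  ext t
  simp only [mem_cmp]
  exact ⟨fun a => ⟨a.1, h.symm.trans a.2⟩, fun a => ⟨a.1, h.trans a.2⟩⟩

section Fib

variable {A : Finset α} {B : Finset β} {f : α → β}

open Classical in
/-- fibre lemma for components -/
theorem rch_fib (h0 : ∀ y ∈ B, ∃ x ∈ A, f x ≤ y)
    (h1 : ∀ y ∈ B, Cn (A.filter (fun x => f x ≤ y))) {y y' : β} (hy : y ∈ B) (h : Rch B y y')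
    {x x' : α} (hx : x ∈ A) (hx' : x' ∈ A) (a : f x ≤ y) (a' : f x' ≤ y') : Rch A x x' := by
  have key : ∀ t ∈ A, f t ≤ y' → Rch A x t := by
    refine h.ind (p := fun s => ∀ t ∈ A, f t ≤ s → Rch A x t) ?_ ?_
    · intro t ht hle
      exact (h1 y hy x (mem_filter.2 ⟨hx, a⟩) t (mem_filter.2 ⟨ht, hle⟩)).mono (filter_subset _ _)
    · intro s hs s' hs' hss
      refine ⟨fun H t ht hle => ?_, fun H t ht hle => H t ht (hle.trans hss)⟩
      obtain ⟨r, hr, hrs⟩ := h0 s hs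
      exact (H r hr hrs).trans ((h1 s' hs' r (mem_filter.2 ⟨hr, hrs.trans hss⟩) t
        (mem_filter.2 ⟨ht, hle⟩)).mono (filter_subset _ _))
  exact key x' hx' a'

open Classical in
theorem cmp_fib (hm : ∀ x ∈ A, f x ∈ B) (hf : ∀ x ∈ A, ∀ y ∈ A, x ≤ y → f x ≤ f y)
    (h0 : ∀ y ∈ B, ∃ x ∈ A, f x ≤ y) (h1 : ∀ y ∈ B, Cn (A.filter (fun x => f x ≤ y)))
    {x : α} (hx : x ∈ A) : cmp A x = A.filter (fun t => f t ∈ cmp B (f x)) := by
  ext t
  simp only [mem_cmp, mem_filter]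
  exact ⟨fun h => ⟨h.1, hm t h.1, h.2.map hm hf⟩,
    fun h => ⟨h.1, rch_fib h0 h1 (hm x hx) h.2.2 hx h.1 le_rfl le_rfl⟩⟩

variable {G : Type*} [AddCommGroup G]

/-- 1-cocycle on the order complex of `A` -/
def Coc (A : Finset α) (z : α → α → G) : Prop :=
  ∀ x ∈ A, ∀ y ∈ A, ∀ t ∈ A, x ≤ y → y ≤ t → z x t = z x y + z y t

/-- coboundary on `A` -/
def Ex (A : Finset α) (z : α → α → G) : Prop :=
  ∃ a : α → G, ∀ x ∈ A, ∀ y ∈ A, x ≤ y → z x y = a y - a x

lemma Coc.self {z : α → α → G} (h : Coc A z) {x : α} (hx : x ∈ A) : z x x = 0 := by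
  have := h x hx x hx x hx le_rfl le_rfl
  simpa using this

lemma Coc.mono {C : Finset α} {z : α → α → G} (h : Coc A z) (hC : C ⊆ A) : Coc C z :=
  fun x hx y hy t ht => h x (hC hx) y (hC hy) t (hC ht)

lemma Ex.mono {C : Finset α} {z : α → α → G} (h : Ex A z) (hC : C ⊆ A) : Ex C z := by
  obtain ⟨a, ha⟩ := h
  exact ⟨a, fun x hx y hy => ha x (hC hx) y (hC hy)⟩

lemma Ex.coc {z : α → α → G} (h : Ex A z) : Coc A z := by
  obtain ⟨a, ha⟩ := h
  intro x hx y hy t ht h1 h2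
  rw [ha x hx t ht (h1.trans h2), ha x hx y hy h1, ha y hy t ht h2]; abel

lemma Coc.comap {z : β → β → G} (h : Coc B z) (hm : ∀ x ∈ A, f x ∈ B)
    (hf : ∀ x ∈ A, ∀ y ∈ A, x ≤ y → f x ≤ f y) : Coc A (fun x y => z (f x) (f y)) :=
  fun x hx y hy t ht h1 h2 => h _ (hm x hx) _ (hm y hy) _ (hm t ht) (hf x hx y hy h1) (hf y hy t ht h2)

lemma Ex.comap {z : β → β → G} (h : Ex B z) (hm : ∀ x ∈ A, f x ∈ B)
    (hf : ∀ x ∈ A, ∀ y ∈ A, x ≤ y → f x ≤ f y) : Ex A (fun x y => z (f x) (f y)) := by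
  obtain ⟨a, ha⟩ := h
  exact ⟨fun x => a (f x), fun x hx y hy h => ha _ (hm x hx) _ (hm y hy) (hf x hx y hy h)⟩

lemma ex_cone {m : α} (hm : m ∈ A) (h : ∀ x ∈ A, x ≤ m ∨ m ≤ x) {z : α → α → G}
    (hz : Coc A z) : Ex A z := by
  classical
  refine ⟨fun x => if x ≤ m then -z x m else z m x, fun x hx y hy hxy => ?_⟩
  by_cases h1 : y ≤ m
  · simp only [h1, hxy.trans h1, if_true]
    rw [hz x hx y hy m hm hxy h1]; abel
  · have h2 : m ≤ y := (h y hy).resolve_left h1
    by_cases h3 : x ≤ m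
    · simp only [h1, h3, if_true, if_false]
      rw [hz x hx m hm y hy h3 h2]; abel
    · simp only [h1, h3, if_false]
      rw [hz m hm x hx y hy ((h x hx).resolve_left h3) hxy]; abel

open Classical in
/-- `f^*` is injective on `H^1` -/
theorem ex_of_comap (hm : ∀ x ∈ A, f x ∈ B) (hf : ∀ x ∈ A, ∀ y ∈ A, x ≤ y → f x ≤ f y)
    (h0 : ∀ y ∈ B, ∃ x ∈ A, f x ≤ y) (h1 : ∀ y ∈ B, Cn (A.filter (fun x => f x ≤ y)))
    {z : β → β → G} (hz : Coc B z) (h : Ex A (fun x y => z (f x) (f y))) : Ex B z := by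
  obtain ⟨a, ha⟩ := h
  rcases B.eq_empty_or_nonempty with hB | ⟨y0, hy0⟩
  · subst hB; exact ⟨fun _ => 0, by simp⟩
  have : Nonempty α := ⟨(h0 y0 hy0).choose⟩
  choose! s hs hsy using h0
  have key : ∀ y ∈ B, ∀ x ∈ A, f x ≤ y → a x + z (f x) y = a (s y) + z (f (s y)) y := by
    intro y hy x hx hle
    refine (h1 y hy x (mem_filter.2 ⟨hx, hle⟩) (s y) (mem_filter.2 ⟨hs y hy, hsy y hy⟩)).eq
      (g := fun t => a t + z (f t) y) ?_
    intro p hp q hq hpq
    rw [mem_filter] at hp hq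
    have e1 := ha p hp.1 q hq.1 hpq
    simp only at e1 ⊢
    rw [hz _ (hm p hp.1) _ (hm q hq.1) y hy (hf p hp.1 q hq.1 hpq) hq.2, e1]; abel
  refine ⟨fun y => a (s y) + z (f (s y)) y, fun y hy y' hy' hle => ?_⟩
  simp only
  rw [← key y' hy' (s y) (hs y hy) ((hsy y hy).trans hle),
    hz _ (hm _ (hs y hy)) y hy y' hy' (hsy y hy) hle]; abel

open Classical in
/-- `f^*` is onto on `H^1` -/
theorem exists_comap (hm : ∀ x ∈ A, f x ∈ B) (hf : ∀ x ∈ A, ∀ y ∈ A, x ≤ y → f x ≤ f y)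
    (h0 : ∀ y ∈ B, ∃ x ∈ A, f x ≤ y) (h1 : ∀ y ∈ B, Cn (A.filter (fun x => f x ≤ y)))
    {z : α → α → G} (hz : ∀ y ∈ B, Ex (A.filter (fun x => f x ≤ y)) z) :
    ∃ w : β → β → G, Coc B w ∧ Ex A (fun x y => z x y - w (f x) (f y)) := by
  rcases A.eq_empty_or_nonempty with hA | ⟨x0, -⟩
  · subst hA; exact ⟨fun _ _ => 0, fun _ _ _ _ _ _ _ _ => by simp, fun _ => 0, by simp⟩
  have : Nonempty α := ⟨x0⟩
  choose! s hs hsy using h0
  choose! a ha using hz
  have key : ∀ y ∈ B, ∀ y' ∈ B, y ≤ y' → ∀ x ∈ A, f x ≤ y →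
      a y x - a y' x = a y (s y) - a y' (s y) := by
    intro y hy y' hy' hle x hx hxy
    refine (h1 y hy x (mem_filter.2 ⟨hx, hxy⟩) (s y) (mem_filter.2 ⟨hs y hy, hsy y hy⟩)).eq
      (g := fun t => a y t - a y' t) ?_
    intro p hp q hq hpq
    have e1 := ha y hy p hp q hq hpq
    rw [mem_filter] at hp hq
    have e2 := ha y' hy' p (mem_filter.2 ⟨hp.1, hp.2.trans hle⟩) q
      (mem_filter.2 ⟨hq.1, hq.2.trans hle⟩) hpq
    have : a y q - a y p = a y' q - a y' p := e1.symm.trans e2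
    rw [sub_eq_sub_iff_add_eq_add] at this ⊢
    rw [add_comm, ← this, add_comm]
  refine ⟨fun y y' => a y (s y) - a y' (s y), ?_, fun x => a (f x) x, ?_⟩
  · intro y hy y' hy' y'' hy'' h2 h3
    simp only
    rw [← key y' hy' y'' hy'' h3 (s y) (hs y hy) ((hsy y hy).trans h2)]; abel
  · intro x hx x' hx' hle
    have h2 := hf x hx x' hx' hle
    simp only
    rw [← key _ (hm x hx) _ (hm x' hx') h2 x hx le_rfl,
      ha _ (hm x' hx') x (mem_filter.2 ⟨hx, h2⟩) x' (mem_filter.2 ⟨hx', le_rfl⟩) hle]; abel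

lemma Ex.add {z w : α → α → G} (h : Ex A z) (h' : Ex A w) : Ex A (fun x y => z x y + w x y) := by
  obtain ⟨a, ha⟩ := h
  obtain ⟨b, hb⟩ := h'
  refine ⟨fun x => a x + b x, fun x hx y hy hle => ?_⟩
  simp only
  rw [ha x hx y hy hle, hb x hx y hy hle]; abel

lemma Ex.congr {z w : α → α → G} (h : Ex A z) (e : ∀ x ∈ A, ∀ y ∈ A, x ≤ y → w x y = z x y) :
    Ex A w := by
  obtain ⟨a, ha⟩ := h
  exact ⟨a, fun x hx y hy hle => (e x hx y hy hle).trans (ha x hx y hy hle)⟩

lemma coc_dual {z : α → α → G} : Coc (α := αᵒᵈ) A (fun x y => -z y x) ↔ Coc A z := by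
  constructor
  · intro h x hx y hy t ht h1 h2
    have := h t ht y hy x hx h2 h1
    simp only at this
    rw [← neg_add, neg_inj] at this
    rw [this, add_comm]
  · intro h x hx y hy t ht h1 h2
    simp only
    rw [h t ht y hy x hx h2 h1]; abel

lemma ex_dual {z : α → α → G} : Ex (α := αᵒᵈ) A (fun x y => -z y x) ↔ Ex A z := by
  constructor
  · rintro ⟨a, ha⟩
    refine ⟨a, fun x hx y hy h => ?_⟩
    have := ha y hy x hx h
    simp only at this
    rw [← neg_inj, this]; abel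
  · rintro ⟨a, ha⟩
    refine ⟨a, fun x hx y hy h => ?_⟩
    simp only
    rw [ha y hy x hx h]; abel

end Fib

end Crest.Agent.X212.Kh11
end

-- ▼ part X212/Kh11/Fib3

/-!
# X212 / H: fibre lemmas, part 3: contractible sets and weak equivalences (helper11)
-/

set_option autoImplicit false

open Finset

namespace Crest.Agent.X212.Kh11

variable {α β γ : Type*} [PartialOrder α] [PartialOrder β] [PartialOrder γ]

/-- `H^1(A; G) = 0` for every abelian group -/
def H1z (A : Finset α) : Prop :=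
  ∀ (G : Type) [AddCommGroup G] (z : α → α → G), Coc A z → Ex A z

/-- contractible, as far as `π₀`, `χ`, `H¹` can see -/
structure Ctr (A : Finset α) : Prop where
  ne : A.Nonempty
  cn : Cn A
  chi : chi A = 1
  h1 : H1z A

lemma ctr_cone {A : Finset α} {m : α} (hm : m ∈ A) (h : ∀ x ∈ A, x ≤ m ∨ m ≤ x) : Ctr A :=
  ⟨⟨m, hm⟩, cn_cone hm h, chi_cone hm h, fun _ _ _ hz => ex_cone hm h hz⟩

lemma ctr_max {A : Finset α} {m : α} (hm : m ∈ A) (h : ∀ x ∈ A, x ≤ m) : Ctr A :=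
  ctr_cone hm (fun x hx => Or.inl (h x hx))

lemma ctr_min {A : Finset α} {m : α} (hm : m ∈ A) (h : ∀ x ∈ A, m ≤ x) : Ctr A :=
  ctr_cone hm (fun x hx => Or.inr (h x hx))

lemma h1z_dual {A : Finset α} (h : H1z A) : H1z (α := αᵒᵈ) A := by
  intro G _ z hz
  have h1 : Coc (α := α) A (fun x y => -z y x) := (coc_dual (α := αᵒᵈ) (A := A) (z := z)).2 hz
  exact (ex_dual (α := αᵒᵈ) (A := A) (z := z)).1 (h G _ h1)

lemma Ctr.dual {A : Finset α} (h : Ctr A) : Ctr (α := αᵒᵈ) A :=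
  ⟨h.ne, cn_dual.2 h.cn, (chi_dual A).trans h.chi, h1z_dual h.h1⟩

open Classical in
/-- weak equivalence of finite posets -/
structure WE (A : Finset α) (B : Finset β) (f : α → β) : Prop where
  maps : ∀ x ∈ A, f x ∈ B
  mono : ∀ x ∈ A, ∀ y ∈ A, x ≤ y → f x ≤ f y
  surj : ∀ y ∈ B, ∃ x ∈ A, Rch B (f x) y
  inj : ∀ x ∈ A, ∀ x' ∈ A, Rch B (f x) (f x') → Rch A x x'
  chi : ∀ C, Low B C → Upp B C → chi (A.filter (fun x => f x ∈ C)) = chi C
  ex : ∀ (G : Type) [AddCommGroup G] (z : β → β → G), Coc B z →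
    Ex A (fun x y => z (f x) (f y)) → Ex B z
  onto : ∀ (G : Type) [AddCommGroup G] (z : α → α → G), Coc A z →
    ∃ w : β → β → G, Coc B w ∧ Ex A (fun x y => z x y - w (f x) (f y))

variable {A : Finset α} {B : Finset β} {f : α → β}

open Classical in
theorem WE.of_le (hm : ∀ x ∈ A, f x ∈ B) (hf : ∀ x ∈ A, ∀ y ∈ A, x ≤ y → f x ≤ f y)
    (h : ∀ y ∈ B, Ctr (A.filter (fun x => f x ≤ y))) : WE A B f := by
  have h0 : ∀ y ∈ B, ∃ x ∈ A, f x ≤ y := fun y hy => by
    obtain ⟨x, hx⟩ := (h y hy).ne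
    exact ⟨x, (mem_filter.1 hx).1, (mem_filter.1 hx).2⟩
  have h1 := fun y hy => (h y hy).cn
  refine ⟨hm, hf, fun y hy => ?_, fun x hx x' hx' hr => ?_, fun C hC _ => ?_,
    fun G _ z hz he => ex_of_comap hm hf h0 h1 hz he, fun G _ z hz => ?_⟩
  · obtain ⟨x, hx, hle⟩ := h0 y hy
    exact ⟨x, hx, Rch.of_le (hm x hx) hy hle⟩
  · exact rch_fib h0 h1 (hm x hx) hr hx hx' le_rfl le_rfl
  · exact chi_fib hm hf (fun y hy => (h y hy).chi) hC
  · exact exists_comap hm hf h0 h1 (fun y hy => (h y hy).h1 G z (hz.mono (filter_subset _ _)))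

theorem WE.dual (h : WE A B f) : WE (α := αᵒᵈ) (β := βᵒᵈ) A B f := by
  refine ⟨h.maps, fun x hx y hy hle => h.mono y hy x hx hle, fun y hy => ?_,
    fun x hx x' hx' hr => rch_dual.2 (h.inj x hx x' hx' (rch_dual.1 hr)), fun C h1 h2 => ?_,
    fun G _ z hz he => ?_, fun G _ z hz => ?_⟩
  · obtain ⟨x, hx, hr⟩ := h.surj y hy
    exact ⟨x, hx, rch_dual.2 hr⟩
  · exact ((chi_dual (α := α) _).trans (h.chi C h2 h1)).trans (chi_dual (α := β) C).symm
  · refine (ex_dual (α := βᵒᵈ) (A := B) (z := z)).1 (h.ex G _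
      ((coc_dual (α := βᵒᵈ) (A := B) (z := z)).2 hz) ?_)
    exact (ex_dual (α := αᵒᵈ) (A := A) (z := fun x y => z (f x) (f y))).2 he
  · obtain ⟨w, hw, he⟩ := h.onto G _ ((coc_dual (α := αᵒᵈ) (A := A) (z := z)).2 hz)
    refine ⟨fun x y => -w y x, (coc_dual (α := β) (A := B) (z := w)).2 hw, ?_⟩
    refine ((ex_dual (α := α) (A := A) (z := _)).2 he).congr (α := αᵒᵈ) ?_
    intro x _ y _ _
    simp only [neg_sub, sub_neg_eq_add]
    exact add_comm _ _

open Classical in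
theorem WE.of_ge (hm : ∀ x ∈ A, f x ∈ B) (hf : ∀ x ∈ A, ∀ y ∈ A, x ≤ y → f x ≤ f y)
    (h : ∀ y ∈ B, Ctr (A.filter (fun x => y ≤ f x))) : WE A B f :=
  (WE.of_le (α := αᵒᵈ) (β := βᵒᵈ) (A := A) (B := B) (f := f) hm
    (fun x hx y hy hle => hf y hy x hx hle) (fun y hy => (h y hy).dual)).dual

lemma low_self (A : Finset α) : Low A A := ⟨Subset.rfl, fun _ _ _ hy _ => hy⟩
lemma upp_self (A : Finset α) : Upp A A := ⟨Subset.rfl, fun _ _ _ hy _ => hy⟩

open Classical in
lemma WE.low (h : WE A B f) {C : Finset β} (hC : Low B C) :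
    Low A (A.filter (fun x => f x ∈ C)) :=
  ⟨filter_subset _ _, fun x hx y hy hle => mem_filter.2 ⟨hy, hC.2 _ (mem_filter.1 hx).2 _
    (h.maps y hy) (h.mono y hy x (mem_filter.1 hx).1 hle)⟩⟩

open Classical in
lemma WE.upp (h : WE A B f) {C : Finset β} (hC : Upp B C) :
    Upp A (A.filter (fun x => f x ∈ C)) :=
  ⟨filter_subset _ _, fun x hx y hy hle => mem_filter.2 ⟨hy, hC.2 _ (mem_filter.1 hx).2 _
    (h.maps y hy) (h.mono x (mem_filter.1 hx).1 y hy hle)⟩⟩

theorem WE.chi_eq (h : WE A B f) : Kh11.chi A = Kh11.chi B := by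
  classical
  have := h.chi B (low_self B) (upp_self B)
  rwa [filter_true_of_mem (fun x hx => h.maps x hx)] at this

theorem WE.rch_iff (h : WE A B f) {x x' : α} (hx : x ∈ A) (hx' : x' ∈ A) :
    Rch A x x' ↔ Rch B (f x) (f x') :=
  ⟨fun hr => hr.map h.maps h.mono, h.inj x hx x' hx'⟩

open Classical in
theorem WE.cmp_eq (h : WE A B f) {x : α} (hx : x ∈ A) :
    cmp A x = A.filter (fun t => f t ∈ cmp B (f x)) := by
  ext t
  simp only [mem_cmp, mem_filter]
  exact ⟨fun a => ⟨a.1, h.maps t a.1, (h.rch_iff hx a.1).1 a.2⟩,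
    fun a => ⟨a.1, (h.rch_iff hx a.1).2 a.2.2⟩⟩

theorem WE.chi_cmp (h : WE A B f) {x : α} (hx : x ∈ A) :
    Kh11.chi (cmp A x) = Kh11.chi (cmp B (f x)) := by
  rw [h.cmp_eq hx]
  exact h.chi _ (cmp_low _ _) (cmp_upp _ _)

theorem WE.cn_iff (h : WE A B f) : Cn A ↔ Cn B := by
  constructor
  · intro hc y hy y' hy'
    obtain ⟨x, hx, a⟩ := h.surj y hy
    obtain ⟨x', hx', a'⟩ := h.surj y' hy'
    exact (a.symm.trans ((hc x hx x' hx').map h.maps h.mono)).trans a'
  · exact fun hc x hx x' hx' => h.inj x hx x' hx' (hc _ (h.maps x hx) _ (h.maps x' hx'))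

theorem WE.ne_iff (h : WE A B f) : A.Nonempty ↔ B.Nonempty :=
  ⟨fun ⟨x, hx⟩ => ⟨f x, h.maps x hx⟩, fun ⟨y, hy⟩ => let ⟨x, hx, _⟩ := h.surj y hy; ⟨x, hx⟩⟩

theorem WE.h1z_iff (h : WE A B f) : H1z A ↔ H1z B := by
  constructor
  · exact fun hc G _ z hz => h.ex G z hz (hc G _ (hz.comap h.maps h.mono))
  · intro hc G _ z hz
    obtain ⟨w, hw, he⟩ := h.onto G z hz
    refine (he.add ((hc G w hw).comap h.maps h.mono)).congr ?_
    intro x _ y _ _
    abel

theorem WE.ctr_iff (h : WE A B f) : Ctr A ↔ Ctr B :=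
  ⟨fun c => ⟨h.ne_iff.1 c.ne, h.cn_iff.1 c.cn, h.chi_eq ▸ c.chi, h.h1z_iff.1 c.h1⟩,
   fun c => ⟨h.ne_iff.2 c.ne, h.cn_iff.2 c.cn, h.chi_eq.symm ▸ c.chi, h.h1z_iff.2 c.h1⟩⟩

theorem WE.comp {C : Finset γ} {g : β → γ} (h : WE A B f) (h' : WE B C g) :
    WE A C (fun x => g (f x)) := by
  classical
  refine ⟨fun x hx => h'.maps _ (h.maps x hx), fun x hx y hy hle =>
    h'.mono _ (h.maps x hx) _ (h.maps y hy) (h.mono x hx y hy hle), fun t ht => ?_,
    fun x hx x' hx' hr => h.inj x hx x' hx' (h'.inj _ (h.maps x hx) _ (h.maps x' hx') hr),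
    fun D h1 h2 => ?_, fun G _ z hz he => h'.ex G z hz (h.ex G _ (hz.comap h'.maps h'.mono) he),
    fun G _ z hz => ?_⟩
  · obtain ⟨y, hy, a⟩ := h'.surj t ht
    obtain ⟨x, hx, b⟩ := h.surj y hy
    exact ⟨x, hx, (b.map h'.maps h'.mono).trans a⟩
  · rw [← h'.chi D h1 h2, ← h.chi _ (h'.low h1) (h'.upp h2)]
    congr 1
    ext x
    simp only [mem_filter]
    exact ⟨fun a => ⟨a.1, h.maps x a.1, a.2⟩, fun a => ⟨a.1, a.2.2⟩⟩
  · obtain ⟨w, hw, he⟩ := h.onto G z hz
    obtain ⟨v, hv, he'⟩ := h'.onto G w hw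
    refine ⟨v, hv, (he.add (he'.comap h.maps h.mono)).congr ?_⟩
    intro x _ y _ _
    abel

theorem WE.congr {g : α → β} (h : WE A B f) (e : ∀ x ∈ A, g x = f x) : WE A B g := by
  classical
  refine ⟨fun x hx => e x hx ▸ h.maps x hx, fun x hx y hy hle => ?_, fun y hy => ?_,
    fun x hx x' hx' hr => h.inj x hx x' hx' (by rwa [e x hx, e x' hx'] at hr), fun C h1 h2 => ?_,
    fun G _ z hz he => h.ex G z hz (he.congr fun x hx y hy _ => by rw [e x hx, e y hy]),
    fun G _ z hz => ?_⟩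
  · rw [e x hx, e y hy]; exact h.mono x hx y hy hle
  · obtain ⟨x, hx, a⟩ := h.surj y hy
    exact ⟨x, hx, by rwa [e x hx]⟩
  · rw [← h.chi C h1 h2]
    congr 1
    exact filter_congr (fun x hx => by rw [e x hx])
  · obtain ⟨w, hw, he⟩ := h.onto G z hz
    exact ⟨w, hw, he.congr fun x hx y hy _ => by rw [e x hx, e y hy]⟩

open Classical in
/-- a weak equivalence restricts to a union of components -/
theorem WE.restr (h : WE A B f) {C : Finset β} (h1 : Low B C) (h2 : Upp B C) :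
    WE (A.filter (fun x => f x ∈ C)) C f := by
  have l1 := h.low h1
  have l2 := h.upp h2
  refine ⟨fun x hx => (mem_filter.1 hx).2, fun x hx y hy hle =>
    h.mono x (l1.1 hx) y (l1.1 hy) hle, fun y hy => ?_, fun x hx x' hx' hr => ?_,
    fun D d1 d2 => ?_, fun G _ z hz he => ?_, fun G _ z hz => ?_⟩
  · obtain ⟨x, hx, a⟩ := h.surj y (h1.1 hy)
    have b := Rch.in_clopen h1 h2 hy a.symm
    exact ⟨x, mem_filter.2 ⟨hx, b.mem hy⟩, b.symm⟩
  · exact Rch.in_clopen l1 l2 hx (h.inj x (l1.1 hx) x' (l1.1 hx') (hr.mono h1.1))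
  · rw [← h.chi D ⟨d1.1.trans h1.1, fun x hx y hy hle =>
        d1.2 x hx y (h1.2 x (d1.1 hx) y hy hle) hle⟩
      ⟨d1.1.trans h1.1, fun x hx y hy hle => d2.2 x hx y (h2.2 x (d1.1 hx) y hy hle) hle⟩]
    congr 1
    ext x
    simp only [mem_filter]
    exact ⟨fun a => ⟨a.1.1, a.2⟩, fun a => ⟨⟨a.1, d1.1 a.2⟩, a.2⟩⟩
  · have hc : Coc B (fun x y => if x ∈ C then z x y else 0) := by
      intro x hx y hy t ht a b
      by_cases hxC : x ∈ C
      · have hyC := h2.2 x hxC y hy a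
        simp only [hxC, hyC, if_true]
        exact hz x hxC y hyC t (h2.2 y hyC t ht b) a b
      · have hyC : y ∉ C := fun c => hxC (h1.2 y c x hx a)
        simp [hxC, hyC]
    obtain ⟨a, ha⟩ := he
    have := h.ex G _ hc ⟨fun x => if f x ∈ C then a x else 0, fun x hx y hy hle => by
      by_cases hxC : f x ∈ C
      · have hyC := h2.2 _ hxC _ (h.maps y hy) (h.mono x hx y hy hle)
        simp only [hxC, hyC, if_true]
        exact ha x (mem_filter.2 ⟨hx, hxC⟩) y (mem_filter.2 ⟨hy, hyC⟩) hle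
      · have hyC : f y ∉ C := fun c => hxC (h1.2 _ c _ (h.maps x hx) (h.mono x hx y hy hle))
        simp [hxC, hyC]⟩
    exact (this.mono h1.1).congr (fun x hx y _ _ => by simp [hx])
  · have hc : Coc A (fun x y => if f x ∈ C then z x y else 0) := by
      intro x hx y hy t ht a b
      by_cases hxC : f x ∈ C
      · have hx' : x ∈ A.filter (fun x => f x ∈ C) := mem_filter.2 ⟨hx, hxC⟩
        have hy' := l2.2 x hx' y hy a
        simp only [hxC, (mem_filter.1 hy').2, if_true]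
        exact hz x hx' y hy' t (l2.2 y hy' t ht b) a b
      · have hyC : f y ∉ C := fun c => hxC (h1.2 _ c _ (h.maps x hx) (h.mono x hx y hy a))
        simp [hxC, hyC]
    obtain ⟨w, hw, he⟩ := h.onto G _ hc
    exact ⟨w, hw.mono h1.1, (he.mono l1.1).congr (fun x hx y _ _ => by
      simp [(mem_filter.1 hx).2])⟩

theorem WE.cmp (h : WE A B f) {x : α} (hx : x ∈ A) : WE (cmp A x) (cmp B (f x)) f := by
  rw [h.cmp_eq hx]
  exact h.restr (cmp_low _ _) (cmp_upp _ _)

section Retr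

variable {D : Finset α} {r : α → α}

/-- an interior operator: the inclusion is a weak equivalence -/
theorem we_incl_of_int (hD : D ⊆ A) (h1 : ∀ x ∈ A, r x ∈ D ∧ r x ≤ x)
    (h2 : ∀ x ∈ A, ∀ b ∈ D, b ≤ x → b ≤ r x) : WE D A (fun x => x) := by
  classical
  refine WE.of_le (fun x hx => hD hx) (fun _ _ _ _ h => h) (fun y hy => ?_)
  exact ctr_max (m := r y) (mem_filter.2 (h1 y hy)) (fun x hx =>
    h2 y hy x (mem_filter.1 hx).1 (mem_filter.1 hx).2)

/-- a closure operator: the inclusion is a weak equivalence -/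
theorem we_incl_of_clo (hD : D ⊆ A) (h1 : ∀ x ∈ A, r x ∈ D ∧ x ≤ r x)
    (h2 : ∀ x ∈ A, ∀ b ∈ D, x ≤ b → r x ≤ b) : WE D A (fun x => x) := by
  classical
  refine WE.of_ge (fun x hx => hD hx) (fun _ _ _ _ h => h) (fun y hy => ?_)
  exact ctr_min (m := r y) (mem_filter.2 (h1 y hy)) (fun x hx =>
    h2 y hy x (mem_filter.1 hx).1 (mem_filter.1 hx).2)

end Retr

/-- a map with a lower adjoint on the sets -/
theorem we_of_adj {g : β → α} (hm : ∀ x ∈ A, f x ∈ B)
    (hf : ∀ x ∈ A, ∀ y ∈ A, x ≤ y → f x ≤ f y) (hg : ∀ y ∈ B, g y ∈ A)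
    (h : ∀ x ∈ A, ∀ y ∈ B, y ≤ f x ↔ g y ≤ x) : WE A B f := by
  classical
  refine WE.of_ge hm hf (fun y hy => ctr_min (m := g y)
    (mem_filter.2 ⟨hg y hy, (h _ (hg y hy) y hy).2 le_rfl⟩) (fun x hx => ?_))
  exact (h x (mem_filter.1 hx).1 y hy).1 (mem_filter.1 hx).2

/-- a map with an upper adjoint on the sets -/
theorem we_of_adj' {g : β → α} (hm : ∀ x ∈ A, f x ∈ B)
    (hf : ∀ x ∈ A, ∀ y ∈ A, x ≤ y → f x ≤ f y) (hg : ∀ y ∈ B, g y ∈ A)
    (h : ∀ x ∈ A, ∀ y ∈ B, f x ≤ y ↔ x ≤ g y) : WE A B f := by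
  classical
  refine WE.of_le hm hf (fun y hy => ctr_max (m := g y)
    (mem_filter.2 ⟨hg y hy, (h _ (hg y hy) y hy).2 le_rfl⟩) (fun x hx => ?_))
  exact (h x (mem_filter.1 hx).1 y hy).1 (mem_filter.1 hx).2

end Crest.Agent.X212.Kh11
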