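import Crest.Agent.X212.Kh11.Bas2
import Crest.Agent.X212.H7.Nf0
import Crest.Agent.X212.Sm10.Red2
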