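import Crest.Agent.X212.Kn44.N1
import Crest.Agent.X212.Cut21.Brg
import Crest.Agent.X212.Kh11.Bas
import Crest.Agent.X212.Hp13.TraD
import Crest.Agent.X212.Kh11.Lev
import Crest.Agent.X212.Alg36.Rev
import Crest.Agent.X212.Sm25.Glu
import Crest.Agent.X212.Kh11.Leaf
import Crest.Agent.X212.Hp13.Tst

-- ▼ part X212/Kn44/Red
section

/-! X212 / KH-RED1 (helper44): a reducing disc lowers the complexity. -/

set_option autoImplicit false
set_option linter.unusedSectionVars false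
set_option maxHeartbeats 400000

open Finset Classical

noncomputable section

namespace Crest.Agent.X212.Kn44

open Hp13 Hk
open Alg36 (Om Esc mix)

variable {P R : Type} [PartialOrder P] [Fintype P] [PartialOrder R] {car : P → R}
  {Y X G N T E C : Set P} {x y : P}

theorem ncmp_le (h : C ⊆ E) (hc : ∀ x ∈ C, ∀ y ∈ E, Cm x y → y ∈ C) : ncmp C ≤ ncmp E := by
  by_cases e : E ⊆ C
  · rw [Set.Subset.antisymm h e]
  · obtain ⟨k, h1, h2⟩ := Set.not_subset.1 e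
    exact (Hp13.ncmp_lt h hc h1 h2).le

/-- the moved surface over a subcomplex that does not see the frontier of `N` -/
theorem mvG_inter (hG : G ⊆ cl X) (hT : IsLowerSet T) (h : Flat (T ∩ cl X) (cb (ind N))) :
    mvG X G N ∩ t2 ⁻¹' T = t2 ⁻¹' ((G \ N) ∩ T) := by
  have k : ∀ c : Ch (Ch P), t2 c ∈ T → t2 c ∈ cl X → ∀ x ∈ c.bot.1, (x ∈ N ↔ t2 c ∈ N) :=
    fun c h1 h2 x hx => cb_ind_eq_zero.1
      (h x ⟨hT (le_t2 hx) h1, Hk.cl_low (le_t2 hx) h2⟩ _ ⟨h1, h2⟩ (le_t2 hx))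
  ext c
  constructor
  · rintro ⟨⟨h1, x, hx, n⟩ | ⟨⟨h1, y, hy, m⟩, x, hx, n⟩, h2⟩
    · exact ⟨⟨h1, fun e => n ((k c h2 (hG h1) x hx).2 e)⟩, h2⟩
    · exact absurd ((k c h2 h1 x hx).2 ((k c h2 h1 y hy).1 m)) n
  · rintro ⟨⟨h1, n⟩, h2⟩
    exact ⟨.inl ⟨h1, _, c.bot.top_mem, fun e => n ((k c h2 (hG h1) _ c.bot.top_mem).1 e)⟩, h2⟩

section fam
variable {k : ℕ} {U G V : Fin k → Set P} (h : Fm car Y k U G V)
include h

theorem fm_side {i j : Fin k} (n : j ≠ i) : G j ⊆ U i ∨ G j ⊆ V i :=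
  two_side (h.mem i).two (h.mem j).conn (h.mem j).sub (h.dj j i n)

theorem fm_nest (hY : Amb Y) {i j : Fin k} (n : i ≠ j) (s : G j ⊆ U i) : G i ⊆ V j := by
  refine (fm_side h n).resolve_left fun s' => ?_
  have ti := (h.mem i).two
  have tj := (h.mem j).two
  have cl : ∀ x, ∀ y ∈ U i ∪ U j, x ≤ y → x ∈ U i ∪ U j := fun x y hy l => by_contra fun e =>
    hy.elim (fun k => e (.inr (s' ((h.mem i).om ⟨fun m => e (.inl m), y, k, l⟩))))
      fun k => e (.inl (s ((h.mem j).om ⟨fun m => e (.inr m), y, k, l⟩)))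
  obtain ⟨a, ha⟩ := (h.mem i).ne
  obtain ⟨b, hb, r, x, hx, c⟩ := hY.esc a ((h.mem i).sub ha)
  have hb' : b ∈ U i ∪ U j := r.ind (.inr (s' ha)) fun p _ q _ l =>
    ⟨fun e => (ti.up.union tj.up) l e, fun e => cl p q e l⟩
  exact hx (c.elim (fun l => hY.up l hb) fun l => (cl x b hb' l).elim (ti.sub ·) (tj.sub ·))

theorem fm_pre (hY : Amb Y) {t : St} {f : t.P → P} (w : Tw P t f) :
    Fm (car ∘ f) (f ⁻¹' Y) k (fun j => f ⁻¹' U j) (fun j => f ⁻¹' G j) fun j => f ⁻¹' V j :=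
  ⟨fun i => (h.mem i).pre w, fun i j n => (h.dj i j n).preimage f,
    fun i j n => (h.np i j n).pre (fm_nest h hY n) w⟩

/-- the trace of the moved family -/
theorem mv_trace {i : Fin k} (hG : G i ⊆ cl X) (hT : IsLowerSet T)
    (fl : Flat (T ∩ cl X) (cb (ind N))) (dj : ∀ j, j ≠ i → Disjoint N (G j)) :
    (⋃ j, if j = i then mvG X (G i) N else t2 ⁻¹' G j) ∩ t2 ⁻¹' T =
      t2 ⁻¹' (((⋃ j, G j) \ N) ∩ T) ∧
    ∀ x ∈ ((⋃ j, G j) \ N) ∩ T, ∀ y ∈ (⋃ j, G j) ∩ T, Cm x y → y ∈ ((⋃ j, G j) \ N) ∩ T := by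
  refine ⟨?_, fun x hx y hy c => ⟨⟨hy.1, fun e => hx.1.2 ?_⟩, hy.2⟩⟩
  · rw [Set.iUnion_inter, Set.iUnion_sdiff, Set.iUnion_inter, Set.preimage_iUnion]
    refine Set.iUnion_congr fun j => ?_
    split_ifs with e
    · rw [e, mvG_inter hG hT fl]
    · rw [(dj j e).symm.sdiff_eq_left, Set.preimage_inter]
  · obtain ⟨j, hj⟩ := Set.mem_iUnion.1 hy.1
    obtain rfl : j = i := by_contra fun n => Set.disjoint_left.1 (dj j n) e hj
    have hi := fm_cm h hj hx.1.1 c.symm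
    exact c.elim (fun l => (cb_ind_eq_zero.1 (fl x ⟨hx.2, hG hi⟩ y ⟨hy.2, hG hj⟩ l)).2 e)
      fun l => (cb_ind_eq_zero.1 (fl y ⟨hy.2, hG hj⟩ x ⟨hx.2, hG hi⟩ l)).1 e

end fam

/-- **KH-RED1** -/
theorem red1Stmt (ball : BallStmt) (fam : FamStmt) : Red1Stmt := by
  intro P _ _ Y t f k U G V i X u Z h hX r
  have hY : Amb (f ⁻¹' (Ch.top ⁻¹' Y)) := (h.amb.pre (Tw.one P)).pre h.tw
  have m := h.fm.mem i
  obtain ⟨X', tw, side⟩ : ∃ X', Two f (f ⁻¹' (Ch.top ⁻¹' Y)) X (G i) X' ∧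
      ∀ j, j ≠ i → G j ⊆ X ∨ G j ⊆ X' := by
    rcases hX with rfl | rfl
    exacts [⟨_, m.two, fun j n => fm_side h.fm n⟩,
      ⟨_, two_symm m.two hY.up m.sub, fun j n => (fm_side h.fm n).symm⟩]
  obtain ⟨s, g, N, w, bl, fl, ne, dj⟩ :=
    ball _ _ f _ X (G i) X' Z u hY tw m.sub m.conn m.nb r.td r.on r.sub r.ctr r.fro
  have dj' : ∀ j, j ≠ i → Disjoint N (g ⁻¹' G j) := fun j n => (side j n).elim
    (fun e => dj _ (h.fm.mem j).two.bd.low e (h.fm.mem j).conn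
      ((r.fg j n).mono fun _ hx => ⟨hx, Hk.sub_cl (e hx)⟩) (h.fm.mem j).nb)
    fun e => Set.disjoint_left.2 fun x hx k => (bl.sub hx).elim
      (fun a => Set.disjoint_left.1 tw.dj a (e k)) fun a => Set.disjoint_left.1 tw.dg (e k) a
  have fm := fm_pre h.fm hY w
  obtain ⟨U', V', fm'⟩ := fam _ _ _ _ k _ _ _ i (g ⁻¹' X) N (hY.pre w) fm
    (hX.imp (congrArg _) (congrArg _)) bl dj'
  have tr : ∀ n, n ≤ 3 → ncmp ((⋃ j, if j = i then mvG (g ⁻¹' X) (g ⁻¹' G i) N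
      else t2 ⁻¹' (g ⁻¹' G j)) ∩ t2 ⁻¹' (g ⁻¹' Sk f n)) =
        ncmp (((⋃ j, g ⁻¹' G j) \ N) ∩ g ⁻¹' Sk f n) ∧
      ncmp ((⋃ j, g ⁻¹' G j) ∩ g ⁻¹' Sk f n) = ncmp ((⋃ j, G j) ∩ Sk f n) ∧
      ∀ x ∈ ((⋃ j, g ⁻¹' G j) \ N) ∩ g ⁻¹' Sk f n, ∀ y ∈ (⋃ j, g ⁻¹' G j) ∩ g ⁻¹' Sk f n,
        Cm x y → y ∈ ((⋃ j, g ⁻¹' G j) \ N) ∩ g ⁻¹' Sk f n := fun n hn => by
    have l := sk_low h.tw.mono n
    have e := fl _ l (r.ft.mono fun x hx => ⟨le_trans hx.1 hn, hx.2⟩)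
    rw [Set.preimage_inter, ← w.cl] at e
    obtain ⟨e1, e2⟩ := mv_trace fm (i := i) (tw.bd.pre w).sub_cl (w.lower l) e dj'
    exact ⟨e1 ▸ (Tw.two s.P).ncmp _, by
      rw [← Set.preimage_iUnion, ← Set.preimage_inter, w.ncmp], e2⟩
  have sub : ∀ n, ((⋃ j, g ⁻¹' G j) \ N) ∩ g ⁻¹' Sk f n ⊆ (⋃ j, g ⁻¹' G j) ∩ g ⁻¹' Sk f n :=
    fun n => Set.inter_subset_inter_left _ Set.sdiff_subset
  refine ⟨(lv0 s.P).sd.sd, (f ∘ g) ∘ t2, U', _, V', ⟨h.amb, (h.tw.trans w).trans (Tw.two s.P), fm'⟩,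
    ?_, ?_⟩
  · obtain ⟨e1, e2, e3⟩ := tr 2 (by norm_num)
    exact e1.trans_le ((ncmp_le (sub 2) e3).trans_eq e2)
  · obtain ⟨e1, e2, e3⟩ := tr 3 le_rfl
    obtain ⟨x, hx, k1, k2⟩ := ne _ (sk_low h.tw.mono 3) r.ne
    exact e1.trans_lt ((Hp13.ncmp_lt (sub 3) e3 ⟨Set.mem_iUnion.2 ⟨i, k1⟩, k2⟩
      fun e => e.1.2 hx).trans_eq e2)

end Crest.Agent.X212.Kn44
end
end

-- ▼ part X212/Cut21/Mv2
section

/-!
# X212 / Cut21 (helper21): the leaf MV-2 of P1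
-/

set_option autoImplicit false
set_option linter.unusedSectionVars false

open Finset Classical

noncomputable section

namespace Crest.Agent.X212.Cut21

open Crest.Agent.X212.Hp13 hiding exOn_add exOn_neg exOn_congr exOn_pb sub_cl cl_low cl_mono om_low
open Alg36 (Om Esc mix Clo)
open _root_.Crest.Agent.X212.Hk
open Kh11 (WS)

variable {P : Type} [PartialOrder P] [Fintype P] {A B X Y G N W : Set P}
  {Γ : Type} [AddCommGroup Γ] {a b ζ : P → P → Γ}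

/-- both sets are lower in their union -/
def Lw (A B : Set P) : Prop :=
  (∀ x ∈ B, ∀ y ∈ A, x ≤ y → x ∈ A) ∧ ∀ x ∈ A, ∀ y ∈ B, x ≤ y → x ∈ B

theorem Lw.of (hA : IsLowerSet A) (hB : IsLowerSet B) : Lw A B :=
  ⟨fun _ _ _ k l => hA l k, fun _ _ _ k l => hB l k⟩

theorem Lw.l (h : Lw A B) {x y : P} (hx : x ∈ A ∪ B) (hy : y ∈ A) (l : x ≤ y) : x ∈ A :=
  hx.elim id fun k => h.1 x k y hy l

theorem Lw.r (h : Lw A B) {x y : P} (hx : x ∈ A ∪ B) (hy : y ∈ B) (l : x ≤ y) : x ∈ B :=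
  hx.elim (fun k => h.2 x k y hy l) id

theorem Lw.eqE (h : Lw A B) (h1 : EqE A a b) (h2 : EqE B a b) : EqE (A ∪ B) a b :=
  fun x hx y hy l => hy.elim (fun k => h1 x (h.l hx k l) y k l) fun k => h2 x (h.r hx k l) y k l

theorem Lw.coc (h : Lw A B) (ha : CocOn A a) (hb : CocOn B b) (e : EqE (A ∩ B) a b) :
    ∃ c, CocOn (A ∪ B) c ∧ EqE A c a ∧ EqE B c b := by
  let c : P → P → Γ := fun x y => if y ∈ A then a x y else b x y
  have h1 : EqE A c a := fun _ _ _ k _ => if_pos k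
  have h2 : EqE B c b := fun x hx y hy l => by
    by_cases k : y ∈ A
    · exact (if_pos k).trans (e x ⟨h.1 x hx y k l, hx⟩ y ⟨k, hy⟩ l)
    · exact if_neg k
  exact ⟨c, fun x hx y hy v hv l l' => hv.elim
    (fun k => cocOn_congr ha h1 x (h.l hx k (l.trans l')) y (h.l hy k l') v k l l')
    fun k => cocOn_congr hb h2 x (h.r hx k (l.trans l')) y (h.r hy k l') v k l l', h1, h2⟩

theorem Lw.ex (h : Lw A B) (ha : ExOn A ζ) (hb : ExOn B ζ)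
    (hc : ∀ x ∈ A ∩ B, ∀ y ∈ A ∩ B, Rch B x y → Rch (A ∩ B) x y) : ExOn (A ∪ B) ζ := by
  obtain ⟨g, hg⟩ := ha
  obtain ⟨g', hg'⟩ := hb
  have e : ∀ x ∈ A ∩ B, ∀ y ∈ A ∩ B, Rch B x y → g x - g' x = g y - g' y := fun x hx y hy r =>
    (hc x hx y hy r).eq (g := fun x => g x - g' x) fun s hs t ht l => by
      have := (hg s hs.1 t ht.1 l).symm.trans (hg' s hs.2 t ht.2 l)
      rw [sub_eq_sub_iff_sub_eq_sub, ← neg_sub, this, neg_sub]
  let k : P → Γ := fun x =>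
    if j : ∃ y ∈ A ∩ B, Rch B x y then g j.choose - g' j.choose else 0
  have k1 : ∀ x, ∀ y ∈ A ∩ B, Rch B x y → k x = g y - g' y := fun x y hy r =>
    have j : ∃ y ∈ A ∩ B, Rch B x y := ⟨y, hy, r⟩
    (dif_pos j).trans (e _ j.choose_spec.1 y hy (j.choose_spec.2.symm.trans r))
  have k2 : ∀ x ∈ B, ∀ y ∈ B, x ≤ y → k x = k y := fun x hx y hy l => by
    have r := Rch.of_cm hx hy (Or.inl l)
    by_cases j : ∃ t ∈ A ∩ B, Rch B x t
    · obtain ⟨t, t1, t2⟩ := j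
      rw [k1 x t t1 t2, k1 y t t1 (r.symm.trans t2)]
    · have j' : ¬ ∃ t ∈ A ∩ B, Rch B y t := fun ⟨t, t1, t2⟩ => j ⟨t, t1, r.trans t2⟩
      simp only [k, dif_neg j, dif_neg j']
  let u : P → Γ := fun x => if x ∈ A then g x else g' x + k x
  have u2 : ∀ x ∈ B, u x = g' x + k x := fun x hx => by
    by_cases j : x ∈ A
    · rw [k1 x x ⟨j, hx⟩ Rch.rfl]; simp [u, j]
    · exact if_neg j
  refine ⟨u, h.eqE (b := cb u) (fun x hx y hy l => ?_) fun x hx y hy l => ?_⟩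
  · simp only [cb, u, if_pos hx, if_pos hy, hg x hx y hy l]
  · rw [cb, u2 x hx, u2 y hy, k2 x hx y hy l, hg' x hx y hy l]; abel

theorem Lw.ex' (h : Lw A B) (ha : ExOn A ζ) (hb : ExOn B ζ) (hc : Conn (A ∩ B)) :
    ExOn (A ∪ B) ζ := h.ex ha hb fun x hx y hy _ => hc x hx y hy

theorem Lw.conn (h : Lw A B) (hu : Conn (A ∪ B)) (hc : Conn (A ∩ B)) (hn : (A ∩ B).Nonempty) :
    Conn A := by
  obtain ⟨m, hm⟩ := hn
  have k : ∀ x ∈ A, Rch A m x := fun x hx =>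
    (hu m (Or.inl hm.1) x (Or.inl hx)).ind (p := fun t => t ∈ A → Rch A m t) (fun _ => Rch.rfl)
      (fun s hs t ht l => ht.elim (fun j => by
        have i := h.l hs j l
        have r := Rch.of_cm i j (Or.inl l)
        exact ⟨fun a _ => (a i).trans r, fun a _ => (a j).trans r.symm⟩) fun j =>
        iff_of_true (fun i => (hc m hm s ⟨i, h.r hs j l⟩).mono Set.inter_subset_left)
          fun i => (hc m hm t ⟨i, j⟩).mono Set.inter_subset_left) hx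
  exact fun x hx y hy => (k x hx).symm.trans (k y hy)

theorem conn_union (hA : Conn A) (hB : Conn B) (hn : (A ∩ B).Nonempty) : Conn (A ∪ B) := by
  obtain ⟨m, hm⟩ := hn
  have k : ∀ x ∈ A ∪ B, Rch (A ∪ B) m x := fun x hx => hx.elim
    (fun j => (hA m hm.1 x j).mono Set.subset_union_left)
    fun j => (hB m hm.2 x j).mono Set.subset_union_right
  exact fun x hx y hy => (k x hx).symm.trans (k y hy)

/-- exact on every component -/
theorem exOn_cmp (h : ∀ C, IsCmp A C → ExOn C ζ) : ExOn A ζ := by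
  choose! g hg using h
  refine ⟨fun x => g (Hp13.cmp A x) x, fun x hx y hy l => ?_⟩
  have r := Rch.of_cm hx hy (Or.inl l)
  beta_reduce
  rw [← cmp_eq r]
  exact hg _ (isCmp_cmp hx) x (mem_cmp_self hx) y ⟨hy, r⟩ l

theorem ws_t2 (E : Set P) : WS (t2 ⁻¹' E) E t2 := (Kh11.ce_top.comp Kh11.ce_top).ws_pre E

theorem cl_t2 : cl (t2 ⁻¹' X) = t2 ⁻¹' cl X := by
  rw [Set.preimage_comp, cl_sd, cl_sd]; rfl

theorem om_t2 : Om (t2 ⁻¹' X) = t2 ⁻¹' Om X := by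
  rw [Set.preimage_comp, om_sd', om_sd']; rfl

theorem opn_t2 (h : Opn X G N) {c : Ch (Ch P)} (hc : c ∈ mvS X N) : t2 c ∈ N :=
  let ⟨k, x, a, b⟩ := hc; h.up x b _ k (le_t2 a)

theorem opn_lw (h : Opn X G N) (hX : IsUpperSet X) (hW : G ⊆ W) (hd : Disjoint W X) :
    Lw (t2 ⁻¹' W) (mvS X N) :=
  ⟨fun _ k _ j l => hW ((h.sub (opn_t2 h k)).resolve_left fun i =>
    Set.disjoint_left.1 hd j (hX (t2_mono l) i)), fun _ _ _ k l => mvS_low l k⟩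

theorem opn_inter (h : Opn X G N) (hG : Bd X G) (hW : G ⊆ W) (hd : Disjoint W X) :
    t2 ⁻¹' W ∩ mvS X N = mvH G N :=
  Set.ext fun _ => ⟨fun k => ⟨(h.sub (opn_t2 h k.2)).resolve_left (Set.disjoint_left.1 hd k.1),
    k.2.2⟩, fun k => ⟨hW k.1, hG.sub_cl k.1, k.2⟩⟩

theorem opn_on (h : Opn X G N) : On X G (cb (ind N)) := flat_of_disj (Set.disjoint_left.2
  fun _ k j => (h.sub j).elim k.1.1 k.2)

theorem mvK_inter (hG : Bd X G) : mvK G N ∩ mvD X N = mvK G N ∩ mvH G N :=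
  Set.ext fun _ => and_congr_right fun k =>
    ⟨fun j => ⟨k.1, j.1.2⟩, fun j => ⟨⟨hG.sub_cl k.1, j.2⟩, k.2⟩⟩

theorem bl_esc (h : Rg X) (hG : Bd X G) (hb : Bl X G N) (he : Esc X X) {n : P} (hn : n ∈ N) :
    ∃ m ∈ G, Rch N n m := by
  obtain ⟨q, hq⟩ := hb.td.ne
  rw [(opn_on hb.toOpn).cv hG] at hq
  have q1 := hq.1 _ q.top_mem
  obtain ⟨c, c1, c2⟩ := ex_ca h.up (hb.td.toS1.z1 h.up) (q := q)
    ⟨(dom_iff' h.up).2 (hG.sub_cl q1), hq.2⟩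
  have k : ∀ x, x ∉ N → ∀ y ∈ N, y ∈ X → x ≤ y → ∃ m ∈ G, Rch N y m := fun x hx y hy a l => by
    have := (hb.td.conn (Ch.pr x y l) ⟨by simpa using a, by simpa using cb_ind_pos.2 ⟨hx, hy⟩⟩
      c c1).map (f := Ch.top) (F := N) fun s hs t ht j =>
        Rch.of_cm (cb_ind_pos.1 hs.2).2 (cb_ind_pos.1 ht.2).2 (Or.inl (Ch.top_mono j))
    rw [Ch.top_pr] at this
    exact ⟨_, q1, this.trans (Rch.of_cm (cb_ind_pos.1 c1.2).2 (cb_ind_pos.1 hq.2).2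
      (Or.inr (Ch.top_mono c2)))⟩
  rcases hb.sub hn with a | a
  swap
  · exact ⟨n, a, Rch.rfl⟩
  obtain ⟨b, b1, r, x, x1, x2⟩ := he n a
  have s : X \ Nᶜ ⊆ N := fun _ j => not_not.1 j.2
  rcases r.exit (X := Nᶜ) (not_not.2 hn) with ⟨b2, r⟩ | ⟨t, t1, r, y, y1, y2, l⟩
  · have l := x2.resolve_left fun j => x1 (h.up j b1)
    by_cases j : x ∈ N
    · exact ⟨x, (hb.sub j).resolve_left x1,
        (r.mono s).trans (Rch.of_cm (not_not.1 b2) j (Or.inr l))⟩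
    · obtain ⟨m, m1, m2⟩ := k x j b (not_not.1 b2) b1 l
      exact ⟨m, m1, (r.mono s).trans m2⟩
  · obtain ⟨m, m1, m2⟩ := k y y2 t (s t1) t1.1
      (l.resolve_left fun j => y2 (hb.up t (s t1) y (sub_cl y1) j))
    exact ⟨m, m1, (r.mono s).trans m2⟩

theorem qq_mv (h : Rg X) (hY : X ⊆ Y) (ho : Opn X (Om X) N) (hs : Scr X N) (hq : QQ Y X)
    (e : Om (mvX X N) = mvK (Om X) N ∪ mvD X N) : QQ (t2 ⁻¹' Y) (mvX X N) := by
  have hG := bd_om h.up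
  have hW : Om X ⊆ cl Y \ X := fun _ k => ⟨cl_mono hY k.2, k.1⟩
  have hd : Disjoint (cl Y \ X) X := Set.disjoint_sdiff_left
  have e1 : cl (t2 ⁻¹' Y) \ mvX X N = t2 ⁻¹' (cl Y \ X) ∪ mvS X N := by
    rw [cl_t2]
    refine Set.ext fun c => ⟨fun k => ?_, fun k => k.elim (fun j => ⟨j.1, fun i => j.2 i.1⟩)
      fun j => ⟨cl_mono hY j.1, fun i => let ⟨_, x, a, b⟩ := j; i.2 x a b⟩⟩
    by_cases j : t2 c ∈ X
    · refine Or.inr ⟨sub_cl j, by_contra fun i => k.2 ⟨j, fun x a b => i ⟨x, a, b⟩⟩⟩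
    · exact Or.inl ⟨k.1, j⟩
  have l1 := opn_lw ho h.up hW hd
  have i1 := opn_inter ho hG hW hd
  have l2 : Lw (mvK (Om X) N) (mvH (Om X) N) := .of (mvK_low hG.low) (mvH_low hG.low)
  have l3 : Lw (mvK (Om X) N) (mvD X N) := .of (mvK_low hG.low) mvD_low
  have sK : mvK (Om X) N ⊆ t2 ⁻¹' Om X := fun _ k => k.1
  have sH : mvH (Om X) N ⊆ t2 ⁻¹' Om X := fun _ k => k.1
  have sD : mvD X N ⊆ mvS X N := fun _ k => k.1
  have sW : t2 ⁻¹' Om X ⊆ t2 ⁻¹' (cl Y \ X) := Set.preimage_mono hW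
  have xD : ∀ a : Ch (Ch P) → Ch (Ch P) → ZMod 2, CocOn (mvD X N) a → ExOn (mvD X N) a :=
    fun a ha => exOn_cmp fun C k => (hs C k).1.ex _ _ (cocOn_mono ha k.sub)
  refine ⟨fun a ha => ?_, fun b hb hx => ?_⟩
  · rw [e] at ha ⊢
    rw [e1]
    obtain ⟨g, hg⟩ := xD a (cocOn_mono ha Set.subset_union_right)
    have f1 : EqE (mvD X N) (a - cb g) 0 := fun x hx y hy l => sub_eq_zero.2 (hg x hx y hy l)
    obtain ⟨a2, c2, k1, k2⟩ := l2.coc (cocOn_sub (cocOn_mono ha Set.subset_union_left) (cocOn_cb g))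
      cocOn_zero (f1.mono (mvK_inter hG ▸ Set.inter_subset_right))
    rw [mvK_union_mvH] at c2
    obtain ⟨a3, c3, k3⟩ := (ws_t2 _).onto c2
    obtain ⟨b3, c4, k4⟩ := hq.q1 a3 c3
    obtain ⟨u, hu⟩ := exOn_sub (exOn_pb k4 t2_mono) k3
    have f2 : EqE (t2 ⁻¹' Om X) (pb t2 b3 - cb u) a2 := fun x hx y hy l => by
      have := hu x hx y hy l
      simp only [pb, cb, Pi.sub_apply] at this ⊢
      rw [← this]; ring
    obtain ⟨b, c5, k5, k6⟩ := l1.coc (cocOn_sub (cocOn_pb c4 t2_mono) (cocOn_cb u)) cocOn_zero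
      (i1 ▸ (f2.mono sH).trans k2)
    refine ⟨b, c5, exOn_congr (exOn_neg (exOn_cb g)) (l3.eqE (fun x hx y hy l => ?_)
      fun x hx y hy l => ?_)⟩
    · have := ((k5.mono (sK.trans sW)).trans ((f2.mono sK).trans k1)) x hx y hy l
      simp only [Pi.sub_apply, Pi.neg_apply] at this ⊢
      rw [this]; ring
    · have := k6 x (sD hx) y (sD hy) l
      have := hg x hx y hy l
      simp_all [cb]
  · rw [e1] at hb
    rw [om_t2] at hx
    rw [e]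
    obtain ⟨b3, c3, k3⟩ := (ws_t2 _).onto (cocOn_mono hb Set.subset_union_left)
    have hO : Om Y ⊆ cl Y \ X := fun _ k => ⟨k.2, fun j => k.1 (hY j)⟩
    have x1 := hq.q2 b3 c3 ((ws_t2 _).ex (cocOn_mono c3 hO)
      ((exOn_iff_of_sub (exOn_mono k3 (Set.preimage_mono hO))).1 hx))
    refine l3.ex (exOn_mono ((exOn_iff_of_sub (exOn_mono k3 sW)).2 (exOn_pb x1 t2_mono)) sK)
      (xD b (cocOn_mono hb (sD.trans Set.subset_union_right))) fun x hx y hy r => ?_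
    exact ((hs _ (isCmp_cmp hx.2)).2 x ⟨mem_cmp_self hx.2, hx.1.1⟩ y ⟨⟨hy.2, r⟩, hy.1.1⟩).mono
      fun c k => ⟨⟨k.2, k.1.1.2⟩, k.1.1⟩

theorem mv2Stmt (hw : MvWStmt) (h1 : Mv1Stmt) : Mv2Stmt := fun P _ _ X G N h hG => by
  refine ⟨fun hb => ?_, fun Y hY ho hs hq => qq_mv h hY ho hs hq ?_⟩
  swap
  · rw [(h1 P X _ N h (bd_om h.up) ho).2.2.2.1]; simp [mvG]
  have w1 := hw P (cl X) N cl_low hb.up
  have w2 := hw P G N hG.low fun x a y b => hb.up x a y (hG.sub_cl b)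
  have cD : Ctr (mvD X N) := by
    rw [mvD_eq, w1.2.2.ctr_iff, ← (ws_ca h hb.td.toS1).ctr_iff]; exact td_ctr h hb.td
  have cH : Ctr (mvH G N) := w2.2.1.ctr_iff.2 (Set.inter_comm N G ▸ hb.ctr)
  have o := (opn_on hb.toOpn).cv hG
  have cc : Conn (mvK G N ∩ mvH G N) :=
    w2.2.2.conn_iff.2 (o ▸ conn_cv h hb.td.toS1 hb.td.conn hb.td.chi.ge)
  have cn : (mvK G N ∩ mvH G N).Nonempty := w2.2.2.ne_iff.2 (o ▸ hb.td.ne)
  have l2 : Lw (mvK G N) (mvH G N) := .of (mvK_low hG.low) (mvH_low hG.low)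
  have l3 : Lw (mvK G N) (mvD X N) := .of (mvK_low hG.low) mvD_low
  have e := mvK_inter (N := N) hG
  refine ⟨cD, cH, e, cc, cn, fun D k => ?_, fun k => ?_, fun k n => bl_esc h hG hb k,
    fun A _ => ⟨fun ζ ζ' a b c => ⟨fun k => ?_, fun k => ?_⟩, fun W ζ a b c => ?_⟩⟩
  · obtain ⟨x, hx, rfl⟩ := k
    rw [cD.conn.cmp_eq hx]
    refine ⟨cD, ?_⟩
    convert cc using 1
    rw [← e]
    exact Set.ext fun c => ⟨fun j => ⟨⟨(hb.sub (opn_t2 hb.toOpn j.1.1)).resolve_left j.2.1,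
      j.1.2⟩, j.1⟩, fun j => ⟨j.2, hG.sub j.1.1⟩⟩
  · exact conn_union (l2.conn (by rw [mvK_union_mvH]; exact (ws_t2 G).conn_iff.2 k) cc cn) cD.conn (e ▸ cn)
  · exact l3.ex' ((exOn_iff_of_sub c).2 (exOn_mono (exOn_pb k t2_mono) fun _ j => j.1))
      (cD.ex _ _ (cocOn_mono b Set.subset_union_right)) (e ▸ cc)
  · exact (ws_t2 G).ex a (mvK_union_mvH (G := G) (N := N) ▸ l2.ex'
      ((exOn_iff_of_sub c).1 (exOn_mono k Set.subset_union_left))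
      (cH.ex _ _ (cocOn_mono (cocOn_pb a t2_mono) fun _ j => j.1)) cc)
  · obtain ⟨g, hg⟩ := cH.ex _ _ (cocOn_mono (cocOn_pb c t2_mono) fun _ j => a j.1)
    obtain ⟨z, z1, z2, -⟩ := (opn_lw hb.toOpn h.up a b).coc (cocOn_pb c t2_mono) (cocOn_cb g)
      (opn_inter hb.toOpn hG a b ▸ hg)
    exact ⟨z, z1, Flat.exOn fun x hx y hy l => sub_eq_zero.2 (z2 x hx y hy l)⟩

end Crest.Agent.X212.Cut21
end
end

-- ▼ part X212/Cut21/Ball
section

/-!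
# X212 / Cut21 (helper21): the leaves NBH and BALL of P1
-/

set_option autoImplicit false
set_option linter.unusedSectionVars false

open Finset Classical

noncomputable section

namespace Crest.Agent.X212.Cut21

open Crest.Agent.X212.Hp13 hiding exOn_add exOn_neg exOn_congr exOn_pb sub_cl cl_low cl_mono om_low
  dp_iff coc_iff
open Alg36 (Om Esc mix Clo)
open _root_.Crest.Agent.X212.Hk
open Kh11 (WS)

variable {P R : Type} [PartialOrder P] [Fintype P] [PartialOrder R] {X X' Y G N Z H B : Set P}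
  {w : P → P → ℤ} {car : P → R}

theorem ws_val (hZ : Z ⊆ H) : WS (Subtype.val ⁻¹' Z : Set H) Z Subtype.val :=
  WS.of_iso (fun _ k => k) (fun y k => ⟨⟨y, hZ k⟩, k, rfl⟩) fun _ _ _ _ => Iff.rfl

/-- the frontier of an open disc of a surface is connected -/
theorem conn_cv_ind (hm : MfIn H Z) (hZ : Z ⊆ H) (hu : ∀ x ∈ Z, ∀ y ∈ H, x ≤ y → y ∈ Z)
    (hc : Conn Z) (he : 1 ≤ eu Z) : Conn (Cv H (cb (ind Z))) := by
  have k := Sf30.conn_mix2 hm ((ws_val hZ).conn_iff.2 hc) ((ws_val hZ).eu_eq ▸ he)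
  have u : IsUpperSet (Subtype.val ⁻¹' Z : Set H) := fun a b l j => hu _ j _ b.2 l
  have e : ∀ c : Ch H, c ∈ mix (Subtype.val ⁻¹' Z : Set H) ↔ c.up ∈ Cv H (cb (ind Z)) := fun c => by
    rw [Cut21.mix_up u, Cv, Set.mem_ofPred_eq, cb_ind_pos, Ch.top_up, Ch.bot_up]
    exact ⟨fun j => ⟨c.up_sub, j.2, j.1⟩, fun j => ⟨j.2.2, j.2.1⟩⟩
  intro a ha b hb
  obtain ⟨a, rfl⟩ := Ch.exists_up ha.1
  obtain ⟨b, rfl⟩ := Ch.exists_up hb.1
  exact (k a ((e a).2 ha) b ((e b).2 hb)).map fun c hc d hd l =>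
    Rch.of_cm ((e c).1 hc) ((e d).1 hd) (Or.inl (Ch.up_le.2 l))

theorem conn_ca' (h : Rg X) (hw : S1 X w) (hc : Conn (Cv (Om X) w))
    (k : ∀ c ∈ CA X w, ∃ q ∈ Cv (Om X) w, Rch (Cv (cl X) w) c q) : Conn (CA X w) := by
  intro c hc' d hd
  obtain ⟨q, q1, q2⟩ := k c hc'
  obtain ⟨r, r1, r2⟩ := k d hd
  exact ((ws_ca h hw).rch_iff hc' hd).2 ((q2.trans ((hc q q1 r r1).mono
    (cv_mono om_sub_cl))).trans r2.symm)

/-- an open disc of the boundary -/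
theorem om_disc (hN : NmStmt) (h : Rg X) (hG : Bd X G) (hZ : Z ⊆ G)
    (hu : ∀ x ∈ Z, ∀ y ∈ G, x ≤ y → y ∈ Z) (hc : Ctr Z) :
    chi X (cb (ind Z)) = -1 ∧ Conn (Cv (Om X) (cb (ind Z))) ∧ ∃ x ∈ Z, ∃ y, y ∉ Z ∧ y ≤ x := by
  obtain ⟨m, -, -, -, e⟩ := (hN P).1 X h
  have s := hZ.trans hG.sub
  have u : ∀ x ∈ Z, ∀ y ∈ Om X, x ≤ y → y ∈ Z := fun x a y b l => hu x a y (hG.clo x (hZ a) y b l) l
  obtain ⟨x, x1, y, y1, y2, l⟩ := (hN P).2.1 _ Z m s hc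
  have l' := l.resolve_left fun j => y2 (u x x1 y y1 j)
  have m' : MfIn (Om X) Z := m.mono (Set.subset_univ _)
  have lo : Low Set.univ (Om X) Z :=
    ⟨m', Set.subset_univ _, fun y a x l => om_low h.up l (s a), u, hc.conn, y, y2, x, x1, l'⟩
  exact ⟨by rw [e Z s, lo.ee_eq, hc.eu], conn_cv_ind m' s u hc.conn hc.eu.ge, x, x1, y, y2, l'⟩

theorem ind_split (hG : Bd X G) (ho : N ⊆ X ∪ G) : cb (ind N) = cb (ind (N ∩ X)) + cb (ind (N ∩ G)) := by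
  rw [← cb_add]
  congr 1
  funext x
  by_cases a : x ∈ N
  · rcases ho a with b | b
    · simp [ind, a, b, show x ∉ G from fun j => hG.not j b]
    · simp [ind, a, b, hG.not b]
  · simp [ind, a]

theorem opn_up (hX : IsUpperSet X) (ho : Opn X G N) : IsUpperSet (N ∩ X) :=
  fun _ _ l k => ⟨ho.up _ k.1 _ (sub_cl (hX l k.2)) l, hX l k.2⟩

/-- a ball that meets the boundary in a disc -/
theorem bl_of (hN : NmStmt) (h : Rg X) (hG : Bd X G) (ho : Opn X G N) (hc : Conn (mix (N ∩ X)))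
    (he : eu (N ∩ X) = 1) (hz : Ctr (N ∩ G)) : Bl X G N := by
  have u := opn_up h.up ho
  have hb : Bal X (N ∩ X) := ⟨u, Set.inter_subset_right, hc, he⟩
  obtain ⟨a1, a2, x, x1, y, y1, l⟩ := om_disc hN h hG Set.inter_subset_right
    (fun x a y b l => ⟨ho.up x a.1 y (hG.sub_cl b) l, b⟩) hz
  have s := s1_ind ho.up
  have e : Cv (Om X) (cb (ind N)) = Cv (Om X) (cb (ind (N ∩ G))) := cv_congr fun a b c d _ => by
    have k : ∀ a ∈ Om X, ind N a = ind (N ∩ G) a := fun a b => ind_congr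
      ⟨fun j => ⟨j, (ho.sub j).resolve_left b.1⟩, fun j => j.1⟩
    rw [cb, cb, k a b, k c d]
  have q : ∀ x ∈ N, x ∉ X → ∀ y, y ∉ N → (l : y ≤ x) → Ch.pr y x l ∈ Cv (Om X) (cb (ind N)) :=
    fun x a b y c l => by
      have := hG.sub ((ho.sub a).resolve_left b)
      exact ⟨by simpa using ⟨om_low h.up l this, this⟩, by simpa using cb_ind_pos.2 ⟨c, a⟩⟩
  refine ⟨ho, hz, s, conn_ca' h s (e ▸ a2) fun c k => ?_,
    by rw [ind_split hG ho.sub, chi_add, (hb.sp h).chi, a1]; rfl,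
    _, q x x1.1 (hG.not x1.2) y (fun j => y1 ⟨j, hG.low l x1.2⟩) l⟩
  obtain ⟨a, a3, a4⟩ := hG.sub_cl x1.2
  have k1 := cb_ind_pos.1 k.2
  have m : mix (N ∩ X) \ {e : Ch P | e.bot ∈ N} ⊆ Cv (cl X) (cb (ind N)) := fun e j =>
    have i := (Cut21.mix_up u).1 j.1
    (mem_cv cl_low).2 ⟨sub_cl i.1.2, cb_ind_pos.2 ⟨j.2, i.1.1⟩⟩
  rcases (hc c ((Cut21.mix_up u).2 ⟨⟨k1.2, k.1⟩, fun j => k1.1 j.1⟩) (Ch.pr x a a4)
    ((Cut21.mix_up u).2 ⟨by simpa using ⟨ho.up x x1.1 a (sub_cl a3) a4, a3⟩,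
      by simpa using fun _ => hG.not x1.2⟩)).exit (X := {e : Ch P | e.bot ∈ N}) k1.1 with
    ⟨j, -⟩ | ⟨r, r1, r2, t, t1, t2, j⟩
  · exact absurd (by simpa using x1.1) j
  have i := (Cut21.mix_up u).1 r1.1
  have l : t ≤ r := j.resolve_left fun l =>
    r1.2 (ho.up _ t2 _ (cl_low r.bot_le_top (sub_cl i.1.2)) (Ch.bot_anti l))
  have i' := q _ t2 (fun n => ((Cut21.mix_up u).1 t1).2 ⟨t2, n⟩) _ r1.2 (Ch.bot_anti l)
  exact ⟨_, i', (r2.mono m).trans (Rch.of_cm (m r1) (cv_mono om_sub_cl i')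
    (Or.inr (pr_le r.bot_mem (l t.bot_mem))))⟩

theorem nbhStmt (hN : NmStmt) : NbhStmt := fun P _ _ X G B h hG hB hs hc hg => by
  have T := Tw.one P
  have ho : Opn (Ch.top ⁻¹' X) (Ch.top ⁻¹' G) {c : Ch P | Mt B c ∧ c.top ∈ cl X} :=
    ⟨fun c ⟨⟨b, b1, b2⟩, k⟩ => hG.up h.up (hs b2) k (Ch.le_top b1),
      fun c k d l j => ⟨k.1.mono j, by rwa [cl_sd] at l⟩⟩
  have sB : B ⊆ cl X := hs.trans (Set.union_subset sub_cl hG.sub_cl)
  have c1 : Ctr {c : Ch P | Mt B c ∧ c.top ∈ cl X} := by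
    convert (ws_ce sB).ctr_iff.1 ((Alg36.ws_cq B).ctr_iff.2 hc) using 1
    exact Set.ext fun c => and_comm.trans (and_congr_left' (all_low cl_low).symm)
  have c2 : Ctr ({c : Ch P | Mt B c ∧ c.top ∈ cl X} ∩ Ch.top ⁻¹' X) := by
    refine (WS.of_ge (f := id) (fun _ k => k.1) (fun _ _ _ _ l => l) fun d k => ?_).ctr_iff.2 c1
    convert Pt30.ctr_over (fun _ => True) trivial (h.ctr k.2) using 1
    exact Set.ext fun c => ⟨fun j => ⟨j.2, j.1.2, trivial⟩,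
      fun j => ⟨⟨⟨k.1.mono j.1, sub_cl j.2.1⟩, j.2.1⟩, j.1⟩⟩
  refine bl_of hN (h.pre T) (hG.pre T) ho ((hN (Ch P)).2.2 _
    ((h.pre T).mf.mono Set.inter_subset_right) (opn_up (h.pre T).up ho) c2) c2.eu ?_
  convert (ws_ce (Q := G) Set.inter_subset_right).ctr_iff.1 ((Alg36.ws_cq _).ctr_iff.2 hg) using 1
  exact Set.ext fun c => ⟨fun ⟨⟨⟨b, b1, b2⟩, _⟩, k⟩ =>
    ⟨(all_low hG.low).2 k, b, b1, b2, hG.low (Ch.le_top b1) k⟩, fun ⟨k, b, b1, b2⟩ =>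
      ⟨⟨⟨b, b1, b2.1⟩, hG.sub_cl (k _ c.top_mem)⟩, k _ c.top_mem⟩⟩

theorem two_rg (hY : Rg Y) (h : Two car Y X G X') (hG : G ⊆ Y) : Rg X := by
  refine rg_of h.up (hY.mf.mono h.sub) fun x hx => ?_
  obtain ⟨a, a1, a2⟩ := hx.2
  by_cases k : x ∈ G
  · simpa using h.tv Set.univ isLowerSet_univ x ⟨k, hG k⟩ trivial
  have n : x ∉ Y := fun j => (h.cov x j).elim hx.1 fun j => j.elim k fun j =>
    Set.disjoint_left.1 h.dj a1 (h.up' a2 j)
  have c := hY.ctr (x := x) ⟨a, h.sub a1, a2⟩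
  convert c using 1
  refine Set.ext fun b => ⟨fun j => ⟨h.sub j.1, j.2⟩, fun j => ⟨?_, j.2⟩⟩
  exact (c.conn a ⟨h.sub a1, a2⟩ b j).ind a1 fun s hs t _ l => ⟨h.up l, fun i =>
    (h.cov s hs.1).resolve_right fun j => j.elim (fun j => k (h.bd.low hs.2 j))
      fun j => Set.disjoint_left.1 h.dj i (h.up' l j)⟩

/-- the hypotheses of BALL -/
structure BI' (car : P → R) (Y X G X' Z : Set P) (w : P → P → ℤ) : Prop where
  amb : Amb Y
  two : Two car Y X G X'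
  sub : G ⊆ Y
  conn : Conn G
  nb : NB Y G
  td : TD X w
  on : On X G w
  zs : Z ⊆ G
  ctr : Ctr Z

/-- the conclusion of BALL -/
def BO (Y X G Z : Set P) (w : P → P → ℤ) : Prop :=
  ∃ t f N, Tw P t f ∧ Bl (f ⁻¹' X) (f ⁻¹' G) N ∧
    (∀ K, IsLowerSet K → Flat (K ∩ cl X) w → Flat (f ⁻¹' (K ∩ cl X)) (cb (ind N))) ∧
    (∀ K, IsLowerSet K → (Z ∩ K).Nonempty → (N ∩ f ⁻¹' (G ∩ K)).Nonempty) ∧
    ∀ K, IsLowerSet K → K ⊆ X → Conn K → Flat K w → NB Y K → Disjoint N (f ⁻¹' K)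

theorem BI'.rev (h : BI' car Y X G X' Z w) : BI' (car ∘ Ch.top) (Ch.top ⁻¹' Y) (Ch.top ⁻¹' X)
    (Ch.top ⁻¹' G) (Ch.top ⁻¹' X') (Ch.top ⁻¹' G ∩ Ch.bot ⁻¹' Z) (rev w) :=
  have T := Tw.one P
  ⟨h.amb.pre T, h.two.pre T, Set.preimage_mono h.sub, T.conn.2 h.conn, h.nb.pre T,
    Alg36.td_rev h.two.up h.td, by
      unfold On; rw [om_sd']; exact Alg36.flat_rev (h.two.bd.low_diff h.two.up) h.on,
    Set.inter_subset_left, (Alg36.ctr_bot h.two.bd.low h.zs).2 h.ctr⟩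

theorem BO.rev (hZ : Z ⊆ G) (h : BO (Ch.top ⁻¹' Y) (Ch.top ⁻¹' X) (Ch.top ⁻¹' G)
    (Ch.top ⁻¹' G ∩ Ch.bot ⁻¹' Z) (rev w)) : BO Y X G Z w := by
  have T := Tw.one P
  obtain ⟨t, f, N, a, b, c, d, e⟩ := h
  rw [cl_sd] at c
  exact ⟨t, _, N, T.trans a, b, fun K k l => c _ (T.lower k) (Alg36.flat_rev (k.inter cl_low) l),
    fun K k ⟨z, l⟩ => d _ (T.lower k) ⟨Ch.pt z, by
      show (Ch.top _ ∈ G ∧ Ch.bot _ ∈ Z) ∧ Ch.top _ ∈ K
      simpa using ⟨⟨hZ l.1, l.1⟩, l.2⟩⟩,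
    fun K k1 k2 k3 k4 k5 => e _ (T.lower k1) (Set.preimage_mono k2) (T.conn.2 k3)
      (Alg36.flat_rev k1 k4) (k5.pre T)⟩

theorem BI'.sp (hN : NmStmt) (h : BI' car Y X G X' Z w) (e : EqE G w (cb (ind Z)))
    (v : ∀ x ∈ Z, ∀ y ∈ cl X, x ≤ y → w x y = 0) : SP X (w - cb (ind Z)) := by
  have hG := h.two.bd
  have r := two_rg h.amb.toRg h.two h.sub
  have u : ∀ x ∈ Z, ∀ y ∈ G, x ≤ y → y ∈ Z := fun x a y b l =>
    (cb_ind_eq_zero.1 ((e x (h.zs a) y b l).symm.trans (v x a y (hG.sub_cl b) l))).1 a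
  have o : ∀ x, ∀ y ∈ Z, x ≤ y → (w - cb (ind Z)) x y = 0 := fun x y a l =>
    sub_eq_zero.2 (e x (hG.low l (h.zs a)) y (h.zs a) l)
  have o1 : ∀ x ∈ Z, ∀ y ∈ cl X, y ∉ Z → x ≤ y → (w - cb (ind Z)) x y = 1 := fun x a y b c l => by
    simp [cb, ind, a, c, v x a y b l]
  have o2 : ∀ x y, x ∉ Z → y ∉ Z → (w - cb (ind Z)) x y = w x y := fun x y a b => by
    simp [cb, ind, a, b]
  have s : ∀ x, ∀ y ∈ cl X, x ≤ y → 0 ≤ (w - cb (ind Z)) x y ∧ (w - cb (ind Z)) x y ≤ 1 :=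
    fun x y a l => by
      by_cases b : y ∈ Z
      · rw [o x y b l]; omega
      by_cases c : x ∈ Z
      · rw [o1 x c y a b l]; omega
      · rw [o2 x y c b]; exact ⟨h.td.nn x y a l, h.td.le1 x y a l⟩
  have nz : ∀ x ∈ X, x ∉ Z := fun x a b => hG.not (h.zs b) a
  refine ⟨⟨cocOn_sub h.td.coc (cocOn_cb _), fun x y a l => (s x y a l).1,
    fun x y a l => (s x y a l).2⟩, fun x a y b l => ?_, ?_,
    by rw [chi_sub, h.td.chi, (om_disc hN r hG h.zs u h.ctr).1]; rfl⟩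
  · by_cases k : y ∈ G
    · exact sub_eq_zero.2 (e x (hG.low l k) y k l)
    · have k' : x ∉ G := fun j => k (hG.clo x j y b l)
      rw [o2 x y (fun j => k' (h.zs j)) fun j => k (h.zs j)]
      exact h.on x ⟨a, k'⟩ y ⟨b, k⟩ l
  have e1 : CA X (w - cb (ind Z)) = Pt30.Sr X Z ∪ CA X w := Set.ext fun c => by
    by_cases k : c.bot ∈ Z
    · exact ⟨fun j => Or.inl ⟨j.1, _, c.bot_mem, k⟩, fun j =>
        have i : c.top ∈ X := j.elim And.left And.left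
        ⟨i, by rw [o1 _ k _ (sub_cl i) (nz _ i) c.bot_le_top]; exact one_pos⟩⟩
    · refine ⟨fun j => Or.inr ⟨j.1, o2 _ _ k (nz _ j.1) ▸ j.2⟩, fun j => ?_⟩
      have i : c ∈ CA X w := j.elim (fun ⟨i, z, z1, z2⟩ => ⟨i, h.td.pos (sub_cl i) c.bot_mem z1
        (Ch.bot_le z1) (by
          rw [e _ (hG.low (Ch.bot_le z1) (h.zs z2)) z (h.zs z2) (Ch.bot_le z1)]
          exact cb_ind_pos.2 ⟨k, z2⟩)⟩) id
      exact ⟨i.1, (o2 _ _ k (nz _ i.1)).symm ▸ i.2⟩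
  obtain ⟨q, hq⟩ := h.td.ne
  rw [h.on.cv hG] at hq
  obtain ⟨c, c1, c2⟩ := ex_ca r.up (h.td.toS1.z1 r.up) (q := q)
    ⟨(dom_iff' r.up).2 (hG.sub_cl (hq.1 _ q.top_mem)), hq.2⟩
  rw [e1]
  refine Cut21.conn_union ((Pt30.ws_sr r.up r.nice (h.zs.trans hG.sub)).conn_iff.2 h.ctr.conn) h.td.conn
    ⟨c, ⟨c1.1, _, c2 q.top_mem, (cb_ind_pos (x := q.bot).1 ?_).2⟩, c1⟩
  exact e _ (hq.1 _ q.bot_mem) _ (hq.1 _ q.top_mem) q.bot_le_top ▸ hq.2

theorem BI'.bo (hN : NmStmt) (h : BI' car Y X G X' Z w) (e : EqE G w (cb (ind Z)))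
    (v : ∀ x ∈ Z, ∀ y ∈ cl X, x ≤ y → w x y = 0) : BO Y X G Z w := by
  have hG := h.two.bd
  have sp := h.sp hN e v
  have sp' := ((extStmt P Y X (Om X) h.amb.up h.two.up h.two.sub (om_low h.two.up)
    Set.inter_subset_left fun y a v _ l n => ⟨fun j => n (sub_cl (h.two.up l j)), a⟩).2 _
      (sp.flat.mono Set.inter_subset_left)).2.2.2 sp
  have x1 : EqE (cl X) (Hk.ext X (w - cb (ind Z))) (w - cb (ind Z)) := fun _ _ _ k _ => if_pos k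
  have sY := cl_mono h.two.sub
  have fG : Flat G (Hk.ext X (w - cb (ind Z))) := (sp.flat.mono hG.sub).congr (x1.mono hG.sub_cl)
  rcases encStmt P Y _ h.amb sp' with ⟨B, b, e'⟩ | ⟨L, l1, l2, e', b⟩
  swap
  · obtain ⟨z, hz⟩ := h.ctr.ne
    obtain ⟨a, a1, a2⟩ := hG.sub_cl (h.zs hz)
    have k := (x1 z ⟨a, a1, a2⟩ a (sub_cl a1) a2).symm.trans
      (e' z (sY ⟨a, a1, a2⟩) a (sY (sub_cl a1)) a2)
    have zL : z ∈ L := by_contra fun n => by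
      have : a ∉ Z := fun j => hG.not (h.zs j) a1
      by_cases j : a ∈ L <;> simp [cb, ind, hz, this, n, j, v z hz a (sub_cl a1) a2] at k
    have f : Flat G (cb (ind L)) := fun x a y b l => neg_eq_zero.1
      ((e' x (sY (hG.sub_cl a)) y (sY (hG.sub_cl b)) l).symm.trans (fG x a y b l))
    have s := (f.sub_or h.conn).resolve_right fun j => Set.disjoint_left.1 j (h.zs hz) zL
    exact (h.nb _ _ (Tw.one P) _ b fun c j => s (hG.low c.bot_le_top j)).elim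
  have d : Disjoint G B := ((fG.congr (e'.symm.mono (hG.sub_cl.trans sY))).sub_or
    h.conn).resolve_left (h.nb.zero b)
  have n' : ∀ x, ∀ y ∈ X', x ≤ y → (x ∈ B ↔ y ∈ B) := fun x y a l => by
    have k : y ∈ cl Y := sub_cl (h.two.sub' a)
    refine cb_ind_eq_zero.1 ((e' x (cl_low l k) y k l).symm.trans (if_neg fun ⟨c, c1, c2⟩ => ?_))
    exact Set.disjoint_left.1 h.two.dj c1 (h.two.up' c2 a)
  have sB : B ⊆ X := fun p hp => (h.two.cov p (b.sub hp)).resolve_right fun j => j.elim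
    (fun j => Set.disjoint_left.1 d j hp) fun j => by
      obtain ⟨q, q1, r, x, x1, x2⟩ := h.amb.esc p (b.sub hp)
      have s : ∀ q, Rch (Y \ X'ᶜ) p q → q ∈ B := fun q r =>
        r.ind hp fun s _ t ht l => n' s t (not_not.1 ht.2) l
      rcases r.exit (X := X'ᶜ) (not_not.2 j) with ⟨q2, r⟩ | ⟨t, t1, r, y, y1, y2, l⟩
      · exact x1 (b.sub ((n' x q (not_not.1 q2)
          (x2.resolve_left fun i => x1 (h.amb.up i q1))).2 (s q r)))
      · have l' := l.resolve_left fun i => y2 (h.two.up' i (not_not.1 t1.2))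
        have yB := (n' y t (not_not.1 t1.2) l').2 (s t r)
        exact (h.two.cov y y1).elim
          (fun i => Set.disjoint_left.1 h.two.dj (h.two.up l' i) (not_not.1 t1.2))
          fun i => i.elim (fun i => Set.disjoint_left.1 d i yB) y2
  have sN : B ∪ Z ⊆ X ∪ G := Set.union_subset_union sB h.zs
  have eG : (B ∪ Z) ∩ G = Z := Set.ext fun x => ⟨fun k => k.1.resolve_left
    (Set.disjoint_left.1 d k.2), fun k => ⟨Or.inr k, h.zs k⟩⟩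
  have eX : (B ∪ Z) ∩ X = B := Set.ext fun x => ⟨fun k => k.1.resolve_right
    fun j => hG.not (h.zs j) k.2, fun k => ⟨Or.inl k, sB k⟩⟩
  have ew : EqE (cl X) (cb (ind (B ∪ Z))) w := fun x a y c l => by
    rw [ind_split hG sN, eG, eX, Pi.add_apply, Pi.add_apply, ← e' x (sY a) y (sY c) l, x1 x a y c l]
    simp
  refine ⟨lv0 P, id, B ∪ Z, Tw.refl P, ⟨⟨sN, fun x a y c l => by_contra fun n => ?_⟩,
    eG.symm ▸ h.ctr, h.td.congr h.two.up ew⟩, fun K _ k => k.congr (ew.mono Set.inter_subset_right),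
    fun K _ ⟨z, k⟩ => ⟨z, Or.inr k.1, h.zs k.1, k.2⟩, fun K _ k2 k3 k4 k5 => ?_⟩
  · have := h.td.nn x y c l
    rw [← ew x (cl_low l c) y c l] at this
    simp [cb, ind, n, show x ∈ B ∪ Z from a] at this
  · exact (((k4.congr (ew.mono (k2.trans sub_cl))).sub_or k3).resolve_left fun j =>
      k5.zero b fun x i => eX ▸ ⟨j i, k2 i⟩).symm

theorem BI'.low (hN : NmStmt) (h : BI' car Y X G X' Z w) (e : EqE G w (-cb (ind Z))) :
    BO Y X G Z w := by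
  have hG := h.two.bd
  have lz : ∀ y ∈ Z, ∀ x, x ≤ y → x ∈ Z := fun y a x l => by_contra fun n => by
    have := h.td.nn x y (hG.sub_cl (h.zs a)) l
    rw [e x (hG.low l (h.zs a)) y (h.zs a) l] at this
    simp [cb, ind, a, n] at this
  refine (h.rev.bo hN (fun c a d b l => ?_) fun c a d _ l => ?_).rev h.zs
  · rw [Hp13.rev, e _ (hG.low d.bot_le_top b) _ (hG.low c.bot_le_top a) (Ch.bot_anti l)]
    simp [cb, ind, show c.top ∈ G from a, show d.top ∈ G from b]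
  · have k := lz _ a.2 _ (Ch.bot_anti l)
    rw [Hp13.rev, e _ (h.zs k) _ (h.zs a.2) (Ch.bot_anti l)]
    simp [cb, ind, k, show c.bot ∈ Z from a.2]

theorem ballStmt (hN : NmStmt) : BallStmt := fun P _ _ R _ car Y X G X' Z w a b c d e f g i j k => by
  have h : BI' car Y X G X' Z w := ⟨a, b, c, d, e, f, g, i, j⟩
  refine k.elim (fun k => (h.rev.low hN fun c a d b' l => ?_).rev i) (h.low hN)
  rw [Hp13.rev, k _ (b.bd.low d.bot_le_top b') _ (b.bd.low c.bot_le_top a) (Ch.bot_anti l)]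
  simp [cb, ind, show c.top ∈ G from a, show d.top ∈ G from b']

end Crest.Agent.X212.Cut21
end
end

-- ▼ part X212/Mv42/W
section

/-!
# X212/Mv42/W (helper42): MV-W, and the star of a chain with conditions on `top` and `bot`
-/

set_option autoImplicit false
set_option linter.unusedSectionVars false

open Finset Classical

noncomputable section

namespace Crest.Agent.X212.Mv42

open Hp13 Hk
open Alg36 (Om ws_up ws_sd top_ins top_ins')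
open Kh11 (WS In ws_top sctr_min sctr_max)

variable {P : Type} [PartialOrder P] [Fintype P]

theorem bot_ins {c : Ch P} {x : P} (h : ∀ y ∈ c.1, Cm x y) (hx : c.bot ≤ x) :
    (c.ins x h).bot = c.bot :=
  Ch.bot_eq (mem_insert_of_mem c.bot_mem) fun y hy => by
    rcases mem_insert.1 hy with rfl | k
    exacts [hx, Ch.bot_le k]

theorem bot_ins' {c : Ch P} {x : P} (h : ∀ y ∈ c.1, Cm x y) (hx : x ≤ c.bot) :
    (c.ins x h).bot = x :=
  Ch.bot_eq (mem_insert_self _ _) fun y hy => by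
    rcases mem_insert.1 hy with rfl | k
    exacts [le_rfl, hx.trans (Ch.bot_le k)]

/-- the chains over `c` with `top` in `U` and `bot` in `L`, if `L` has a largest point under `c` -/
theorem ws_star (c : Ch P) (U : Set P) {L : Set P} {m : P} (hm : m ∈ L) (h1 : m ≤ c.bot)
    (h2 : ∀ l ∈ L, l ≤ c.bot → l ≤ m) :
    WS {d : Ch P | c ≤ d ∧ d.top ∈ U ∧ d.bot ∈ L} {u | u ∈ U ∧ c.top ≤ u} Ch.top := by
  refine WS.of_le (fun d hd => ⟨hd.2.1, Ch.top_mono hd.1⟩) (fun _ _ _ _ h => Ch.top_mono h)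
    fun u hu => ?_
  set F : Set (Ch P) := {d | d ∈ {d : Ch P | c ≤ d ∧ d.top ∈ U ∧ d.bot ∈ L} ∧ d.top ≤ u}
  have w1 : WS {d | d ∈ F ∧ ∀ e ∈ d.1, e ∈ L ∨ c.bot ≤ e} F id := by
    refine WS.of_int' (fun _ h => h.1) fun d hd => ?_
    let r := d.sub (d.1.filter fun e => e ∈ L ∨ c.bot ≤ e)
      ⟨_, mem_filter.2 ⟨d.bot_mem, Or.inl hd.1.2.2⟩⟩ (filter_subset _ _)
    have e1 : r.top = d.top := Ch.top_eq (mem_filter.2 ⟨d.top_mem,
      Or.inr (c.bot_le_top.trans (Ch.top_mono hd.1.1))⟩) fun x hx => Ch.le_top (mem_filter.1 hx).1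
    have e2 : r.bot = d.bot := Ch.bot_eq (mem_filter.2 ⟨d.bot_mem, Or.inl hd.1.2.2⟩)
      fun x hx => Ch.bot_le (mem_filter.1 hx).1
    exact ⟨r, ⟨⟨⟨fun x hx => mem_filter.2 ⟨hd.1.1 hx, Or.inr (Ch.bot_le hx)⟩, e1 ▸ hd.1.2.1,
      e2 ▸ hd.1.2.2⟩, e1 ▸ hd.2⟩, fun e he => (mem_filter.1 he).2⟩, filter_subset _ _,
      fun b hb k x hx => mem_filter.2 ⟨k hx, hb.2 x hx⟩⟩
  have key : ∀ d : Ch P, c ≤ d → d.top ≤ u → (∀ e ∈ d.1, e ∈ L ∨ c.bot ≤ e) →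
      (d.bot ∈ L ∨ m ≤ d.bot) → ∃ r ∈ {d | (d ∈ F ∧ ∀ e ∈ d.1, e ∈ L ∨ c.bot ≤ e) ∧ m ∈ d.1 ∧ u ∈ d.1},
        d ≤ r ∧ ∀ b : Ch P, m ∈ b.1 → u ∈ b.1 → d ≤ b → r ≤ b := by
    intro d k1 k2 k3 k4
    have a : ∀ e ∈ d.1, Cm m e := fun e he => (d.total (k1 c.bot_mem) he).elim
      (fun k => Or.inl (h1.trans k)) fun k => (k3 e he).elim (fun l => Or.inr (h2 e l k))
        fun l => Or.inl (h1.trans l)
    have t : (d.ins m a).top ≤ u := by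
      rw [top_ins a (h1.trans (c.bot_le_top.trans (Ch.top_mono k1)))]; exact k2
    have b : ∀ e ∈ (d.ins m a).1, Cm u e := fun e he => Or.inr ((Ch.le_top he).trans t)
    have e1 := top_ins' b t
    have e2 := bot_ins b ((Ch.bot_le_top _).trans t)
    refine ⟨(d.ins m a).ins u b, ⟨⟨⟨⟨k1.trans ((d.le_ins m a).trans (Ch.le_ins _ u b)),
      e1.symm ▸ hu.1, ?_⟩, e1.le⟩, fun e he => ?_⟩, mem_insert_of_mem (mem_insert_self _ _),
      mem_insert_self _ _⟩, (d.le_ins m a).trans (Ch.le_ins _ u b),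
      fun x x1 x2 x3 => insert_subset x2 (insert_subset x1 x3)⟩
    · rw [e2]
      rcases k4 with k | k
      · rw [bot_ins a (h2 _ k (Ch.bot_anti k1))]; exact k
      · rw [bot_ins' a k]; exact hm
    · rcases mem_insert.1 he with rfl | he
      · exact Or.inr (c.bot_le_top.trans hu.2)
      · rcases mem_insert.1 he with rfl | he
        exacts [Or.inl hm, k3 e he]
  have w2 := WS.of_clo' (A := {d | d ∈ F ∧ ∀ e ∈ d.1, e ∈ L ∨ c.bot ≤ e}) (fun _ h => h.1)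
    fun d hd => (key d hd.1.1.1 hd.1.2 hd.2 (Or.inl hd.1.1.2.2)).imp fun _ h =>
      ⟨h.1, h.2.1, fun b hb => h.2.2 b hb.2.1 hb.2.2⟩
  obtain ⟨r, r1, -, r2⟩ := key c le_rfl hu.2 (fun e he => Or.inr (Ch.bot_le he)) (Or.inr h1)
  exact w1.ctr_iff.1 (w2.ctr_iff.1 (sctr_min r1 fun b hb => r2 b hb.2.1 hb.2.2 hb.1.1.1.1))

/-- two levels up; the condition on `bot` is that all its points satisfy `p` -/
theorem ctr_star (c : Ch (Ch P)) {U : Set P} (p : P → Prop) (h : ∃ x ∈ c.bot.1, p x)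
    (hU : Ctr {y | y ∈ U ∧ t2 c ≤ y}) :
    Ctr {d : Ch (Ch P) | c ≤ d ∧ t2 d ∈ U ∧ ∀ x ∈ d.bot.1, p x} :=
  (ws_star c {e | e.top ∈ U} (L := {e | ∀ x ∈ e.1, p x})
    (m := c.bot.sub (c.bot.1.filter p) (let ⟨x, a, b⟩ := h; ⟨x, mem_filter.2 ⟨a, b⟩⟩)
      (filter_subset _ _)) (fun _ hx => (mem_filter.1 hx).2) (filter_subset _ _)
    fun _ hl k x hx => mem_filter.2 ⟨k hx, hl x hx⟩).ctr_iff.2 (by
      convert (ws_up c.top U).ctr_iff.2 hU using 1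
      exact Set.ext fun _ => and_comm)

theorem mvK_eq {K : Set P} (hK : IsLowerSet K) (N : Set P) :
    mvK K N = In {e | e.top ∈ K ∧ ∃ x ∈ e.1, x ∉ N} Set.univ :=
  Set.ext fun c => ⟨fun h => ⟨fun _ he => ⟨hK (Ch.top_mono (Ch.le_top he)) h.1,
    let ⟨x, a, b⟩ := h.2; ⟨x, Ch.bot_le he a, b⟩⟩, trivial⟩,
    fun h => ⟨(h.1 _ c.top_mem).1, (h.1 _ c.bot_mem).2⟩⟩

theorem mvH_eq (K N : Set P) : mvH K N = mvK K Nᶜ := by
  simp only [mvH, mvK, Set.mem_compl_iff, not_not]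

/-- **MV-W** -/
theorem mvW : MvWStmt := by
  intro P _ _ K N hK hN
  have up : ∀ e : Ch P, e.top ∈ K → (∃ x ∈ e.1, x ∈ N) → e.top ∈ N :=
    fun e he ⟨x, a, b⟩ => hN x b _ he (Ch.le_top a)
  have dn : ∀ e : Ch P, e.top ∈ K → (∃ x ∈ e.1, x ∉ N) → e.bot ∉ N :=
    fun e he ⟨x, a, b⟩ k => b (hN _ k x (hK (Ch.le_top a) he) (Ch.bot_le a))
  refine ⟨WS.of_le (fun c hc => ?_) (fun _ _ _ _ h => Ch.bot_anti (Ch.bot_anti h)) fun y hy => ?_,
    ?_, ?_⟩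
  · have := hK (Ch.top_mono c.bot_le_top) hc.1
    exact ⟨hK (Ch.bot_le_top _) this, dn _ this hc.2⟩
  · have e : {c | c ∈ mvK K N ∧ c.bot.bot ≤ y} = In {e | e.top ∈ K ∧ e.bot ≤ y} Set.univ :=
      Set.ext fun c => ⟨fun h => ⟨fun _ he => ⟨hK (Ch.top_mono (Ch.le_top he)) h.1.1,
        (Ch.bot_anti (Ch.bot_le he)).trans h.2⟩, trivial⟩, fun h => ⟨⟨(h.1 _ c.top_mem).1,
          _, c.bot.bot_mem, fun k => hy.2 (hN _ k y hy.1 (h.1 _ c.bot_mem).2)⟩, (h.1 _ c.bot_mem).2⟩⟩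
    rw [e, (ws_top _).ctr_iff, ← (WS.of_int' (D := Ch.top ⁻¹' Set.Iic y)
      (A := {e : Ch P | e.top ∈ K ∧ e.bot ≤ y}) (fun c hc => ⟨hK hc hy.1, c.bot_le_top.trans hc⟩) fun c hc =>
        ⟨Kh11.Ch.dn c y hc.2, (Alg36.mem_dn.1 (Ch.top_mem _)).2, Alg36.dn_le,
          fun b hb k => Alg36.le_dn k hb⟩).ctr_iff, (ws_sd _).ctr_iff]
    exact sctr_max (m := y) le_rfl fun _ h => h
  · have e : {e : Ch P | e.top ∈ K ∧ ∃ x ∈ e.1, x ∉ Nᶜ} = Ch.top ⁻¹' (K ∩ N) :=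
      Set.ext fun c => and_congr_right fun h => ⟨fun ⟨x, a, b⟩ => up c h ⟨x, a, not_not.1 b⟩,
        fun k => ⟨_, c.top_mem, not_not.2 k⟩⟩
    rw [mvH_eq, mvK_eq hK, e]
    exact (ws_top _).comp (ws_sd _)
  · have e : mvK K N ∩ mvH K N = In (Cv K (cb (ind N))) Set.univ := by
      have v : ∀ e : Ch P, e ∈ Cv K (cb (ind N)) ↔
          (e.top ∈ K ∧ ∃ x ∈ e.1, x ∉ N) ∧ e.top ∈ K ∧ ∃ x ∈ e.1, x ∉ Nᶜ := fun e => by
        refine ⟨fun h => ?_, fun h => ⟨fun x hx => hK (Ch.le_top hx) h.1.1, ?_⟩⟩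
        · have k := h.2
          have : e.top ∈ N ∧ e.bot ∉ N := by
            simp only [cb, ind] at k
            split_ifs at k <;> simp_all
          exact ⟨⟨h.1 _ e.top_mem, _, e.bot_mem, this.2⟩, h.1 _ e.top_mem, _, e.top_mem,
            not_not.2 this.1⟩
        · obtain ⟨x, a, b⟩ := h.2.2
          rw [cb, ind_of_mem (up e h.1.1 ⟨x, a, not_not.1 b⟩), ind_of_not (dn e h.1.1 h.1.2)]
          norm_num
      rw [mvH_eq, mvK_eq hK, mvK_eq hK]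
      exact Set.ext fun c => ⟨fun h => ⟨fun x hx => (v x).2 ⟨h.1.1 x hx, h.2.1 x hx⟩, trivial⟩,
        fun h => ⟨⟨fun x hx => ((v x).1 (h.1 x hx)).1, trivial⟩,
          fun x hx => ((v x).1 (h.1 x hx)).2, trivial⟩⟩
    rw [e]
    exact ws_top _

end Crest.Agent.X212.Mv42
end
end

-- ▼ part X212/Mv42/One
section

/-!
# X212/Mv42/One (helper42): MV-1
-/

set_option autoImplicit false
set_option linter.unusedSectionVars false

open Finset Classical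

noncomputable section

namespace Crest.Agent.X212.Mv42

open Hp13 Hk
open Alg36 (Om Esc)
open Kh11 (WS sctr_min)

variable {P : Type} [PartialOrder P] [Fintype P] {A B X G N : Set P}

theorem t2_mono : Monotone (t2 : Ch (Ch P) → P) := Ch.top_mono.comp Ch.top_mono

theorem le_t2 {c : Ch (Ch P)} {x : P} (h : x ∈ c.bot.1) : x ≤ t2 c :=
  Ch.le_top (c.bot_le_top h)

theorem cl_low (X : Set P) : IsLowerSet (cl X) := fun _ _ h ⟨a, ha, k⟩ => ⟨a, ha, h.trans k⟩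

theorem sub_cl (X : Set P) : X ⊆ cl X := fun x h => ⟨x, h, le_rfl⟩

theorem mem_om {x : P} : x ∈ Om X ↔ x ∈ cl X ∧ x ∉ X := and_comm

theorem cm_cl (hX : IsUpperSet X) {a x : P} (ha : a ∈ X) (h : Cm a x) : x ∈ cl X :=
  h.elim (fun k => sub_cl X (hX k ha)) fun k => ⟨a, ha, k⟩

/-- `Nice` for upper sets -/
theorem nice_iff (hX : IsUpperSet X) : Nice X ↔ ∀ x ∈ cl X, Ctr {y | y ∈ X ∧ x ≤ y} := by
  have e : ∀ c : Ch P, ¬ Mt X c → {a | a ∈ X ∧ ∀ x ∈ c.1, Cm a x} = {y | y ∈ X ∧ c.top ≤ y} :=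
    fun c hc => Set.ext fun a => and_congr_right fun ha =>
      ⟨fun k => (k _ c.top_mem).resolve_left fun l => hc ⟨_, c.top_mem, hX l ha⟩,
        fun k x hx => Or.inr ((Ch.le_top hx).trans k)⟩
  refine ⟨fun h x ⟨a, ha, k⟩ => ?_, fun h c ⟨a, ha, k⟩ hc => ?_⟩
  · by_cases hx : x ∈ X
    · exact sctr_min (m := x) ⟨hx, le_rfl⟩ fun _ h => h.2
    · have := h (Ch.pt x) ⟨a, ha, by simpa [Cm] using Or.inr k⟩ (by rwa [mt_pt])
      rwa [e _ (by rwa [mt_pt]), Ch.top_pt] at this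
  · rw [e c hc]
    exact h _ (cm_cl hX ha (k _ c.top_mem))

theorem esc_sub (h : Esc B B) (hA : A ⊆ B) : Esc A A := fun a ha => by
  by_contra hn
  push Not at hn
  obtain ⟨b, -, r, x, hx, c⟩ := h a (hA ha)
  have : b ∈ A ∧ Rch A a b := by
    clear c
    induction r with
    | refl => exact ⟨ha, Rch.rfl⟩
    | tail _ k ih =>
      have := not_not.1 fun l => hn _ ih.1 ih.2 _ l k.2.2
      exact ⟨this, ih.2.trans (Rch.of_cm ih.1 this k.2.2)⟩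
  exact hn b this.1 this.2 x (fun k => hx (hA k)) c

/-- `Bnd` passes to a part if the rest reaches the boundary -/
theorem bnd_sub {R : Type} [AddCommGroup R] (hA : IsUpperSet A) (s : A ⊆ B)
    (h : Bnd R B) (r : ∀ x ∈ Om A, ∃ y ∉ B, Rch (cl B \ A) x y) : Bnd R A := by
  intro z hz h0
  have dp : ∀ {x y : P}, x ≤ y → y ∈ cl A → Dp A x y := fun k ⟨a, ha, l⟩ =>
    ⟨k, a, ha, Or.inr (k.trans l), Or.inr l⟩
  have z0 : ∀ x y, x ≤ y → y ∉ A → Hk.ext A z x y = 0 := fun x y k hy => by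
    unfold Hk.ext
    split_ifs with c
    exacts [h0 x y (dp k c) (fun l => hy (hA k l)) hy, rfl]
  obtain ⟨g, g0, hg⟩ := h (Hk.ext A z) (fun _ _ x y w k1 k2 _ _ _ => by
    by_cases c : w ∈ cl A
    · obtain ⟨a, ha, l⟩ := id c
      simp only [Hk.ext, if_pos c, if_pos (cl_low A k2 c)]
      exact hz a ha x y w k1 k2 (Or.inr ((k1.trans k2).trans l)) (Or.inr (k2.trans l)) (Or.inr l)
    · have n : w ∉ A := fun l => c (sub_cl A l)
      rw [z0 x w (k1.trans k2) n, z0 y w k2 n, z0 x y k1 fun l => n (hA k2 l), add_zero])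
    fun x y k _ hy => z0 x y k.1 fun l => hy (s l)
  have v : ∀ x ∈ cl A, (if x ∈ A then g x else 0) = g x := fun x hx => by
    split_ifs with c
    · rfl
    · obtain ⟨y, hy, k⟩ := r x (mem_om.2 ⟨hx, c⟩)
      rw [Alg36.rch_eq k (g := g), g0 y hy]
      rintro a - b ⟨⟨u, hu, l⟩, hb⟩ hab
      have := hg a b ⟨hab, u, hu, Or.inr (hab.trans l), Or.inr l⟩
      rw [z0 a b hab hb, zero_add, cb] at this
      exact (sub_eq_zero.1 this.symm).symm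
  refine ⟨fun x => if x ∈ A then g x else 0, fun x hx => if_neg hx, fun x y k => ?_⟩
  have := hg x y (k.mono s)
  obtain ⟨-, a, ha, c1, c2⟩ := k
  rw [Hk.ext, if_pos (cm_cl hA ha c2)] at this
  rw [this]
  simp only [Pi.add_apply, cb, v x (cm_cl hA ha c1), v y (cm_cl hA ha c2)]

theorem mvX_up (hX : IsUpperSet X) (N : Set P) : IsUpperSet (mvX X N) :=
  fun _ _ h k => ⟨hX (t2_mono h) k.1, fun x hx => k.2 x (Ch.bot_anti h hx)⟩

theorem mvK_low {K : Set P} (hK : IsLowerSet K) (N : Set P) : IsLowerSet (mvK K N) :=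
  fun _ _ h k => ⟨hK (t2_mono h) k.1, let ⟨x, a, b⟩ := k.2; ⟨x, Ch.bot_anti h a, b⟩⟩

theorem mvD_low (X N : Set P) : IsLowerSet (mvD X N) := fun _ _ h k =>
  ⟨⟨cl_low X (t2_mono h) k.1.1, let ⟨x, a, b⟩ := k.1.2; ⟨x, Ch.bot_anti h a, b⟩⟩,
    let ⟨x, a, b⟩ := k.2; ⟨x, Ch.bot_anti h a, b⟩⟩

theorem star_mvX (hX : Rg X) {c : Ch (Ch P)} (hc : c ∈ mvK (cl X) N) :
    Ctr {d | d ∈ mvX X N ∧ c ≤ d} := by
  convert ctr_star c (· ∉ N) hc.2 ((nice_iff hX.up).1 hX.nice _ hc.1) using 1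
  exact Set.ext fun _ => and_comm

theorem cl_mvX (hX : Rg X) (N : Set P) : cl (mvX X N) = mvK (cl X) N :=
  Set.ext fun _ => ⟨fun ⟨d, hd, k⟩ => mvK_low (cl_low X) N k
    ⟨sub_cl X hd.1, _, d.bot.bot_mem, hd.2 _ d.bot.bot_mem⟩, fun h => (star_mvX hX h).ne⟩

theorem rg_mvX (hX : Rg X) (N : Set P) : Rg (mvX X N) :=
  ⟨mvX_up hX.up N, (Alg36.Mf.sd (Alg36.Mf.sd hX.mf)).mono fun _ h => h.1,
    (nice_iff (mvX_up hX.up N)).2 fun _ h => star_mvX hX (cl_mvX hX N ▸ h)⟩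

theorem t2_mem (hN : Opn X G N) {c : Ch (Ch P)} (hc : c ∈ mvS X N) : t2 c ∈ N :=
  let ⟨x, a, b⟩ := hc.2; hN.up x b _ hc.1 (le_t2 a)

theorem t2_mvG (hN : Opn X G N) {c : Ch (Ch P)} (hc : c ∈ mvG X G N) :
    (t2 c ∈ X ∨ t2 c ∈ G) ∧ ∃ x ∈ c.bot.1, x ∉ N :=
  hc.elim (fun h => ⟨Or.inr h.1, h.2⟩) fun h => ⟨hN.sub (t2_mem hN h.1), h.2⟩

theorem om_mvX (hX : Rg X) (hG : Bd X G) (hN : Opn X G N) :
    Om (mvX X N) = mvG X G N ∪ t2 ⁻¹' (Om X \ G) := by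
  ext c
  rw [mem_om, cl_mvX hX]
  refine ⟨fun ⟨h, n⟩ => ?_, ?_⟩
  · by_cases k : ∃ x ∈ c.bot.1, x ∈ N
    · exact Or.inl (Or.inr ⟨⟨h.1, k⟩, h.2⟩)
    by_cases l : t2 c ∈ G
    · exact Or.inl (Or.inl ⟨l, h.2⟩)
    · exact Or.inr ⟨mem_om.2 ⟨h.1, fun a => n ⟨a, fun x hx b => k ⟨x, hx, b⟩⟩⟩, l⟩
  · rintro ((h | h) | h)
    · exact ⟨⟨(hG.sub h.1).2, h.2⟩, fun k => (hG.sub h.1).1 k.1⟩
    · exact ⟨⟨h.1.1, h.2⟩, fun k => let ⟨x, a, b⟩ := h.1.2; k.2 x a b⟩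
    · exact ⟨⟨h.1.2, _, c.bot.bot_mem, fun k =>
        (hN.sub (t2_mem hN ⟨h.1.2, _, c.bot.bot_mem, k⟩)).elim h.1.1 h.2⟩, fun k => h.1.1 k.1⟩

theorem bd_mvX (hX : Rg X) (hG : Bd X G) (hN : Opn X G N) : Bd (mvX X N) (mvG X G N) := by
  refine ⟨(mvK_low hG.low N).union (mvD_low X N), om_mvX hX hG hN ▸ Set.subset_union_left,
    fun x hx y hy k => ?_⟩
  rw [om_mvX hX hG hN] at hy
  exact hy.resolve_right fun h => (t2_mvG hN hx).1.elim (fun l => h.1.1 (hX.up (t2_mono k) l))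
    fun l => h.2 (hG.clo _ l _ h.1 (t2_mono k))

theorem amb_mvX (hX : Amb X) (hN : Opn X G N) (hG : Bd X G) (r : ∀ n ∈ N, ∃ m ∈ Om X, Rch N n m) :
    Amb (mvX X N) := by
  have u1 : IsUpperSet (Ch.top ⁻¹' X : Set (Ch P)) := hX.up.preimage Ch.top_mono
  have n1 := Alg36.Nice.sd hX.up.ordConnected hX.nice
  have w := (mvW P (cl X) N (cl_low X) hN.up).2.1
  have s : N ⊆ cl X ∩ N := fun x hx =>
    ⟨(hN.sub hx).elim (fun k => sub_cl X k) fun k => (hG.sub k).2, hx⟩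
  have key : ∀ (R : Type) [AddCommGroup R], Bnd R X → Bnd R (mvX X N) := fun R _ h => by
    refine bnd_sub (mvX_up hX.up N) (B := Ch.top ⁻¹' (Ch.top ⁻¹' X)) (fun _ h => h.1)
      (Alg36.Bnd.sd u1.ordConnected n1 (Alg36.Bnd.sd hX.up.ordConnected hX.nice h)) fun c hc => ?_
    by_cases k : t2 c ∈ X
    swap
    · exact ⟨c, k, Rch.rfl⟩
    have m : c ∈ mvH (cl X) N := ⟨sub_cl X k, by
      by_contra l
      exact hc.1 ⟨k, fun x a b => l ⟨x, a, b⟩⟩⟩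
    obtain ⟨y, hy, l⟩ := r _ (w.maps m).2
    have e : t2 (Ch.pt (Ch.pt y)) = y := by simp
    refine ⟨Ch.pt (Ch.pt y), fun a => hy.1 (e ▸ a), ((w.rch_iff m ⟨e.symm ▸ hy.2, y, by simp,
      l.mem (w.maps m).2⟩).2 (e.symm ▸ l.mono s)).mono fun d hd => ⟨?_, fun a => ?_⟩⟩
    · have := cl_mvX hX.toRg ∅
      simp only [mvX, mvK, Set.mem_empty_iff_false, not_false_eq_true, implies_true,
        and_true] at this
      exact this.ge ⟨hd.1, d.bot.2.1⟩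
    · exact let ⟨x, a', b⟩ := hd.2; a.2 x a' b
  exact ⟨rg_mvX hX.toRg N, key _ hX.bnd, key _ hX.bnd2,
    esc_sub (Alg36.Esc.sd (Alg36.Esc.sd hX.esc)) fun _ h => h.1⟩

theorem two_mvX (glu : GluStmt) (hX : Rg X) (hN : Opn X G N) {R : Type} [PartialOrder R]
    {car : P → R} {Y X' : Set P} (hY : IsUpperSet Y) (h : Two car Y X G X') :
    Two (car ∘ t2) (t2 ⁻¹' Y) (mvX X N) (mvG X G N) (mvY Y X' N) := by
  have nd : ∀ c ∈ mvG X G N, c ∉ mvY Y X' N := fun c hc k => by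
    obtain ⟨a, x, b1, b2⟩ := t2_mvG hN hc
    exact k.elim (fun k => a.elim (fun a => Set.disjoint_left.1 h.dj a k)
      fun a => Set.disjoint_left.1 h.dg k a) fun k => b2 (k.2 x b1)
  refine ⟨h.mono.comp t2_mono, mvX_up hX.up N, fun _ _ k l => l.imp (h.up' (t2_mono k))
    fun l => ⟨hY (t2_mono k) l.1, fun x hx => l.2 x (Ch.bot_anti k hx)⟩, fun _ k => h.sub k.1,
    fun _ k => k.elim (fun k => h.sub' k) fun k => k.1, fun c hc => ?_,
    Set.disjoint_left.2 fun c k l => l.elim (Set.disjoint_left.1 h.dj k.1)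
      fun l => k.2 _ c.bot.bot_mem (l.2 _ c.bot.bot_mem),
    Set.disjoint_right.2 nd, bd_mvX hX h.bd hN, fun T hT c hc k => ?_, fun T hT c hc k => ?_⟩
  · by_cases a : ∀ x ∈ c.bot.1, x ∈ N
    · exact Or.inr (Or.inr (Or.inr ⟨hc, a⟩))
    push Not at a
    rcases h.cov _ hc with l | l | l
    · by_cases b : ∃ x ∈ c.bot.1, x ∈ N
      · exact Or.inr (Or.inl (Or.inr ⟨⟨sub_cl X l, b⟩, a⟩))
      · exact Or.inl ⟨l, fun x u v => b ⟨x, u, v⟩⟩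
    · exact Or.inr (Or.inl (Or.inl ⟨l, a⟩))
    · exact Or.inr (Or.inr (Or.inl l))
  · obtain ⟨a, b⟩ := t2_mvG hN hc.1
    convert ctr_star c (U := {y | y ∈ X ∧ car y ∈ T}) (· ∉ N) b (a.elim
      (fun a => sctr_min (m := t2 c) ⟨⟨a, k⟩, le_rfl⟩ fun _ h => h.2) fun a => by
        convert h.tv T hT _ ⟨a, hc.2⟩ k using 1
        ext; simp only [Set.mem_ofPred_eq]; tauto) using 1
    ext; simp only [mvX, Set.mem_ofPred_eq, Function.comp]; tauto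
  · have s : ∀ p : P → Prop, (∃ x ∈ c.bot.1, p x) → t2 c ∈ G → Ctr {d : Ch (Ch P) | c ≤ d ∧
        t2 d ∈ {y | y ∈ X' ∧ car y ∈ T} ∧ ∀ x ∈ d.bot.1, p x} := fun p a b =>
      ctr_star c p a (by
        convert h.tv' T hT _ ⟨b, hc.2⟩ k using 1
        ext; simp only [Set.mem_ofPred_eq]; tauto)
    have s1 := s (fun _ => True) ⟨_, c.bot.bot_mem, trivial⟩
    by_cases b : ∃ x ∈ c.bot.1, x ∈ N
    swap
    · convert s1 (hc.1.resolve_right fun l => b l.1.2).1 using 1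
      ext d
      exact ⟨fun l => ⟨l.2.1, ⟨l.1.resolve_right fun u => b ⟨_, Ch.bot_anti l.2.1 d.bot.bot_mem,
        u.2 _ d.bot.bot_mem⟩, l.2.2⟩, fun _ _ => trivial⟩, fun l => ⟨Or.inl l.2.1.1, l.1, l.2.1.2⟩⟩
    have s2 := ctr_star c (U := {y | y ∈ Y ∧ car y ∈ T}) (· ∈ N) b
      (sctr_min (m := t2 c) ⟨⟨hc.2, k⟩, le_rfl⟩ fun _ h => h.2)
    rcases (t2_mvG hN hc.1).1 with a | a
    · convert s2 using 1
      ext d
      exact ⟨fun l => have := l.1.resolve_left (Set.disjoint_left.1 h.dj (h.up (t2_mono l.2.1) a))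
        ⟨l.2.1, ⟨this.1, l.2.2⟩, this.2⟩, fun l => ⟨Or.inr ⟨l.2.1.1, l.2.2⟩, l.1, l.2.1.2⟩⟩
    · convert (glu _ _ _ (Or.inr ⟨fun x u y v l => ?_, fun x u y v l => ?_⟩)).2.1 (s1 a) s2 ?_ using 1
      · ext d
        exact ⟨fun l => l.1.imp (fun u => ⟨l.2.1, ⟨u, l.2.2⟩, fun _ _ => trivial⟩)
          fun u => ⟨l.2.1, ⟨u.1, l.2.2⟩, u.2⟩, fun l => l.elim (fun l => ⟨Or.inl l.2.1.1, l.1, l.2.1.2⟩)
            fun l => ⟨Or.inr ⟨l.2.1.1, l.2.2⟩, l.1, l.2.1.2⟩⟩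
      · exact ⟨u.1.trans l, ⟨h.up' (t2_mono l) u.2.1.1, v.elim (·.2.1.2) (·.2.1.2)⟩,
          fun _ _ => trivial⟩
      · exact ⟨u.1.trans l, ⟨hY (t2_mono l) u.2.1.1, v.elim (·.2.1.2) (·.2.1.2)⟩,
          fun t ht => u.2.2 t (Ch.bot_anti l ht)⟩
      · convert s (· ∈ N) b a using 1
        ext d
        exact ⟨fun l => ⟨l.1.1, l.1.2.1, l.2.2.2⟩, fun l => ⟨⟨l.1, l.2.1, fun _ _ => trivial⟩, l.1,
          ⟨h.sub' l.2.1.1, l.2.1.2⟩, l.2.2⟩⟩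

/-- **MV-1** -/
theorem mv1 (glu : GluStmt) : Mv1Stmt := fun _ _ _ _ _ N hX hG hN =>
  ⟨rg_mvX hX N, bd_mvX hX hG hN, cl_mvX hX N, om_mvX hX hG hN, fun h r => amb_mvX h hN hG r,
    fun _ _ _ _ _ hY h => two_mvX glu hX hN hY h⟩

end Crest.Agent.X212.Mv42
end
end

-- ▼ part X212/Kh4/Bas
section

/-!
# X212 / Kh4 (helper4): cutting along a disc, the sets `slab`, `scar`, `tcut`
-/

set_option autoImplicit false
set_option linter.unusedSectionVars false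

open Finset Classical

noncomputable section

namespace Crest.Agent.X212.Kh4

open Hp13 Hk
open Alg36 (Om Esc mix)
open Kh11 (WS sctr_min sctr_max)

variable {P : Type} [PartialOrder P] [Fintype P] {X : Set P} {w : P → P → ℤ}

theorem cl_low (X : Set P) : IsLowerSet (cl X) := fun _ _ h ⟨a, ha, k⟩ => ⟨a, ha, h.trans k⟩
theorem sub_cl : X ⊆ cl X := fun x h => ⟨x, h, le_rfl⟩
theorem om_cl : Om X ⊆ cl X := fun _ h => h.2
theorem cl_cases {x : P} (h : x ∈ cl X) : x ∈ X ∨ x ∈ Om X := (_root_.em (x ∈ X)).imp id fun k => ⟨k, h⟩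
theorem om_low (h : IsUpperSet X) : IsLowerSet (Om X) :=
  fun _ _ l k => ⟨fun j => k.1 (h l j), cl_low X l k.2⟩

theorem cl_sd (X : Set P) : cl (Ch.top ⁻¹' X : Set (Ch P)) = Ch.top ⁻¹' cl X := by
  ext c
  refine ⟨fun ⟨a, ha, k⟩ => ⟨a.top, ha, Ch.top_mono k⟩, fun ⟨a, ha, k⟩ =>
    ⟨c.ins a fun x hx => Or.inr ((Ch.le_top hx).trans k), ?_, c.le_ins _ _⟩⟩
  exact Set.mem_preimage.2 ((Alg36.top_ins' _ k).symm ▸ ha)

theorem om_sd (X : Set P) : Om (Ch.top ⁻¹' X : Set (Ch P)) = Ch.top ⁻¹' Om X :=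
  Set.ext fun c => and_congr Iff.rfl (Set.ext_iff.1 (cl_sd X) c)

theorem bd_om (h : IsUpperSet X) : Bd X (Om X) := ⟨om_low h, subset_rfl, fun _ _ _ k _ => k⟩

theorem rg_sd (h : Rg X) : Rg (Ch.top ⁻¹' X : Set (Ch P)) :=
  ⟨h.up.preimage Ch.top_mono, Alg36.Mf.sd h.mf, Alg36.Nice.sd h.up.ordConnected h.nice⟩

theorem amb_sd (h : Amb X) : Amb (Ch.top ⁻¹' X : Set (Ch P)) :=
  ⟨rg_sd h.toRg, Alg36.Bnd.sd h.up.ordConnected h.nice h.bnd,
    Alg36.Bnd.sd h.up.ordConnected h.nice h.bnd2, h.esc.sd⟩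

theorem mem_cv {K : Set P} (hK : IsLowerSet K) {c : Ch P} :
    c ∈ Cv K w ↔ c.top ∈ K ∧ 0 < w c.bot c.top :=
  and_congr ⟨fun h => h _ c.top_mem, fun h _ hx => hK (Ch.le_top hx) h⟩ Iff.rfl

theorem s1_add (h : S1 X w) {x y z : P} (hz : z ∈ cl X) (h1 : x ≤ y) (h2 : y ≤ z) :
    w x z = w x y + w y z :=
  h.coc x (cl_low X (h1.trans h2) hz) y (cl_low X h2 hz) z hz h1 h2

theorem s1_self (h : S1 X w) {x : P} (hx : x ∈ cl X) : w x x = 0 := by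
  have := s1_add h hx le_rfl le_rfl
  omega

theorem s1_mono (h : S1 X w) {a x y z : P} (hz : z ∈ cl X) (h0 : a ≤ x) (h1 : x ≤ y)
    (h2 : y ≤ z) : w x y ≤ w a z := by
  have := s1_add h hz h0 (h1.trans h2)
  have := s1_add h hz h1 h2
  have := h.nn a x (cl_low X (h1.trans h2) hz) h0
  have := h.nn y z hz h2
  omega

/-- the level set is relatively open -/
theorem cv_up (h : S1 X w) {c d : Ch P} (hc : c ∈ Cv (cl X) w) (hd : d.top ∈ cl X) (l : c ≤ d) :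
    d ∈ Cv (cl X) w :=
  (mem_cv (cl_low X)).2 ⟨hd, hc.2.trans_le
    (s1_mono h hd (Ch.bot_anti l) c.bot_le_top (Ch.top_mono l))⟩

theorem opn_cv (h : S1 X w) :
    Opn (Ch.top ⁻¹' X) (Om (Ch.top ⁻¹' X)) (Cv (cl X) w : Set (Ch P)) :=
  ⟨fun c hc => cl_cases (by rw [cl_sd]; exact hc.1 _ c.top_mem),
    fun _ hx _ hy l => cv_up h hx (by rwa [cl_sd] at hy) l⟩

/-! ### two general weak equivalences -/

theorem ws_topV {E V : Set P} (hV : V ⊆ E) :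
    WS {c : Ch P | (∀ x ∈ c.1, x ∈ E) ∧ c.top ∈ V} V Ch.top := by
  refine WS.of_le (fun _ hc => hc.2) (fun _ _ _ _ h => Ch.top_mono h) fun y hy => ?_
  have h1 : WS {c : Ch P | (((∀ x ∈ c.1, x ∈ E) ∧ c.top ∈ V) ∧ c.top ≤ y) ∧ y ∈ c.1}
      {c : Ch P | ((∀ x ∈ c.1, x ∈ E) ∧ c.top ∈ V) ∧ c.top ≤ y} id := by
    refine WS.of_clo' (fun _ h => h.1) fun c hc => ?_
    have e := Alg36.top_ins' (c := c) (x := y)
      (fun x hx => Or.inr ((Ch.le_top hx).trans hc.2)) hc.2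
    refine ⟨_, ⟨⟨⟨fun x hx => ?_, e.symm ▸ hy⟩, e.le⟩, mem_insert_self _ _⟩, c.le_ins _ _,
      fun b hb l => insert_subset hb.2 l⟩
    rcases mem_insert.1 hx with k | k
    exacts [k ▸ hV hy, hc.1.1 x k]
  exact h1.ctr_iff.1 (sctr_min (m := Ch.pt y)
    ⟨⟨⟨by simpa using hV hy, by simpa using hy⟩, by simp⟩, by simp⟩ fun c hc => Ch.pt_le.2 hc.2)

theorem ctr_ends {m n : P} (l : m ≤ n) : Ctr {d : Ch P | d.top = n ∧ d.bot ≤ m} := by
  have h1 : WS {d : Ch P | (d.top = n ∧ d.bot ≤ m) ∧ ∀ e ∈ d.1, e ≤ m ∨ e = n}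
      {d : Ch P | d.top = n ∧ d.bot ≤ m} id := by
    refine WS.of_int' (fun _ h => h.1) fun d hd => ?_
    have b : d.bot ∈ d.1.filter fun e => e ≤ m ∨ e = n := mem_filter.2 ⟨d.bot_mem, Or.inl hd.2⟩
    refine ⟨d.sub _ ⟨_, b⟩ (filter_subset _ _), ⟨⟨Ch.top_eq
      (mem_filter.2 ⟨hd.1 ▸ d.top_mem, Or.inr rfl⟩) fun x hx => hd.1 ▸ Ch.le_top (mem_filter.1 hx).1,
      (Ch.bot_le b).trans hd.2⟩, fun e he => (mem_filter.1 he).2⟩, filter_subset _ _,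
      fun c hc k x hx => mem_filter.2 ⟨k hx, hc.2 x hx⟩⟩
  have h2 : WS {d : Ch P | ((d.top = n ∧ d.bot ≤ m) ∧ ∀ e ∈ d.1, e ≤ m ∨ e = n) ∧ m ∈ d.1}
      {d : Ch P | (d.top = n ∧ d.bot ≤ m) ∧ ∀ e ∈ d.1, e ≤ m ∨ e = n} id := by
    refine WS.of_clo' (fun _ h => h.1) fun d hd => ?_
    have c : ∀ x ∈ d.1, Cm m x := fun x hx => (hd.2 x hx).symm.imp (fun k : x = n => k ▸ l) id
    refine ⟨d.ins m c, ⟨⟨⟨(Alg36.top_ins c (hd.1.1 ▸ l)).trans hd.1.1,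
      Ch.bot_le (mem_insert_self _ _)⟩, fun e he => ?_⟩, mem_insert_self _ _⟩, d.le_ins _ _,
      fun b hb k => insert_subset hb.2 k⟩
    rcases mem_insert.1 he with k | k
    exacts [Or.inl k.le, hd.2 e k]
  refine h1.ctr_iff.1 (h2.ctr_iff.1 (sctr_min (m := Ch.pr m n l) ⟨⟨⟨by simp, by simp⟩, ?_⟩, by simp⟩
    fun c hc => insert_subset hc.2 (singleton_subset_iff.2 (hc.1.1.1 ▸ c.top_mem))))
  simp

/-! ### the scars -/

/-- the scar `b`, one level down -/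
def Sd (X : Set P) (w : P → P → ℤ) (b : ℤ) : Set (Ch (Ch P)) :=
  {d | d.top.top ∈ cl X ∧ w d.bot.bot d.bot.top = 0 ∧ w d.top.bot d.top.top = 1 ∧
    w d.top.bot d.bot.top = b}

theorem sd_up (h : S1 X w) {b : ℤ} {d e : Ch (Ch P)} (hd : d ∈ Sd X w b) (he : e.top.top ∈ cl X)
    (l : d ≤ e) : e ∈ Sd X w b := by
  obtain ⟨h0, h1, h2, h3⟩ := hd
  have lb : e.bot ≤ d.bot := Ch.bot_anti l
  have lt : d.top ≤ e.top := Ch.top_mono l
  have m1 : d.bot.top ≤ e.top.top := Ch.top_mono (d.bot_le_top.trans lt)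
  have c1 := cl_low X m1 he
  have c2 := cl_low X (Ch.top_mono lb) c1
  have a1 := s1_mono h c1 (Ch.bot_anti lb) e.bot.bot_le_top (Ch.top_mono lb)
  have a2 := h.nn _ _ c2 e.bot.bot_le_top
  have a3 := s1_mono h he (Ch.bot_anti lt) d.top.bot_le_top (Ch.top_mono lt)
  have a4 := h.le1 _ _ he e.top.bot_le_top
  have m2 : d.top.bot ≤ d.bot.top := (Ch.bot_anti d.bot_le_top).trans d.bot.bot_le_top
  have m3 : e.top.bot ≤ e.bot.top := (Ch.bot_anti e.bot_le_top).trans e.bot.bot_le_top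
  have a5 := s1_add h c1 (Ch.bot_anti lt) m2
  have a6 := s1_add h c1 m3 (Ch.top_mono lb)
  have a7 := s1_add h h0 (Ch.bot_anti lt) d.top.bot_le_top
  have a8 := h.nn _ _ (cl_low X d.top.bot_le_top h0) (Ch.bot_anti lt)
  have a9 := h.le1 _ _ h0 ((Ch.bot_anti lt).trans d.top.bot_le_top)
  have b1 := s1_mono h c1 ((Ch.bot_anti lb).trans e.bot.bot_le_top) (Ch.top_mono lb) le_rfl
  have b2 := h.nn _ _ c1 (Ch.top_mono lb)
  exact ⟨he, by omega, by omega, by omega⟩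

theorem t3_def (c : Ch (Ch (Ch P))) : t3 c = c.top.top.top := rfl
theorem t2_def (c : Ch (Ch P)) : t2 c = c.top.top := rfl
theorem t3_mono : Monotone (t3 : Ch (Ch (Ch P)) → P) :=
  fun _ _ l => Ch.top_mono (Ch.top_mono (Ch.top_mono l))
theorem t2_mono : Monotone (t2 : Ch (Ch P) → P) := fun _ _ l => Ch.top_mono (Ch.top_mono l)

theorem le_t3 {c : Ch (Ch (Ch P))} {x : Ch P} (hx : x ∈ c.bot.1) : x.top ≤ t3 c :=
  Ch.top_mono ((Ch.le_top hx).trans (Ch.top_mono c.bot_le_top))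

theorem mem_slab (h : S1 X w) {c : Ch (Ch (Ch P))} :
    c ∈ slab X w ↔ t3 c ∈ cl X ∧ w c.bot.top.bot c.bot.top.top = 1 := by
  refine and_congr (by rw [cl_sd]; rfl) Iff.rfl |>.trans (and_congr_right fun k => ?_)
  have k' := cl_low X (le_t3 c.bot.top_mem) k
  refine ⟨fun ⟨x, hx, j⟩ => ?_, fun j => ⟨_, c.bot.top_mem, (mem_cv (cl_low X)).2 ⟨k', by omega⟩⟩⟩
  have := (cv_up h j k' (Ch.le_top hx)).2
  have := h.le1 _ _ k' c.bot.top.bot_le_top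
  omega

theorem off_iff (h : S1 X w) {c : Ch (Ch (Ch P))} (k : t3 c ∈ cl X) :
    (∃ x ∈ c.bot.1, x ∉ Cv (cl X) w) ↔ w c.bot.bot.bot c.bot.bot.top = 0 := by
  have k' := cl_low X (le_t3 c.bot.bot_mem) k
  have := h.nn _ _ k' c.bot.bot.bot_le_top
  refine ⟨fun ⟨x, hx, j⟩ => by_contra fun n => j (cv_up h ((mem_cv (cl_low X)).2 ⟨k', by omega⟩)
    (cl_low X (le_t3 hx) k) (Ch.bot_le hx)), fun j => ⟨_, c.bot.bot_mem, fun n => ?_⟩⟩
  have := n.2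
  omega

theorem mem_scar (h : S1 X w) {b : ℤ} {c : Ch (Ch (Ch P))} :
    c ∈ scar X w b ↔ t3 c ∈ cl X ∧ c.bot ∈ Sd X w b :=
  ⟨fun ⟨⟨a, k⟩, e⟩ => let a := (mem_slab h).1 a
    ⟨a.1, cl_low X (le_t3 c.bot.top_mem) a.1, (off_iff h a.1).1 k, a.2, e⟩,
   fun ⟨a, _, k1, k2, e⟩ => ⟨⟨(mem_slab h).2 ⟨a, k2⟩, (off_iff h a).2 k1⟩, e⟩⟩

theorem mem_scar' (h : S1 X w) {b : ℤ} {c : Ch (Ch (Ch P))} :
    c ∈ scar X w b ↔ ∀ d ∈ c.1, d ∈ Sd X w b :=
  (mem_scar h).trans ⟨fun k _ hd => sd_up h k.2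
    (cl_low X (t2_mono (Ch.le_top hd)) k.1) (Ch.bot_le hd),
    fun k => ⟨(k _ c.top_mem).1, k _ c.bot_mem⟩⟩

theorem scar_low (h : S1 X w) (b : ℤ) : IsLowerSet (scar X w b) :=
  fun _ _ l k => (mem_scar' h).2 fun d hd => (mem_scar' h).1 k d (l hd)

theorem mvD_eq (h : S1 X w) :
    mvD (Ch.top ⁻¹' X) (Cv (cl X) w) = scar X w 0 ∪ scar X w 1 := by
  refine Set.ext fun c => ⟨fun k => ?_, fun k => k.elim (·.1) (·.1)⟩
  have k' := cl_low X (le_t3 c.bot.bot_mem) ((mem_slab h).1 k.1).1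
  have m : c.bot.top.bot ≤ c.bot.bot.top :=
    (Ch.bot_anti c.bot.bot_le_top).trans c.bot.bot.bot_le_top
  have := h.nn _ _ k' m
  have := h.le1 _ _ k' m
  by_cases e : w c.bot.top.bot c.bot.bot.top = 0
  exacts [Or.inl ⟨k, e⟩, Or.inr ⟨k, by omega⟩]

theorem scar_dj : Disjoint (scar X w 0) (scar X w 1) :=
  Set.disjoint_left.2 fun _ a b => zero_ne_one (a.2.symm.trans b.2)

/-- comparable cells of the frontier lie in the same scar -/
theorem scar_cm (h : S1 X w) {b b' : ℤ} {c d : Ch (Ch (Ch P))} (hc : c ∈ scar X w b)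
    (hd : d ∈ scar X w b') (l : Cm c d) : b = b' :=
  l.elim (fun l => hc.2.symm.trans (scar_low h b' l hd).2)
    fun l => (scar_low h b l hc).2.symm.trans hd.2

/-- each scar is a copy of the disc -/
theorem ws_scar (h : S1 X w) {b : ℤ} (hb : b = 0 ∨ b = 1) {W : Set (Ch P)}
    (hW : W ⊆ Cv (cl X) w) : WS (scar X w b ∩ t2 ⁻¹' W) W t2 := by
  have h1 := ws_topV (E := Sd X w b) (V := {d | d ∈ Sd X w b ∧ d.top ∈ W}) fun _ k => k.1
  have e : {c : Ch (Ch (Ch P)) | (∀ x ∈ c.1, x ∈ Sd X w b) ∧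
      c.top ∈ {d | d ∈ Sd X w b ∧ d.top ∈ W}} = scar X w b ∩ t2 ⁻¹' W :=
    Set.ext fun c => ⟨fun k => ⟨(mem_scar' h).2 k.1, k.2.2⟩,
      fun k => ⟨(mem_scar' h).1 k.1, (mem_scar' h).1 k.1 _ c.top_mem, k.2⟩⟩
  rw [e] at h1
  refine h1.comp (WS.of_le (fun _ k => k.2) (fun _ _ _ _ l => Ch.top_mono l) fun n hn => ?_)
  obtain ⟨n0, n1⟩ := (mem_cv (cl_low X)).1 (hW hn)
  have n2 := h.le1 _ _ n0 n.bot_le_top
  have cx : ∀ x ∈ n.1, x ∈ cl X := fun x hx => cl_low X (Ch.le_top hx) n0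
  let m : Ch P := n.sub (n.1.filter fun x => w n.bot x = b) (hb.elim
    (fun k => ⟨_, mem_filter.2 ⟨n.bot_mem, (s1_self h (cx _ n.bot_mem)).trans k.symm⟩⟩)
    fun k => ⟨_, mem_filter.2 ⟨n.top_mem, by omega⟩⟩) (filter_subset _ _)
  have h2 : WS {d : Ch (Ch P) | d.top = n ∧ d.bot ≤ m}
      {d | d ∈ {d | d ∈ Sd X w b ∧ d.top ∈ W} ∧ d.top ≤ n} id := by
    refine WS.of_clo' (fun d ⟨d1, d2⟩ => ?_) fun d hd => ?_
    · obtain ⟨a1, a2⟩ := mem_filter.1 (d2 d.bot.bot_mem)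
      obtain ⟨a3, a4⟩ := mem_filter.1 (d2 d.bot.top_mem)
      have := s1_add h (cx _ a3) (Ch.bot_le a1) d.bot.bot_le_top
      exact ⟨⟨⟨d1 ▸ n0, by omega, by rw [d1]; omega, d1 ▸ a4⟩, d1 ▸ hn⟩, d1.le⟩
    · have c : ∀ x ∈ d.1, Cm n x := fun x hx => Or.inr ((Ch.le_top hx).trans hd.2)
      have e := Alg36.top_ins' c hd.2
      obtain ⟨-, a1, -, a2⟩ := sd_up h hd.1.1 (e.symm ▸ n0 : (d.ins n c).top.top ∈ cl X)
        (d.le_ins n c)
      refine ⟨d.ins n c, ⟨e, fun x hx => ?_⟩, d.le_ins _ _,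
        fun f hf l => insert_subset (hf.1 ▸ f.top_mem) l⟩
      have l : (d.ins n c).bot ≤ n := (d.ins n c).bot_le_top.trans e.le
      rw [e] at a2
      have c1 := cx _ (l (d.ins n c).bot.top_mem)
      have := s1_add h c1 (Ch.bot_le (l hx)) (Ch.le_top hx)
      have := s1_mono h c1 (Ch.bot_le hx) (Ch.le_top hx) le_rfl
      have := h.nn _ _ c1 (Ch.le_top hx)
      exact mem_filter.2 ⟨l hx, by omega⟩
  exact h2.ctr_iff.1 (ctr_ends (filter_subset _ _))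

theorem scar_t2 (h : S1 X w) {b : ℤ} {c : Ch (Ch (Ch P))} (hc : c ∈ scar X w b) :
    t2 c ∈ Cv (cl X) w :=
  let ⟨a, _, k, _⟩ := (mem_scar' h).1 hc _ c.top_mem
  (mem_cv (cl_low X)).2 ⟨a, by show 0 < w c.top.top.bot c.top.top.top; omega⟩

/-- the part of a scar over a set of cells of `P` -/
theorem ws_scar' (h : S1 X w) {b : ℤ} (hb : b = 0 ∨ b = 1) (K : Set P) :
    WS (scar X w b ∩ t3 ⁻¹' K) (Cv (cl X) w ∩ Ch.top ⁻¹' K) t2 := by
  convert ws_scar h hb (W := Cv (cl X) w ∩ Ch.top ⁻¹' K) Set.inter_subset_left using 1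
  exact Set.ext fun c => ⟨fun k => ⟨k.1, scar_t2 h k.1, k.2⟩, fun k => ⟨k.1, k.2.2⟩⟩

theorem cv_int : Cv (cl X) w ∩ Ch.top ⁻¹' X = CA X w :=
  Set.ext fun _ => ⟨fun k => ⟨k.2, k.1.2⟩, fun k => ⟨(mem_cv (cl_low X)).2 ⟨sub_cl k.1, k.2⟩, k.1⟩⟩

theorem cv_low {K : Set P} (hK : IsLowerSet K) (hs : K ⊆ cl X) :
    Cv (cl X) w ∩ Ch.top ⁻¹' K = Cv K w :=
  Set.ext fun c => ⟨fun k => (mem_cv hK).2 ⟨k.2, k.1.2⟩,
    fun k => ⟨⟨fun x hx => hs (k.1 x hx), k.2⟩, k.1 _ c.top_mem⟩⟩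

end Crest.Agent.X212.Kh4
end
end

-- ▼ part X212/Kh4/Tc1
section

/-!
# X212 / Kh4 (helper4): TC-1
-/

set_option autoImplicit false
set_option linter.unusedSectionVars false

open Finset Classical

noncomputable section

namespace Crest.Agent.X212.Kh4

open Hp13 Hk
open Alg36 (Om Esc mix)
open Kh11 (WS sctr_min sctr_max)

variable {P : Type} [PartialOrder P] [Fintype P] {X : Set P} {w : P → P → ℤ}

theorem eu_low {A B : Set P} (hA : IsLowerSet A) (hB : IsLowerSet B) :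
    eu (A ∪ B) = eu A + eu B - eu (A ∩ B) := by
  rw [← ee_lower hA, ← ee_lower hB, ← ee_lower (hA.union hB), ← ee_lower (hA.inter hB),
    ← Set.union_sdiff_self, ee_union Set.disjoint_sdiff_right, ← Set.sdiff_inter_self_eq_sdiff,
    ee_diff Set.inter_subset_right]
  ring

theorem eu_dj {A B : Set P} (hA : IsLowerSet A) (hB : IsLowerSet B) (h : Disjoint A B) :
    eu (A ∪ B) = eu A + eu B := by
  rw [← ee_lower hA, ← ee_lower hB, ← ee_lower (hA.union hB), ee_union h]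

theorem mvK_low {K N : Set P} (hK : IsLowerSet K) : IsLowerSet (mvK K N) :=
  fun _ _ l ⟨a, x, hx, k⟩ => ⟨hK (t2_mono l) a, x, Ch.bot_anti l hx, k⟩
theorem mvH_low {K N : Set P} (hK : IsLowerSet K) : IsLowerSet (mvH K N) :=
  fun _ _ l ⟨a, x, hx, k⟩ => ⟨hK (t2_mono l) a, x, Ch.bot_anti l hx, k⟩
theorem mvS_eq (X N : Set P) : mvS X N = mvH (cl X) N := rfl
theorem mv_union (K N : Set P) : mvK K N ∪ mvH K N = t2 ⁻¹' K :=
  Set.ext fun c => ⟨fun k => k.elim (·.1) (·.1), fun k => (_root_.em (c.bot.bot ∈ N)).elim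
    (fun j => Or.inr ⟨k, _, c.bot.bot_mem, j⟩) fun j => Or.inl ⟨k, _, c.bot.bot_mem, j⟩⟩
theorem mv_inter (X N : Set P) : mvK (cl X) N ∩ mvS X N = mvD X N :=
  Set.ext fun _ => ⟨fun k => ⟨k.2, k.1.2⟩, fun k => ⟨⟨k.1.1, k.2⟩, k.1⟩⟩
theorem slab_low : IsLowerSet (slab X w) := mvH_low (cl_low _)

theorem eu_t2 (K : Set P) : eu (t2 ⁻¹' K : Set (Ch (Ch P))) = eu K :=
  (Alg36.ws_sd (Ch.top ⁻¹' K)).eu_eq.trans (Alg36.ws_sd K).eu_eq

/-- a set that is clopen and connected is a component -/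
theorem cmp_of {E C D : Set P} (hD : IsCmp E D) (hC : Conn C) (hs : C ⊆ E)
    (cl : ∀ x ∈ C, ∀ y ∈ E, Cm x y → y ∈ C) {x : P} (hx : x ∈ C) (hx' : x ∈ D) : D = C := by
  rw [hD.eq hx']
  exact Set.ext fun y => ⟨fun k => (k.2.in_clopen cl hx).mem hx,
    fun k => ⟨hs k, (hC x hx y k).mono hs⟩⟩

/-- a connected set that meets `U` and its complement -/
theorem ex_edge {E U : Set P} (hE : Conn E) (hU : IsUpperSet U) {a b : P} (ha : a ∈ E) (hb : b ∈ E)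
    (h1 : a ∉ U) (h2 : b ∈ U) : ∃ x ∈ E, ∃ y ∈ E ∩ U, x ∉ U ∧ x ≤ y := by
  by_contra n
  exact (hE a ha b hb).ind (p := fun t => t ∉ U) h1 (fun x hx y hy l =>
    ⟨fun k j => n ⟨x, hx, y, ⟨hy, j⟩, k, l⟩, fun k j => k (hU l j)⟩) h2

section td

variable (hB : BrgStmt) (hX : Rg X) (hw : TD X w)
include hB hX hw

theorem ctr_ca : Ctr (CA X w) := ((hB P X w hX hw.toS1).2.2.2.1 hw).2.2
theorem conn_bd : Conn (Cv (Om X) w) := ((hB P X w hX hw.toS1).2.2.2.1 hw).2.1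
theorem ctr_cv : Ctr (Cv (cl X) w) := (hB P X w hX hw.toS1).2.2.1.ctr_iff.1 (ctr_ca hB hX hw)

theorem ctr_scar {b : ℤ} (hb : b = 0 ∨ b = 1) : Ctr (scar X w b) := by
  have := (ws_scar hw.toS1 hb subset_rfl).ctr_iff.2 (ctr_cv hB hX hw)
  rwa [Set.inter_eq_left.2 (show scar X w b ⊆ t2 ⁻¹' Cv (cl X) w from
    fun _ k => scar_t2 hw.toS1 k)] at this

theorem ctr_scar_int {b : ℤ} (hb : b = 0 ∨ b = 1) : Ctr (scar X w b ∩ t3 ⁻¹' X) :=
  (ws_scar' hw.toS1 hb X).ctr_iff.2 (cv_int (X := X) (w := w) ▸ ctr_ca hB hX hw)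

theorem conn_scar_bd {b : ℤ} (hb : b = 0 ∨ b = 1) :
    Conn (scar X w b ∩ t3 ⁻¹' Om X) ∧ (scar X w b ∩ t3 ⁻¹' Om X).Nonempty := by
  have := ws_scar' hw.toS1 hb (Om X)
  rw [cv_low (om_low hX.up) om_cl] at this
  exact ⟨this.conn_iff.2 (conn_bd hB hX hw), this.ne_iff.2 hw.ne⟩

theorem cmp_mvD {D : Set (Ch (Ch (Ch P)))}
    (hD : IsCmp (mvD (Ch.top ⁻¹' X) (Cv (cl X) w)) D) : ∃ b, (b = 0 ∨ b = 1) ∧ D = scar X w b := by
  obtain ⟨x, hx⟩ := hD.ne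
  have k : ∀ y ∈ mvD (Ch.top ⁻¹' X) (Cv (cl X) w), ∃ b, (b = 0 ∨ b = 1) ∧ y ∈ scar X w b :=
    fun y hy => (mvD_eq hw.toS1 ▸ hy : y ∈ scar X w 0 ∪ scar X w 1).elim
      (fun j => ⟨0, Or.inl rfl, j⟩) fun j => ⟨1, Or.inr rfl, j⟩
  obtain ⟨b, hb, j⟩ := k x (hD.sub hx)
  refine ⟨b, hb, cmp_of hD (ctr_scar hB hX hw hb).conn (fun _ k => k.1) (fun y hy z hz l => ?_) j hx⟩
  obtain ⟨b', -, j'⟩ := k z hz
  rwa [scar_cm hw.toS1 hy j' l]

theorem ctr_slab (hW : MvWStmt) : Ctr (slab X w) := by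
  have o := opn_cv hw.toS1
  have := (hW _ (cl (Ch.top ⁻¹' X)) (Cv (cl X) w) (cl_low _) o.up).2.1
  rw [Set.inter_eq_right.2 fun c hc => (o.sub hc).elim (fun k => sub_cl k) fun k => om_cl k] at this
  exact this.ctr_iff.2 (ctr_cv hB hX hw)

end td

section mv

variable (hM : Mv1Stmt) (hX : Rg X) (hw : S1 X w)
include hM hX hw

theorem rg_tcut : Rg (tcut X w) := (hM _ _ _ _ (rg_sd hX) (bd_om (rg_sd hX).up) (opn_cv hw)).1

theorem cl_tcut : cl (tcut X w) = mvK (cl (Ch.top ⁻¹' X)) (Cv (cl X) w) :=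
  (hM _ _ _ _ (rg_sd hX) (bd_om (rg_sd hX).up) (opn_cv hw)).2.2.1

theorem om_tcut : Om (tcut X w) =
    mvK (Ch.top ⁻¹' Om X) (Cv (cl X) w) ∪ (scar X w 0 ∪ scar X w 1) := by
  have := (hM _ _ _ _ (rg_sd hX) (bd_om (rg_sd hX).up) (opn_cv hw)).2.2.2.1
  rwa [Set.sdiff_self, Set.preimage_empty, Set.union_empty, mvG, mvD_eq hw, om_sd] at this

theorem tcut_union : cl (tcut X w) ∪ slab X w = t3 ⁻¹' cl X := by
  rw [cl_tcut hM hX hw, slab, mvS_eq, mv_union, cl_sd]; rfl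

theorem tcut_inter : cl (tcut X w) ∩ slab X w = scar X w 0 ∪ scar X w 1 := by
  rw [cl_tcut hM hX hw, slab, mv_inter, mvD_eq hw]

theorem scar_om {b : ℤ} (hb : b = 0 ∨ b = 1) : scar X w b ⊆ Om (tcut X w) := by
  rw [om_tcut hM hX hw]
  rcases hb with rfl | rfl
  exacts [fun _ k => Or.inr (Or.inl k), fun _ k => Or.inr (Or.inr k)]

/-- over `X` the scar is open in the boundary -/
theorem scar_star {b : ℤ} {c d : Ch (Ch (Ch P))} (hc : c ∈ scar X w b) (h : t3 c ∈ X)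
    (hd : d ∈ Om (tcut X w)) (l : Cm c d) : d ∈ scar X w b := by
  rcases l with l | l
  · rw [om_tcut hM hX hw] at hd
    rcases hd with k | k | k
    · exact absurd (hX.up (t3_mono l) h) k.1.1
    · rwa [scar_cm hw hc k (Or.inl l)]
    · rwa [scar_cm hw hc k (Or.inl l)]
  · exact scar_low hw b l hc

end mv

theorem off_flat {K : Set P} (hK : IsLowerSet K) (hf : Flat (K ∩ cl X) w) {c : Ch (Ch (Ch P))}
    (hc : t3 c ∈ K) : ∀ x ∈ c.bot.1, x ∉ Cv (cl X) w := fun x hx k =>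
  (hf _ ⟨hK (x.bot_le_top.trans (le_t3 hx)) hc, k.1 _ x.bot_mem⟩ _
    ⟨hK (le_t3 hx) hc, k.1 _ x.top_mem⟩ x.bot_le_top).not_gt k.2

theorem tc1 (hB : BrgStmt) (hN : NmStmt) (hW : MvWStmt) (hM : Mv1Stmt) : Tc1Stmt := by
  intro P _ _ X w hX hw
  have s := hw.toS1
  have o := opn_cv s
  have r := rg_tcut hM hX s
  refine ⟨o, r, fun a => ?_, ?_, fun D hD => ?_, ctr_slab hB hX hw hW, mvD_eq s, ?_,
    fun K hK hf => ⟨?_, fun c hc => ⟨hc.2, off_flat hK hf hc.1⟩, fun c hc => ?_⟩, fun b hb =>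
      ⟨scar_low s b, ctr_scar hB hX hw hb, scar_om hM hX s hb, ?_, ctr_scar_int hB hX hw hb,
        (conn_scar_bd hB hX hw hb).1, ?_⟩⟩
  · refine (hM _ _ _ _ (rg_sd hX) (bd_om (rg_sd hX).up) o).2.2.2.2.1 (amb_sd a) fun n hn => ?_
    obtain ⟨m, hm⟩ := hw.ne
    exact ⟨m, by rw [om_sd]; exact hm.1 _ m.top_mem, (ctr_cv hB hX hw).conn n hn m
      ⟨fun x hx => om_cl (hm.1 x hx), hm.2⟩⟩
  · have e1 := eu_low (cl_low (tcut X w)) (slab_low (X := X) (w := w))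
    rw [tcut_union hM hX s, tcut_inter hM hX s, eu_dj (scar_low s 0) (scar_low s 1) scar_dj,
      (ctr_scar hB hX hw (Or.inl rfl)).eu, (ctr_scar hB hX hw (Or.inr rfl)).eu,
      (ctr_slab hB hX hw hW).eu, ← ((hN _).1 _ r).2.1.eu_eq] at e1
    have e2 : eu (t3 ⁻¹' cl X : Set (Ch (Ch (Ch P)))) = eu X :=
      ((eu_t2 (Ch.top ⁻¹' cl X)).trans (Alg36.ws_sd _).eu_eq).trans
        ((hN _).1 _ hX).2.1.eu_eq.symm
    omega
  · obtain ⟨b, hb, rfl⟩ := cmp_mvD hB hX hw hD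
    rw [om_sd]
    exact ⟨ctr_scar hB hX hw hb, (conn_scar_bd hB hX hw hb).1⟩
  · rw [om_tcut hM hX s]
    exact Set.union_subset_union_left _ fun _ k => k.1
  · exact Set.disjoint_left.2 fun c hc ⟨_, x, hx, k⟩ => off_flat hK hf hc x hx k
  · rw [om_tcut hM hX s]
    exact Or.inl ⟨hc.2, _, c.bot.bot_mem, off_flat hK hf hc.1 _ c.bot.bot_mem⟩
  · have m : Mf 2 (Subtype.val ⁻¹' Set.univ : Set (Om (tcut X w))) := ((hN _).1 _ r).1
    exact Mf.emb (f := Set.inclusion (scar_om hM hX s hb)) (fun _ _ => Iff.rfl)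
      (fun _ _ => Set.mem_univ _) (fun c hc x l => ⟨⟨x.1, scar_star hM hX s c.2 hc x.2 l⟩, rfl⟩) m
  · obtain ⟨x, hx⟩ := (conn_scar_bd hB hX hw hb).2
    obtain ⟨y, hy⟩ := (ctr_scar_int hB hX hw hb).ne
    exact ex_edge (ctr_scar hB hX hw hb).conn (hX.up.preimage t3_mono) hx.1 hy.1 hx.2.1 hy.2

end Crest.Agent.X212.Kh4
end
end

-- ▼ part X212/Tcc1/Tc2
section

/-!
# X212 / Tcc1 (helper1): cutting along a disc, cohomology (`Hk.Tc2Stmt`)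
-/

set_option autoImplicit false
set_option linter.unusedSectionVars false

open Finset Classical

noncomputable section

namespace Crest.Agent.X212.Tcc1

open Crest.Agent.X212.Hp13 hiding cl_low sub_cl om_low exOn_add exOn_neg exOn_congr exOn_pb
open Hk
open Alg36 (Om)
open Cut21 (tp bt le_tp le_bt top_tp bot_tp top_bt bot_bt)
open Kh11 (WS ce_top)

variable {P : Type} [PartialOrder P] [Fintype P] {X G : Set P} {w : P → P → ℤ}
  {c d : Ch (Ch (Ch P))} {b : ℤ}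

theorem td_top (hX : IsUpperSet X) (h : TD X w) :
    TD (Ch.top ⁻¹' X : Set (Ch P)) (pb Ch.top w) := by
  refine ⟨⟨by rw [cl_sd]; exact cocOn_pb h.coc Ch.top_mono, fun x y k l => ?_,
    fun x y k l => ?_⟩, ?_, (chi_top w).trans h.chi, ?_⟩
  · exact h.nn _ _ (by rwa [cl_sd] at k) (Ch.top_mono l)
  · exact h.le1 _ _ (by rwa [cl_sd] at k) (Ch.top_mono l)
  · convert (ce_top.ws (h.ca_up hX).ordConnected).conn_iff.2 h.conn using 1
    ext c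
    simp only [CA, pb, Set.mem_preimage, Set.mem_ofPred_eq, Ch.top_img, Ch.bot_img]
  · obtain ⟨q, k, l⟩ := h.ne
    obtain ⟨e, rfl⟩ := ce_top.lift q
    rw [Ch.top_img, Ch.bot_img] at l
    exact ⟨e, fun x hx => by rw [om_sd']; exact k _ (Ch.mem_img.2 ⟨x, hx, rfl⟩), l⟩

theorem ines_top (h : S1 X w) (a : G ⊆ cl X)
    (k : Ines (Ch.top ⁻¹' G : Set (Ch P)) (pb Ch.top w)) : Ines G w := by
  obtain ⟨Z, z1, z2, z3⟩ := k
  have i : ∀ c : Ch P, c.top ∈ G → (Ch.pt c.top ∈ Z ↔ c ∈ Z) := fun c k =>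
    (z3.iff (show (Ch.pt c.top).top ∈ G by simpa using k) k (Ch.pt_le.2 c.top_mem)).1
      (by simpa [pb] using h.self (a k))
  obtain ⟨Z₀, z0, rfl⟩ : ∃ Z₀ ⊆ G, Z = Ch.top ⁻¹' Z₀ := ⟨{x | x ∈ G ∧ Ch.pt x ∈ Z},
    fun _ k => k.1, Set.ext fun c => ⟨fun k => ⟨z1 k, (i c (z1 k)).2 k⟩, fun k => (i c k.1).1 k.2⟩⟩
  refine ⟨Z₀, z0, (ce_top.ws_pre _).ctr_iff.1 z2, ?_⟩
  refine z3.imp (fun k x hx y hy l => ?_) fun k x hx y hy l => ?_ <;>
    simpa [pb, cb, ind] using k (Ch.pt x) (show (Ch.pt x).top ∈ G by simpa using hx)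
      (Ch.pr x y l) (show (Ch.pr x y l).top ∈ G by simpa using hy) (Ch.pt_le.2 (by simp))

/-- subdivision is a move -/
theorem tr_top (hX : IsUpperSet X) (h : TD X w) :
    Tr X ∅ w (lv0 P).sd Ch.top (pb Ch.top w) :=
  ⟨Desc.sd (lv0 P), td_top hX h, fun _ _ _ k => k.pb Ch.top_mono,
    fun _ a _ k => ines_top h.toS1 a.sub_cl k, Or.inl (by rw [sub_self]; exact exOn_zero)⟩

/-! ### the cells of level three -/

theorem tb_le (c : Ch (Ch (Ch P))) : c.bot.top.top ≤ t3 c :=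
  Ch.top_mono (Ch.top_mono c.bot_le_top)

theorem bb_le (c : Ch (Ch (Ch P))) : c.bot.bot.top ≤ t3 c :=
  (Ch.top_mono c.bot.bot_le_top).trans (tb_le c)

theorem bb_mono (l : c ≤ d) : c.bot.bot ≤ d.bot.bot := Ch.bot_anti (Ch.bot_anti l)

theorem bt_anti (l : c ≤ d) : d.bot.top ≤ c.bot.top := Ch.top_mono (Ch.bot_anti l)

theorem cv_iff {e : Ch P} (k : e.top ∈ cl X) : e ∈ Cv (cl X) w ↔ e ∈ mx w :=
  (mem_cv cl_low).trans (and_iff_right k)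

theorem ex_in (h : S1 X w) (k : t3 c ∈ cl X) :
    (∃ x ∈ c.bot.1, x ∈ Cv (cl X) w) ↔ c.bot.top ∈ mx w :=
  have t := cl_low (tb_le c) k
  ⟨fun ⟨_, a, m⟩ => h.up t (Ch.le_top a) m.2, fun m => ⟨_, Ch.top_mem _, (cv_iff t).2 m⟩⟩

theorem ex_out (h : S1 X w) (k : t3 c ∈ cl X) :
    (∃ x ∈ c.bot.1, x ∉ Cv (cl X) w) ↔ c.bot.bot ∉ mx w :=
  ⟨fun ⟨_, a, m⟩ n =>
    have t := cl_low ((Ch.top_mono (Ch.le_top a)).trans (tb_le c)) k
    m ((cv_iff t).2 (h.up t (Ch.bot_le a) n)), fun m => ⟨_, Ch.bot_mem _, fun n => m n.2⟩⟩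

theorem t2_cl : t2 c ∈ cl (Ch.top ⁻¹' X) ↔ t3 c ∈ cl X := by rw [cl_sd]; rfl

theorem mem_slab (h : S1 X w) : c ∈ slab X w ↔ t3 c ∈ cl X ∧ c.bot.top ∈ mx w :=
  (and_congr_left' t2_cl).trans (and_congr_right fun k => ex_in h k)

theorem mem_tcut (h : S1 X w) : c ∈ tcut X w ↔ t3 c ∈ X ∧ c.bot.top ∉ mx w :=
  and_congr_right fun k => by
    rw [← ex_in h (sub_cl k)]; push Not; rfl

theorem mem_K (h : S1 X w) : c ∈ cl (tcut X w) ↔ t3 c ∈ cl X ∧ c.bot.bot ∉ mx w := by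
  refine ⟨fun ⟨d, k, l⟩ => ?_, fun ⟨⟨u, hu, l⟩, k⟩ => ?_⟩
  · obtain ⟨a, m⟩ := (mem_tcut h).1 k
    exact ⟨⟨_, a, t3_mono l⟩, fun n => m (h.up (cl_low (tb_le d) (sub_cl a))
      ((bb_mono l).trans d.bot.bot_le_top) n)⟩
  · have p : Ch.pt c.bot.bot ≤ c.bot := Ch.pt_le.2 (Ch.bot_mem _)
    refine ⟨tp (bt c _ p) (tp c.top (tp c.top.top u l) (le_tp _ _ _)) (by simpa using le_tp _ _ _),
      (mem_tcut h).2 ⟨?_, by simpa using k⟩, (le_bt _ _ _).trans (le_tp _ _ _)⟩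
    show (Ch.top (Ch.top (Ch.top _))) ∈ X
    simpa using hu

/-- the level inside the slab -/
def lev (w : P → P → ℤ) (c : Ch (Ch (Ch P))) : ℤ := w c.bot.top.bot c.bot.bot.top

theorem mem_mvD (h : S1 X w) :
    c ∈ mvD (Ch.top ⁻¹' X) (Cv (cl X) w) ↔ c ∈ slab X w ∧ c ∈ cl (tcut X w) :=
  and_congr_right fun k =>
    have t := ((mem_slab h).1 k).1
    (ex_out h t).trans ((mem_K h).trans (and_iff_right t)).symm

theorem mem_scar (h : S1 X w) :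
    c ∈ scar X w b ↔ (c ∈ slab X w ∧ c ∈ cl (tcut X w)) ∧ lev w c = b :=
  and_congr_left' (mem_mvD h)

theorem lev_cases (h : S1 X w) (k : t3 c ∈ cl X) : lev w c = 0 ∨ lev w c = 1 :=
  h.cases (cl_low (bb_le c) k) (Ch.bot_le (c.bot.bot_le_top (Ch.top_mem _)))

theorem cover (h : S1 X w) (k : t3 c ∈ cl X) (n : c ∉ cl (tcut X w)) : c ∈ slab X w :=
  (mem_slab h).2 ⟨k, h.up (cl_low (tb_le c) k) c.bot.bot_le_top
    (by_contra fun m => n ((mem_K h).2 ⟨k, m⟩))⟩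

theorem scar_cases (h : S1 X w) (k : c ∈ slab X w) (l : c ∈ cl (tcut X w)) :
    c ∈ scar X w 0 ∨ c ∈ scar X w 1 :=
  (lev_cases h ((mem_K h).1 l).1).imp (fun e => (mem_scar h).2 ⟨⟨k, l⟩, e⟩)
    fun e => (mem_scar h).2 ⟨⟨k, l⟩, e⟩

theorem not_slab (h : S1 X w) (k : c ∈ tcut X w) : c ∉ slab X w :=
  fun l => ((mem_tcut h).1 k).2 ((mem_slab h).1 l).2

theorem flat_K (h : S1 X w) : Flat (cl (tcut X w)) (w3 w) := fun c _ d k l => by
  obtain ⟨a, m⟩ := (mem_K h).1 k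
  have t := cl_low (bb_le d) a
  have l' := Ch.top_mono (bb_mono l)
  exact le_antisymm (not_lt.1 fun n => m (h.pos t (bb_mono l (Ch.top_mem _)) (Ch.top_mem _) l' n))
    (h.nn _ _ t l')

theorem lev_add (h : S1 X w) (k : d ∈ slab X w) (l : c ≤ d) : w3 w c d = lev w d - lev w c := by
  obtain ⟨a, m⟩ := (mem_slab h).1 k
  have m : 0 < w d.bot.top.bot d.bot.top.top := m
  have t := cl_low (tb_le d) a
  have t' := cl_low (bb_le d) a
  have l1 : c.bot.top.bot ≤ d.bot.top.bot := Ch.bot_anti (bt_anti l)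
  have e1 := h.add t l1 d.bot.top.bot_le_top
  have e2 := h.le1 _ _ t (l1.trans d.bot.top.bot_le_top)
  have e3 := h.nn _ _ (cl_low d.bot.top.bot_le_top t) l1
  have e4 := h.add t' l1 (Ch.bot_le (d.bot.bot_le_top (Ch.top_mem _)))
  have e5 := h.add t' (Ch.bot_le (c.bot.bot_le_top (Ch.top_mem _))) (Ch.top_mono (bb_mono l))
  simp only [w3, pb, lev]
  omega

theorem drv (h : S1 X w) : ExOn (t3 ⁻¹' cl X) (w3 w - pb t3 w) :=
  ⟨fun c => -w c.bot.bot.top (t3 c), fun c _ d k l => by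
    have e1 := h.add k (bb_le c) (t3_mono l)
    have e2 := h.add k (Ch.top_mono (bb_mono l)) (bb_le d)
    simp only [w3, pb, Pi.sub_apply]
    omega⟩

/-- potentials on the cut manifold and on the slab glue -/
theorem glue (h : S1 X w) {Γ : Type} [AddCommGroup Γ] {z : _ → _ → Γ} {g g' : _ → Γ}
    (h1 : EqE (cl (tcut X w)) z (cb g)) (h2 : EqE (slab X w) z (cb g'))
    (h3 : ∀ c ∈ slab X w, c ∈ cl (tcut X w) → g c = g' c) : ExOn (t3 ⁻¹' cl X) z := by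
  refine ⟨fun c => if c ∈ cl (tcut X w) then g c else g' c, fun c _ d k l => ?_⟩
  by_cases a : d ∈ cl (tcut X w)
  · simp only [if_pos a, if_pos (cl_low l a)]
    exact h1 c (cl_low l a) d a l
  · have s := cover h k a
    have s' : c ∈ slab X w := mvS_low l s
    rw [h2 c s' d s l]
    by_cases a' : c ∈ cl (tcut X w)
    · simp only [if_neg a, if_pos a', h3 c s' a', cb]
    · simp only [if_neg a, if_neg a', cb]

theorem tc2 (hR : RevStmt) (h1 : Tc1Stmt) : Tc2Stmt := by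
  intro P _ _ X w r h
  obtain ⟨-, -, -, -, -, cS, -, -, -, sc⟩ := h1 P X w r h
  have c0 := (sc 0 (Or.inl rfl)).2.1
  have c1 := (sc 1 (Or.inr rfl)).2.1
  have s := h.toS1
  refine ⟨?_, drv s, flat_K s, fun ζ a ⟨g, hg⟩ => ?_, fun G _ ζ a => ?_⟩
  · have T0 := tr_top r.up h
    have u1 : IsUpperSet (Ch.top ⁻¹' X : Set (Ch P)) := r.up.preimage Ch.top_mono
    have T1 := (hR _ _ _ u1 T0.td.toS1).2.2.2.2.1 T0.td
    have T2 := (hR _ _ _ (u1.preimage Ch.top_mono) T1.td.toS1).2.2.2.2.1 T1.td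
    have T := tr_sd r.up (Set.empty_subset _) T0 (tr_sd u1 (Set.empty_subset _) T1 T2)
    exact ⟨((Desc.sd (lv0 P)).trans (Desc.sd _)).trans (Desc.sd _), T.td, T.flat, T.ines, T.drv⟩
  · obtain ⟨g', hg'⟩ := cS.ex ℤ ζ (cocOn_mono a fun _ k => ((mem_slab s).1 k).1)
    have cst : ∀ b, Ctr (scar X w b) → ∃ n, ∀ c ∈ scar X w b, g' c - g c = n := fun b k =>
      let ⟨c, hc⟩ := k.ne
      ⟨_, fun d hd => (k.conn d hd c hc).eq (g := fun c => g' c - g c) fun x p y q l => by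
        have p := ((mem_scar s).1 p).1
        have q := ((mem_scar s).1 q).1
        have := hg x p.2 y q.2 l
        have := hg' x p.1 y q.1 l
        omega⟩
    obtain ⟨n0, e0⟩ := cst 0 c0
    obtain ⟨n1, e1⟩ := cst 1 c1
    refine ⟨n1 - n0, glue s (g := fun c => g c + n0) (g' := fun c => g' c - (n1 - n0) * lev w c)
      (fun x p y q l => ?_) (fun x p y q l => ?_) fun c p q => ?_⟩
    · simp only [Pi.sub_apply, Pi.smul_apply, flat_K s x p y q l, hg x p y q l, cb]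
      simp
    · simp only [Pi.sub_apply, Pi.smul_apply, lev_add s q l, hg' x p y q l, cb, smul_eq_mul]
      ring
    · rcases scar_cases s p q with k | k
      · rw [((mem_scar s).1 k).2, ← e0 c k]; ring
      · rw [((mem_scar s).1 k).2, ← e1 c k]; ring
  · obtain ⟨g0, e0⟩ := c0.ex G ζ (cocOn_mono a fun _ k => ((mem_scar s).1 k).1.2)
    obtain ⟨g1, e1⟩ := c1.ex G ζ (cocOn_mono a fun _ k => ((mem_scar s).1 k).1.2)
    let g : Ch (Ch (Ch P)) → G := fun c => if lev w c = 0 then g0 c else g1 c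
    have e : ∀ x y, x ≤ y → y ∈ slab X w → y ∈ cl (tcut X w) → ζ x y = g y - g x := by
      intro x y l p q
      have p' : x ∈ slab X w := mvS_low l p
      have q' := cl_low l q
      have i := lev_add s p l
      rw [flat_K s x q' y q l] at i
      rcases lev_cases s ((mem_K s).1 q).1 with k | k
      · have k' : lev w x = 0 := by omega
        simp only [g, if_pos k, if_pos k']
        exact e0 x ((mem_scar s).2 ⟨⟨p', q'⟩, k'⟩) y ((mem_scar s).2 ⟨⟨p, q⟩, k⟩) l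
      · have k' : lev w x = 1 := by omega
        simp only [g, k, k', one_ne_zero, if_false]
        exact e1 x ((mem_scar s).2 ⟨⟨p', q'⟩, k'⟩) y ((mem_scar s).2 ⟨⟨p, q⟩, k⟩) l
    refine ⟨fun x y => if y ∈ cl (tcut X w) then ζ x y - (g y - g x) else 0,
      fun x _ y _ v k l m => ?_, -g, fun x _ y q _ => ?_⟩
    · by_cases i : v ∈ cl (tcut X w)
      · have j := cl_low m i
        simp only [if_pos i, if_pos j, a x (cl_low l j) y j v i l m]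
        abel
      · simp only [if_neg i, add_zero]
        split_ifs with j
        · rw [e x y l (mvS_low m (cover s k i)) j, sub_self]
        · rfl
    · simp only [Pi.sub_apply, Pi.neg_apply, if_pos q]
      abel

end Crest.Agent.X212.Tcc1
end
end

-- ▼ part X212/Tcc1/Tc3
section

/-!
# X212 / Tcc1 (helper1): cutting along a disc, components (`Hk.Tc3Stmt`)
-/

set_option autoImplicit false
set_option linter.unusedSectionVars false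

open Finset Classical

noncomputable section

namespace Crest.Agent.X212.Tcc1

open Crest.Agent.X212.Hp13 hiding cl_low sub_cl om_low exOn_add exOn_neg exOn_congr exOn_pb
open Hk
open Alg36 (Om)
open Kh11 (WS ce_top)

section reg

variable {P : Type} [PartialOrder P] [Fintype P] {X C D : Set P} {x y a : P}

/-- the points over a point of `cl C` are in `C` -/
theorem ovr (r : Rg X) (h : IsCmp X C) (k : x ∈ cl C) (ha : a ∈ X) (l : x ≤ a) : a ∈ C := by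
  obtain ⟨u, hu, m⟩ := k
  rw [h.eq hu]
  exact ⟨ha, ((r.ctr ⟨a, ha, l⟩).conn u ⟨h.sub hu, m⟩ a ⟨ha, l⟩).mono fun _ i => i.1⟩

theorem cl_up (r : Rg X) (h : IsCmp X C) (k : x ∈ cl C) (hy : y ∈ cl X) (l : x ≤ y) : y ∈ cl C :=
  let ⟨a, ha, m⟩ := hy; ⟨a, ovr r h k ha (l.trans m), m⟩

theorem cl_iff (r : Rg X) (h : IsCmp X C) (hy : y ∈ cl X) (l : x ≤ y) : x ∈ cl C ↔ y ∈ cl C :=
  ⟨fun k => cl_up r h k hy l, cl_low l⟩

theorem cmp_uniq (r : Rg X) (h : IsCmp X C) (h' : IsCmp X D) (k : x ∈ cl C) (k' : x ∈ cl D) :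
    C = D :=
  let ⟨_, hu, m⟩ := k'; (h.eq (ovr r h k (h'.sub hu) m)).trans (h'.eq hu).symm

theorem om_cmp (r : Rg X) (h : IsCmp X C) : x ∈ Om C ↔ x ∉ X ∧ x ∈ cl C :=
  and_congr_left fun k => ⟨fun n m => n (ovr r h k m le_rfl), fun n m => n (h.sub m)⟩

/-- a component of a region is a region -/
theorem rg_cmp (r : Rg X) (h : IsCmp X C) : Rg C :=
  rg_of (h.upper r.up) (r.mf.mono h.sub) fun x k => by
    convert r.ctr (Hk.cl_mono h.sub k.2) using 3 with a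
    exact ⟨fun i => ⟨h.sub i.1, i.2⟩, fun i => ⟨ovr r h k.2 i.1 i.2, i.2⟩⟩

/-- a connected part of the boundary lies on one component -/
theorem ex_cmp (r : Rg X) (hD : D ⊆ Om X) (hc : Conn D) (hn : D.Nonempty) :
    ∃ C, IsCmp X C ∧ D ⊆ Om C := by
  obtain ⟨x, hx⟩ := hn
  obtain ⟨a, ha, l⟩ := (hD hx).2
  have h := isCmp_cmp ha
  exact ⟨_, h, fun y hy => (om_cmp r h).2 ⟨(hD hy).1, (hc x hx y hy).ind (p := (· ∈ cl (cmp X a)))
    ⟨a, mem_cmp_self ha, l⟩ fun _ _ _ k m => cl_iff r h (hD k).2 m⟩⟩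

theorem ws_val {Q E : Set P} (h : E ⊆ Q) : WS (Subtype.val ⁻¹' E : Set Q) E Subtype.val :=
  WS.of_iso (fun _ k => k) (fun y k => ⟨⟨y, h k⟩, k, rfl⟩) fun _ _ _ _ => Iff.rfl

/-- the complement of a disc in a sphere -/
theorem ctr_side {O U : Set P} (mf : MfIn O Set.univ) (h : U ⊆ O) (hc : Conn U) (e : 2 ≤ eu O)
    (k : Ctr (O \ U)) (hx : x ∈ U) (hy : y ∈ O) (n : y ∉ U) (l : x ≤ y) : Ctr U := by
  have mf : Mf 2 (Set.univ : Set O) := mf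
  have col : Sf30.Col (Set.univ : Set O) (Subtype.val ⁻¹' U) (Subtype.val ⁻¹' (O \ U)) :=
    ⟨Set.eq_univ_of_forall fun c => (Classical.em _).imp id fun n => ⟨c.2, n⟩,
      Set.disjoint_left.2 fun _ a b => b.2 a⟩
  have e1 := Sf30.eu_col mf col
  have e2 := Sf30.wt_nonneg mf col
  have e3 := (ws_val (subset_refl O)).eu_eq
  have e4 := (ws_val (Set.sdiff_subset : O \ U ⊆ O)).eu_eq
  rw [Subtype.coe_preimage_self] at e3
  rw [k.eu] at e4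
  have cn := (ws_val h).conn_iff.2 hc
  exact (ws_val h).ctr_iff.1 (Alg36.Mf.ctr_of_eu mf (Set.subset_univ _) cn
    (Sf30.esc_of (a := ⟨x, h hx⟩) (x := ⟨y, hy⟩) (Set.subset_univ _) cn hx n (Or.inl l))
    (by omega))

end reg

variable {P : Type} [PartialOrder P] [Fintype P] {X G : Set P} {w : P → P → ℤ}
  {c d : Ch (Ch (Ch P))} {b : ℤ} {C : Set (Ch (Ch (Ch P)))}

theorem ws_t3 (E : Set P) : WS (t3 ⁻¹' E) E t3 := (ce_top.comp (ce_top.comp ce_top)).ws_pre E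

/-- a union of components together with the slab -/
theorem walk (s : S1 X w) (r : Rg (tcut X w)) {L : Set (Set (Ch (Ch (Ch P))))}
    (hL : ∀ C ∈ L, IsCmp (tcut X w) C) (q : Prop)
    (h : ∀ c ∈ slab X w, c ∈ cl (tcut X w) → ((∃ C ∈ L, c ∈ cl C) ↔ q))
    (k : Rch (t3 ⁻¹' cl X) c d) (hc : c ∈ slab X w ∧ q ∨ ∃ C ∈ L, c ∈ cl C) :
    d ∈ slab X w ∧ q ∨ ∃ C ∈ L, d ∈ cl C := by
  refine k.ind (p := fun c => c ∈ slab X w ∧ q ∨ ∃ C ∈ L, c ∈ cl C) hc fun x _ y hy l =>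
    ⟨fun m => ?_, Or.imp (And.imp_left (mvS_low l)) fun ⟨C, i, j⟩ => ⟨C, i, cl_low l j⟩⟩
  by_cases n : y ∈ cl (tcut X w)
  · obtain ⟨C, i, j⟩ := m.elim (fun m => (h x m.1 (cl_low l n)).2 m.2) id
    exact Or.inr ⟨C, i, cl_up r (hL C i) j n l⟩
  · have t := cover s hy n
    exact Or.inl ⟨t, m.elim And.right fun ⟨C, i, j⟩ =>
      (h x (mvS_low l t) (Hk.cl_mono (hL C i).sub j)).1 ⟨C, i, j⟩⟩

theorem p2_K (s : S1 X w) (k : c ∈ cl (tcut X w)) : Ch.pt (Ch.pt c.bot.bot) ∈ cl (tcut X w) := by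
  obtain ⟨a, m⟩ := (mem_K s).1 k
  exact (mem_K s).2 ⟨by simpa using cl_low (bb_le c) a, by simpa using m⟩

/-- `cl C` is read at `bot ∘ bot` -/
theorem cl_bb (s : S1 X w) (r : Rg (tcut X w)) (h : IsCmp (tcut X w) C) (k : c ∈ cl (tcut X w)) :
    c ∈ cl C ↔ Ch.pt (Ch.pt c.bot.bot) ∈ cl C := by
  obtain ⟨a, m⟩ := (mem_K s).1 k
  have p : Ch.pt c.bot.bot ≤ c.bot := Ch.pt_le.2 (Ch.bot_mem _)
  have e : Ch.pr _ _ p ∈ cl (tcut X w) :=
    (mem_K s).2 ⟨by simpa using cl_low (tb_le c) a, by simpa using m⟩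
  rw [← cl_iff r h k (Ch.pt_le.2 c.bot_mem), cl_iff r h e (Ch.pt_le.2 (by simp)),
    cl_iff r h e (x := Ch.pt (Ch.pt c.bot.bot)) (Ch.pt_le.2 (by simp))]

theorem cl_pt (s : S1 X w) (r : Rg (tcut X w)) (h : IsCmp (tcut X w) C) {e : Ch P} {x : P}
    (a : e.top ∈ cl X) (m : e ∉ mx w) (hx : x ∈ e.1) :
    Ch.pt (Ch.pt e) ∈ cl C ↔ Ch.pt (Ch.pt (Ch.pt x)) ∈ cl C := by
  have p : Ch.pt x ≤ e := Ch.pt_le.2 hx
  have p' : Ch.pt e ≤ Ch.pr _ _ p := Ch.pt_le.2 (by simp)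
  have i : Ch.pr _ _ p' ∈ cl (tcut X w) := (mem_K s).2 ⟨by simpa using a, by simpa using m⟩
  have l : Ch.pt (Ch.pr _ _ p) ≤ Ch.pr _ _ p' := Ch.pt_le.2 (by simp)
  have e1 := cl_bb s r h i
  have e2 := cl_bb s r h (cl_low l i)
  simp only [Ch.bot_pr, Ch.bot_pt] at e1 e2
  rw [← e1, ← e2, cl_iff r h i l]

/-- the cell of the scar at the end `x` of a jump -/
theorem scar_pt (s : S1 X w) {e : Ch P} {x : P} (a : e.top ∈ cl X) (m : e ∈ mx w) (hx : x ∈ e.1) :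
    Ch.pt (Ch.pr _ _ (Ch.pt_le.2 hx)) ∈ scar X w (w e.bot x) := by
  refine (mem_scar s).2 ⟨⟨(mem_slab s).2 ⟨by simpa using a, by simpa using m⟩,
    (mem_K s).2 ⟨by simpa using a, ?_⟩⟩, by simp [lev]⟩
  simp [mx, s.self (cl_low (Ch.le_top hx) a)]

theorem slab_G (s : S1 X w) (hX : IsUpperSet X) (g : Bd X G) (o : On X G w) (k : c ∈ slab X w)
    (n : t3 c ∉ X) : t3 c ∈ G := by
  obtain ⟨a, m⟩ := (mem_slab s).1 k
  have t : t3 c ∈ Om X := ⟨n, a⟩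
  have : c.bot.top ∈ Cv (Om X) w := (mem_cv (om_low hX)).2 ⟨om_low hX (tb_le c) t, m⟩
  rw [o.cv g] at this
  exact g.clo _ (this.1 _ (Ch.top_mem _)) _ t (tb_le c)

theorem tc3 (h1 : Tc1Stmt) (hN : NmStmt) (hW : MvWStmt) : Tc3Stmt := by
  intro P _ _ X w r h
  obtain ⟨-, R, -, -, -, cS, -, -, -, sc⟩ := h1 P X w r h
  have s := h.toS1
  obtain ⟨-, c0, o0, -⟩ := sc 0 (Or.inl rfl)
  obtain ⟨-, c1, o1, -⟩ := sc 1 (Or.inr rfl)
  obtain ⟨C₀, i0, j0⟩ := ex_cmp R o0 c0.conn c0.ne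
  obtain ⟨C₁, i1, j1⟩ := ex_cmp R o1 c1.conn c1.ne
  have up : ∀ {c d}, Rch X (t3 c) (t3 d) → t3 c ∈ X → t3 d ∈ X → Rch (t3 ⁻¹' cl X) c d :=
    fun k a b => (((ws_t3 X).rch_iff a b).2 k).mono fun _ i => sub_cl i
  refine ⟨fun hc => ⟨C₀, C₁, i0, i1, Set.Subset.antisymm (Set.union_subset i0.sub i1.sub)
    fun d hd => ?_, j0, j1⟩, fun ne => ?_, fun G C b hb g cG o hC he j dj sub => ?_⟩
  · obtain ⟨c, hc'⟩ := i0.ne
    have a := ((mem_tcut s).1 (i0.sub hc')).1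
    have b := ((mem_tcut s).1 hd).1
    obtain ⟨C, i, j⟩ := (walk s R (L := {C₀, C₁}) (by rintro _ (rfl | rfl); exacts [i0, i1]) True
      (fun c p q => iff_true_intro ((scar_cases s p q).elim (fun k => ⟨C₀, Or.inl rfl, (j0 k).2⟩)
        fun k => ⟨C₁, Or.inr rfl, (j1 k).2⟩)) (up (hc _ a _ b) a b)
      (Or.inr ⟨C₀, Or.inl rfl, sub_cl hc'⟩)).resolve_left fun k => not_slab s hd k.1
    rcases i with rfl | rfl
    exacts [Or.inl (ovr R i0 j hd le_rfl), Or.inr (ovr R i1 j hd le_rfl)]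
  · obtain rfl : C₀ = C₁ := by
      by_contra n
      have : ExOn (t3 ⁻¹' cl X) (w3 w) := glue s (g := ind (cl C₁)) (g' := lev w)
        (fun x p y q l => by
          rw [flat_K s x p y q l]; exact (cb_ind_eq_zero.2 (cl_iff R i1 q l)).symm)
        (fun x _ y q l => lev_add s q l) fun c p q => by
          rcases scar_cases s p q with k | k
          · rw [((mem_scar s).1 k).2, ind_of_not fun m => n (cmp_uniq R i0 i1 (j0 k).2 m)]
          · rw [((mem_scar s).1 k).2, ind_of_mem (E := cl C₁) (j1 k).2]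
      exact ne ((ws_t3 _).ex s.coc ((exOn_iff_of_sub (drv s)).1 this))
    have : Nonempty (Ch (Ch (Ch P))) := ⟨c0.ne.some⟩
    choose! pt hpt using fun (C : Set (Ch (Ch (Ch P)))) (k : IsCmp (tcut X w) C) => k.ne
    refine Set.ncard_le_ncard_of_injOn (fun C => cmp X (t3 (pt C)))
      (fun C k => isCmp_cmp ((mem_tcut s).1 (IsCmp.sub k (hpt C k))).1) fun C k D k' e => ?_
    have a := ((mem_tcut s).1 (IsCmp.sub k (hpt C k))).1
    have b := ((mem_tcut s).1 (IsCmp.sub k' (hpt D k'))).1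
    have m : t3 (pt D) ∈ Hp13.cmp X (t3 (pt C)) :=
      (show Hp13.cmp X _ = Hp13.cmp X _ from e) ▸ mem_cmp_self b
    obtain ⟨E, rfl, j⟩ := (walk s R (L := {C}) (by rintro _ rfl; exact k) (C = C₀)
      (fun c p q =>
        have t : c ∈ cl C₀ := (scar_cases s p q).elim (fun k => (j0 k).2) fun k => (j1 k).2
        ⟨fun ⟨_, i, j⟩ => cmp_uniq R k i0 (i ▸ j) t, fun i => ⟨C, rfl, i ▸ t⟩⟩) (up m.2 a b)
      (Or.inr ⟨C, rfl, sub_cl (hpt C k)⟩)).resolve_left fun i =>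
        not_slab s (IsCmp.sub k' (hpt D k')) i.1
    exact cmp_uniq R k k' j (sub_cl (hpt D k'))
  obtain ⟨lo, -, -, -, cI, cK, x₀, x1, y₀, y1, x2, xy⟩ := sc b hb
  obtain ⟨mf, -, -, eO, -⟩ := (hN _).1 C (rg_cmp R hC)
  have sl : ∀ c ∈ scar X w b, c ∈ slab X w := fun c k => ((mem_scar s).1 k).1.1
  have sb : ∀ c ∈ cl C, c ∈ slab X w → c ∈ scar X w b := fun c p q => by
    have p' := Hk.cl_mono hC.sub p
    have n : c ∉ scar X w (1 - b) := fun k => Set.disjoint_left.1 dj k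
      ((om_cmp R hC).2 ⟨fun i => not_slab s i q, p⟩)
    rcases hb with rfl | rfl
    exacts [(scar_cases s q p').resolve_right n, (scar_cases s q p').resolve_left n]
  let U : Set (Ch (Ch (Ch P))) := cl C ∩ t3 ⁻¹' G
  have uO : U ⊆ Om C := fun c k => (om_cmp R hC).2 ⟨fun i => g.not k.2 ((mem_tcut s).1 i).1, k.1⟩
  have x3 : x₀ ∈ U := ⟨(j x1).2, slab_G s r.up g o (sl _ x1) x2⟩
  have kU : scar X w b ∩ t3 ⁻¹' Om X ⊆ U := fun c k =>
    ⟨(j k.1).2, slab_G s r.up g o (sl _ k.1) k.2.1⟩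
  have toK : ∀ c ∈ U, Rch U c x₀ := fun c k => by
    by_contra n
    have := ((ws_t3 G).conn_iff.2 cG c k.2 x₀ x3.2).ind (p := fun t => t ∈ U ∧ Rch U c t)
      ⟨k, Rch.rfl⟩ fun x p y q l => ⟨fun m => ?_, fun m =>
        have i : x ∈ U := ⟨cl_low l m.1.1, p⟩; ⟨i, m.2.trans (Rch.of_cm m.1 i (Or.inr l))⟩⟩
    · exact n this.2
    by_cases t : y ∈ cl (tcut X w)
    · have i : y ∈ U := ⟨cl_up R hC m.1.1 t l, q⟩
      exact ⟨i, m.2.trans (Rch.of_cm m.1 i (Or.inl l))⟩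
    · exact absurd (m.2.trans ((cK x ⟨sb x m.1.1 (mvS_low l (cover s (g.sub_cl q) t)), g.sub p⟩
        x₀ ⟨x1, g.sub x3.2⟩).mono kU)) n
  have cU : Conn U := fun c k d k' => (toK c k).trans (toK d k').symm
  have df : Om C \ U = scar X w b ∩ t3 ⁻¹' X := Set.ext fun c =>
    ⟨fun k =>
      have i := (sub k.1).resolve_left fun i => k.2 ⟨k.1.2, i⟩
      ⟨i, by_contra fun n => k.2 ⟨k.1.2, slab_G s r.up g o (sl _ i) n⟩⟩,
    fun k => ⟨j k.1, fun i => g.not i.2 k.2⟩⟩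
  have ctU : Ctr U := ctr_side mf uO cU (by omega) (df ▸ cI) x3 (j y1.1) (fun i => g.not i.2 y1.2) xy
  let Z : Set P := {x | x ∈ G ∧ Ch.pt (Ch.pt (Ch.pt x)) ∈ cl C}
  have jump : ∀ e : Ch P, e.top ∈ G → e ∈ mx w → ∀ x ∈ e.1, (x ∈ Z ↔ w e.bot x = b) := by
    intro e a m x hx
    have p := scar_pt s (g.sub_cl a) m hx
    have q := cl_bb s R hC ((mem_scar s).1 p).1.2
    simp only [Ch.bot_pr, Ch.bot_pt] at q
    refine (and_iff_right (g.low (Ch.le_top hx) a)).trans (q.symm.trans ⟨fun k => ?_, fun k => ?_⟩)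
    · exact ((mem_scar s).1 p).2.symm.trans ((mem_scar s).1 (sb _ k ((mem_scar s).1 p).1.1)).2
    · exact (j (k ▸ p)).2
  have flat : ∀ e : Ch P, e.top ∈ G → e ∉ mx w → ∀ x ∈ e.1,
      (x ∈ Z ↔ Ch.pt (Ch.pt e) ∈ cl C) := fun e a m x hx =>
    (and_iff_right (g.low (Ch.le_top hx) a)).trans (cl_pt s R hC (g.sub_cl a) m hx).symm
  have nj : ∀ e : Ch P, (∀ x ∈ e.1, x ∈ Z) → e ∉ mx w := fun e k m => by
    have a := (k _ e.top_mem).1
    have e1 := (jump e a m _ e.top_mem).1 (k _ e.top_mem)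
    have e2 := (jump e a m _ e.bot_mem).1 (k _ e.bot_mem)
    have e3 := s.self (g.sub_cl (k _ e.bot_mem).1)
    have : 0 < w e.bot e.top := m
    omega
  have eU : U = mvK (Ch.top ⁻¹' G) (Kh11.In Z Set.univ)ᶜ := Set.ext fun c => by
    refine ⟨fun k => ?_, fun ⟨a, e, e1, e2⟩ => ⟨?_, a⟩⟩
    · have p := Hk.cl_mono hC.sub k.1
      exact ⟨k.2, _, Ch.bot_mem _, not_not.2 ⟨fun x hx => (flat _ (g.low (bb_le c) k.2)
        ((mem_K s).1 p).2 x hx).2 ((cl_bb s R hC p).1 k.1), trivial⟩⟩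
    · have i : ∀ x ∈ c.bot.bot.1, x ∈ Z := fun x hx => (not_not.1 e2).1 x (Ch.bot_le e1 hx)
      exact (cl_bb s R hC ((mem_K s).2 ⟨g.sub_cl a, nj _ i⟩)).2
        ((flat _ (g.low (bb_le c) a) (nj _ i) _ (Ch.top_mem _)).1 (i _ (Ch.top_mem _)))
  have ws := (hW _ (Ch.top ⁻¹' G) (Kh11.In Z Set.univ)ᶜ (g.low.preimage Ch.top_mono)
    fun x k y _ l m => k ⟨fun t ht => m.1 t (l ht), trivial⟩).1
  have eF : Ch.top ⁻¹' G \ (Kh11.In Z Set.univ)ᶜ = Kh11.In Z Set.univ :=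
    Set.ext fun e => ⟨fun k => not_not.1 k.2, fun k => ⟨(k.1 _ e.top_mem).1, not_not.2 k⟩⟩
  rw [← eU, eF] at ws
  refine ⟨Z, fun _ k => k.1, (Kh11.ws_top Z).ctr_iff.1 (ws.ctr_iff.1 ctU), ?_⟩
  have key : ∀ x ∈ G, ∀ y ∈ G, x ≤ y → (w x y = 0 ∧ (x ∈ Z ↔ y ∈ Z)) ∨
      (w x y = 1 ∧ (x ∈ Z ↔ 0 = b) ∧ (y ∈ Z ↔ 1 = b)) := fun x p y q l => by
    have t : (Ch.pr x y l).top ∈ G := by simpa using q
    refine (s.cases (g.sub_cl q) l).imp (fun k => ⟨k, ?_⟩) fun k => ⟨k, ?_⟩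
    · have m : Ch.pr x y l ∉ mx w := by simp [mx, k]
      exact (flat _ t m x (by simp)).trans (flat _ t m y (by simp)).symm
    · have m : Ch.pr x y l ∈ mx w := by simp [mx, k]
      have e1 := jump _ t m x (by simp)
      have e2 := jump _ t m y (by simp)
      rw [Ch.bot_pr] at e1 e2
      exact ⟨s.self (g.sub_cl p) ▸ e1, k ▸ e2⟩
  rcases hb with rfl | rfl
  · refine Or.inr fun x p y q l => ?_
    rcases key x p y q l with ⟨k, m⟩ | ⟨k, m, n⟩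
    · rw [k]; exact (neg_eq_zero.2 (cb_ind_eq_zero.2 m)).symm
    · simp [k, cb, ind_of_mem (m.2 rfl), ind_of_not fun i => one_ne_zero (n.1 i)]
  · refine Or.inl fun x p y q l => ?_
    rcases key x p y q l with ⟨k, m⟩ | ⟨k, m, n⟩
    · rw [k]; exact (cb_ind_eq_zero.2 m).symm
    · rw [k]; exact (cb_ind_eq_one.2 ⟨fun i => zero_ne_one (m.1 i), n.2 rfl⟩).symm

end Crest.Agent.X212.Tcc1
end
end

-- ▼ part X212/Kh11/Bas2

/-!
# X212 / Kh11 (helper11): P1, sides, members, components, cuts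
-/

set_option autoImplicit false
set_option linter.unusedSectionVars false

open Finset Classical

noncomputable section

namespace Crest.Agent.X212.Hk

open Hp13
open Alg36 (Om Esc mix Clo)
open Kh11 (WS CE)

variable {P R : Type} [PartialOrder P] [Fintype P] [PartialOrder R]
  {X Y G H K A B Z N X' U V E C : Set P} {w w' u ζ ζ' : P → P → ℤ} {car : P → R} {x y : P}

/-- a connected set covered by two disjoint upper sets lies in one of them -/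
theorem conn_or (hK : Conn K) (hA : IsUpperSet A) (hB : IsUpperSet B) (hd : Disjoint A B)
    (h : K ⊆ A ∪ B) : K ⊆ A ∨ K ⊆ B := by
  by_cases k : ∃ x ∈ K, x ∈ A
  · obtain ⟨x, h1, h2⟩ := k
    exact Or.inl fun y hy => (hK x h1 y hy).ind h2 fun a ha b _ l => ⟨hA l, fun j =>
      (h ha).resolve_right fun i => Set.disjoint_left.1 hd j (hB l i)⟩
  · exact Or.inr fun x hx => (h hx).resolve_left fun j => k ⟨x, hx, j⟩

/-- a nonempty upper part of `Y` has a boundary -/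
theorem esc_om (hE : Esc Y Y) (hY : IsUpperSet Y) (hU : IsUpperSet U) (hx : x ∈ U) (h : U ⊆ Y) :
    ∃ a, Rch U x a ∧ ∃ o ∈ Om U, o ≤ a := by
  by_contra k
  obtain ⟨b, -, r, o, ho, c⟩ := hE x (h hx)
  have key : Rch U x b := r.ind (p := Rch U x) Rch.rfl fun a _ a' _ l =>
    ⟨fun j => j.trans (Rch.of_cm (j.mem hx) (hU l (j.mem hx)) (Or.inl l)), fun j =>
      j.trans (Rch.of_cm (j.mem hx) (by_contra fun i => k ⟨a', j, a, ⟨i, a', j.mem hx, l⟩, l⟩)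
        (Or.inr l))⟩
  have l : o ≤ b := c.resolve_left fun l => ho (hY l (h (key.mem hx)))
  exact k ⟨b, key, o, ⟨fun j => ho (h j), b, key.mem hx, l⟩, l⟩

theorem Amb.exCl (h : Amb Y) (hz : CocOn (cl Y) ζ) (e : ExOn (Om Y) ζ) : ExOn (cl Y) ζ := by
  obtain ⟨g, e⟩ := e
  obtain ⟨g', -, k⟩ := Alg36.Bnd.eqD_cb h.bnd ((coc_iff h.up).2 hz) (g := g) fun x y hp hx hy =>
    have j := ((dp_iff h.up).1 hp).2
    e x ⟨hx, cl_low hp.le j⟩ y ⟨hy, j⟩ hp.le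
  exact ⟨g', (eqD_iff h.up).1 k⟩

theorem Rg.ws (h : Rg X) : WS X (cl X) id :=
  WS.of_ge (fun _ k => sub_cl k) (fun _ _ _ _ l => l) fun _ k => h.ctr k

theorem Rg.exCl (h : Rg X) {Γ : Type} [AddCommGroup Γ] {z : P → P → Γ} (hz : CocOn (cl X) z)
    (e : ExOn X z) : ExOn (cl X) z := h.ws.ex hz e

theorem Bd.mfIn (h : Bd X G) (k : MfIn (Om X) Set.univ) : MfIn G Set.univ :=
  Mf.emb (f := fun x : G => (⟨x.1, h.sub x.2⟩ : Om X)) (fun _ _ => Iff.rfl)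
    (A := Subtype.val ⁻¹' Set.univ) (fun _ _ => Set.mem_univ _) (fun b _ x c => ⟨⟨x.1, c.elim (h.clo _ b.2 _ x.2) fun l => h.low l b.2⟩, rfl⟩) k

/-! ### the two sides -/

namespace Two

theorem ng (k : Two car Y X G X') : Disjoint X G := Set.disjoint_left.2 fun _ h j => k.bd.not j h

theorem ncl (k : Two car Y X G X') (hx : x ∈ X') : x ∉ cl X :=
  fun ⟨_, h, l⟩ => Set.disjoint_left.1 k.dj h (k.up' l hx)

theorem ncl' (k : Two car Y X G X') (hx : x ∈ X) : x ∉ cl X' :=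
  fun ⟨_, h, l⟩ => Set.disjoint_left.1 k.dj (k.up l hx) h

theorem om_sub (k : Two car Y X G X') (hx : x ∈ Om X) (hy : x ∈ Y) : x ∈ G :=
  ((k.cov x hy).resolve_left hx.1).resolve_right fun j => k.ncl j hx.2

theorem ctr (k : Two car Y X G X') (hx : x ∈ G ∩ Y) : Ctr {a | a ∈ X ∧ x ≤ a} := by
  simpa using k.tv Set.univ isLowerSet_univ x hx trivial

theorem ctr' (k : Two car Y X G X') (hx : x ∈ G ∩ Y) : Ctr {a | a ∈ X' ∧ x ≤ a} := by
  simpa using k.tv' Set.univ isLowerSet_univ x hx trivial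

theorem bd' (k : Two car Y X G X') (hY : IsUpperSet Y) (hG : G ⊆ Y) : Bd X' G :=
  ⟨k.bd.low, fun _ hx => ⟨fun j => Set.disjoint_left.1 k.dg j hx,
    let ⟨a, h⟩ := (k.ctr' ⟨hx, hG hx⟩).ne; ⟨a, h⟩⟩, fun _ hx y hy l =>
    ((k.cov y (hY l (hG hx))).resolve_left fun j => k.ncl' j hy.2).resolve_right hy.1⟩

theorem symm (k : Two car Y X G X') (hY : IsUpperSet Y) (hG : G ⊆ Y) : Two car Y X' G X :=
  ⟨k.mono, k.up', k.up, k.sub', k.sub, fun y hy => (k.cov y hy).elim (Or.inr ∘ Or.inr)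
    fun j => j.elim (Or.inr ∘ Or.inl) Or.inl, k.dj.symm, k.ng, k.bd' hY hG, k.tv', k.tv⟩

/-- a connected set off `G` lies on one side -/
theorem side (k : Two car Y X G X') (hK : Conn K) (h : K ⊆ Y) (hd : Disjoint K G) :
    K ⊆ X ∨ K ⊆ X' := conn_or hK k.up k.up' k.dj fun y hy =>
  (k.cov y (h hy)).imp id fun j => j.resolve_left (Set.disjoint_left.1 hd hy)

theorem rg (k : Two car Y X G X') (hY : Rg Y) (hG : G ⊆ Y) : Rg X := by
  refine rg_of k.up (hY.mf.mono k.sub) fun x hx => ?_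
  by_cases j : x ∈ G
  · exact k.ctr ⟨j, hG j⟩
  have c := hY.ctr (cl_mono k.sub hx.2)
  obtain ⟨a, h1, h2⟩ := hx.2
  have := (k.side c.conn (fun _ i => i.1) (Set.disjoint_left.2 fun _ i l =>
    j (k.bd.low i.2 l))).resolve_right fun i => Set.disjoint_left.1 k.dj h1 (i ⟨k.sub h1, h2⟩)
  convert c using 3 with a
  exact and_congr_left fun l => ⟨fun i => k.sub i, fun i => this ⟨i, l⟩⟩

theorem rg' (k : Two car Y X G X') (hY : Rg Y) (hG : G ⊆ Y) : Rg X' := (k.symm hY.up hG).rg hY hG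

theorem sb (k : Two car Y X G X') (hY : Amb Y) (hG : G ⊆ Y) : Sub Y X :=
  ⟨k.rg hY.toRg hG, hY, k.sub⟩

theorem sb' (k : Two car Y X G X') (hY : Amb Y) (hG : G ⊆ Y) : Sub Y X' :=
  ⟨k.rg' hY.toRg hG, hY, k.sub'⟩

theorem eq' (k : Two car Y X G X') : X' = Y \ cl X := Set.ext fun y =>
  ⟨fun j => ⟨k.sub' j, k.ncl j⟩, fun j => ((k.cov y j.1).resolve_left fun i => j.2 (sub_cl i)).resolve_left
    fun i => j.2 (k.bd.sub_cl i)⟩

end Two

/-! ### unions of components -/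

section clo

theorem clo_up (h : Clo X C) (hX : IsUpperSet X) : IsUpperSet C :=
  fun _ _ l k => h.cl _ k _ (hX l (h.sub k)) (Or.inl l)

/-- over a point of `cl C` everything of `X` is in `C` -/
theorem clo_mem (h : Clo X C) (hX : Rg X) (hx : x ∈ cl C) (hy : y ∈ X) (l : x ≤ y) : y ∈ C :=
  let ⟨a, h1, h2⟩ := hx
  h.rch h1 (((hX.ctr (cl_mono h.sub hx)).conn a ⟨h.sub h1, h2⟩ y ⟨hy, l⟩).mono fun _ j => j.1)

theorem clo_om (h : Clo X C) (hX : Rg X) : Om C ⊆ Om X :=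
  fun _ k => ⟨fun j => k.1 (clo_mem h hX k.2 j le_rfl), cl_mono h.sub k.2⟩

theorem clo_cl (h : Clo X C) (hX : Rg X) (hx : x ∈ cl C) (hy : y ∈ cl X) (l : x ≤ y) : y ∈ cl C :=
  let ⟨a, h1, h2⟩ := hy; ⟨a, clo_mem h hX hx h1 (l.trans h2), h2⟩

theorem clo_bd (h : Clo X C) (hX : Rg X) : Bd X (Om C) :=
  ⟨om_low (clo_up h hX.up), clo_om h hX, fun _ hx _ hy l =>
    ⟨fun j => hy.1 (h.sub j), clo_cl h hX hx.2 hy.2 l⟩⟩

theorem clo_disj (h : Clo X C) (hX : Rg X) : Disjoint (cl C) (cl (X \ C)) :=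
  Set.disjoint_left.2 fun _ k ⟨_, h1, h2⟩ => h1.2 (clo_mem h hX k h1.1 h2)

theorem clo_cl_union (h : Clo X C) : cl C ∪ cl (X \ C) = cl X := Set.ext fun _ =>
  ⟨fun k => k.elim (fun j => cl_mono h.sub j) fun j => cl_mono Set.sdiff_subset j,
    fun ⟨a, h1, h2⟩ => (Classical.em (a ∈ C)).imp (fun j => ⟨a, j, h2⟩) fun j => ⟨a, ⟨h1, j⟩, h2⟩⟩

theorem Rg.clo (hX : Rg X) (h : Clo X C) : Rg C :=
  ⟨clo_up h hX.up, hX.mf.mono h.sub, h.nice hX.nice⟩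

theorem Amb.clo (hX : Amb X) (h : Clo X C) : Amb C :=
  ⟨hX.toRg.clo h, h.bnd hX.nice hX.bnd, h.bnd hX.nice hX.bnd2, fun a ha =>
    let ⟨b, _, r, x, hx, c⟩ := hX.esc a (h.sub ha)
    ⟨b, h.rch ha r, h.rch_in ha r, x, fun j => hx (h.sub j), c⟩⟩

theorem Sub.clo (hX : Sub Y X) (h : Clo X C) : Sub Y C :=
  ⟨hX.toRg.clo h, hX.amb, h.sub.trans hX.sub⟩

theorem Two.clo (k : Two car Y X G X') (hY : IsUpperSet Y) (hX : Rg X) (h : Clo X C) :
    Two car Y C (Om C) (Y \ cl C) := by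
  have g : ∀ x ∈ Om C ∩ Y, x ∈ G ∩ Y := fun x hx => ⟨k.om_sub (clo_om h hX hx.1) hx.2, hx.2⟩
  refine ⟨k.mono, clo_up h hX.up, hY.inter cl_low.compl, h.sub.trans k.sub, fun _ j => j.1,
    fun y hy => ?_, Set.disjoint_left.2 fun _ i j => j.2 (sub_cl i),
    Set.disjoint_left.2 fun _ i j => i.2 j.2, bd_om (clo_up h hX.up), fun T hT x hx j => ?_,
    fun T hT x hx j => ?_⟩
  · by_cases j : y ∈ cl C
    exacts [(mem_cl.1 j).imp id Or.inl, Or.inr (Or.inr ⟨hy, j⟩)]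
  · convert k.tv T hT x (g x hx) j using 3 with y
    exact and_congr_left fun l => ⟨fun i => h.sub i, fun i => clo_mem h hX hx.1.2 i l.1⟩
  · convert k.tv' T hT x (g x hx) j using 3 with y
    rw [k.eq']
    exact and_congr_left fun l => and_congr_right fun _ =>
      ⟨fun i j => i (clo_cl h hX hx.1.2 j l.1), fun i j => i (cl_mono h.sub j)⟩

theorem QQ.self (Y : Set P) : QQ Y Y :=
  have e : cl Y \ Y = Om Y := Set.ext fun _ => and_comm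
  ⟨fun a ha => ⟨a, e ▸ ha, by rw [sub_self]; exact exOn_zero⟩, fun _ _ k => k⟩

theorem QQ.clo (k : QQ Y X) (hX : Rg X) (h : Clo X C) : QQ Y C := by
  refine ⟨fun a ha => ?_, fun b hb e => exOn_mono
    (k.q2 b (cocOn_mono hb fun _ j => ⟨j.1, fun i => j.2 (h.sub i)⟩) e) (clo_om h hX)⟩
  have bd := clo_bd h hX
  have hc : CocOn (Om X) fun x y => if y ∈ Om C then a x y else 0 := fun x _ y hy v hv l l' => by
    by_cases j : v ∈ Om C
    · simp only [if_pos j, if_pos (bd.low l' j)]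
      exact ha x (bd.low (l.trans l') j) y (bd.low l' j) v j l l'
    · simp only [if_neg j, if_neg fun i => j (bd.clo y i v hv l'), add_zero]
  obtain ⟨b, h1, g, h2⟩ := k.q1 _ hc
  have h3 : ∀ x y, y ∈ Om X → x ≤ y → b x y - cb g x y = if y ∈ Om C then a x y else 0 :=
    fun x y hy l => by
      have := h2 x (om_low hX.up l hy) y hy l
      simp only [Pi.sub_apply] at this
      rw [cb, ← this]; abel
  refine ⟨fun x y => if y ∈ X then 0 else b x y - cb g x y, fun x hx y hy v hv l l' => ?_,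
    Flat.exOn fun x _ y hy l => ?_⟩
  · by_cases j : v ∈ X
    · by_cases i : y ∈ X
      · simp only [if_pos j, if_pos i, add_zero]
      · simp only [if_pos j, if_neg i, add_zero]
        rw [h3 x y ⟨i, v, j, l'⟩ l, if_neg fun m => hv.2 (clo_mem h hX m.2 j l')]
    · have i : y ∉ X := fun i => j (hX.up l' i)
      simp only [if_neg j, if_neg i]
      exact cocOn_sub h1 (cocOn_cb g) x ⟨hx.1, fun m => i (hX.up l m)⟩ y ⟨hy.1, i⟩ v ⟨hv.1, j⟩ l l'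
  · have j := clo_om h hX hy
    simp only [Pi.sub_apply, if_neg j.1, h3 x y j l, if_pos hy, sub_self]

/-- a disc lives in one component -/
theorem TD.in_cmp (k : TD X w) (hX : Rg X) : ∃ C, IsCmp X C ∧ TD C w ∧ Flat (cl (X \ C)) w := by
  obtain ⟨c, hc⟩ := (Cut21.td_ctr hX k).ne
  have h : Clo X (cmp X c.top) := Alg36.IsCmp.clo (isCmp_cmp hc.1)
  have e : CA (cmp X c.top) w = CA X w := Set.ext fun d => ⟨fun j => ⟨h.sub j.1, j.2⟩, fun j =>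
    ⟨⟨j.1, (k.conn c hc d j).map fun _ h1 _ h2 l =>
      Rch.of_cm h1.1 h2.1 (Or.inl (Ch.top_mono l))⟩, j.2⟩⟩
  have m : ∀ x y a, x ≤ y → y ≤ a → a ∈ X → 0 < w x y → a ∈ cmp X c.top := fun x y a l l' ha p => by
    have : Ch.pr x a (l.trans l') ∈ CA X w := ⟨by simpa using ha, by
      have := k.add (sub_cl ha) l l'
      have := k.nn y a (sub_cl ha) l'
      simp only [Ch.bot_pr, Ch.top_pr]; omega⟩
    rw [← e] at this
    simpa using this.1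
  refine ⟨_, isCmp_cmp hc.1, ⟨k.toS1.mono h.sub, e ▸ k.conn, ?_, ?_⟩, fun x _ y hy l => ?_⟩
  · rw [Cut21.chi_ca (hX.clo h) (k.toS1.mono h.sub), e, ← Cut21.chi_ca hX k.toS1, k.chi]
  · obtain ⟨d, h1, h2⟩ := k.ne
    obtain ⟨a, h3, h4⟩ := (h1 _ d.top_mem).2
    exact ⟨d, fun x hx => ⟨fun j => (h1 x hx).1 (h.sub j), a, m _ _ a d.bot_le_top h4 h3 h2,
      (Ch.le_top hx).trans h4⟩, h2⟩
  · obtain ⟨a, h1, h2⟩ := hy
    exact (k.cases ⟨a, h1.1, h2⟩ l).resolve_right fun j => h1.2 (m x y a l h2 h1.1 (by omega))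

theorem PR.of_clo (k : Two car Y X G X') (hY : IsUpperSet Y) (hX : Amb X) (q : QQ Y X)
    (h : IsCmp X C) : PR car Y C :=
  ⟨hX.clo (Alg36.IsCmp.clo h), h.conn, h.ne, k.clo hY hX.toRg (Alg36.IsCmp.clo h),
    q.clo hX.toRg (Alg36.IsCmp.clo h)⟩

/-- the start of the compression process -/
theorem two_self (hY : IsUpperSet Y) (hc : Monotone car) : Two car Y Y (Om Y) ∅ :=
  ⟨hc, hY, isUpperSet_empty, subset_rfl, Set.empty_subset _, fun _ => Or.inl, Set.disjoint_empty _,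
    Set.empty_disjoint _, bd_om hY, fun _ _ _ j => absurd j.2 j.1.1, fun _ _ _ j => absurd j.2 j.1.1⟩

theorem PR.start (hY : Amb Y) (hc : Monotone car) (h : IsCmp Y C) : PR car Y C :=
  PR.of_clo (two_self hY.up hc) hY.up hY (QQ.self Y) h

end clo

/-! ### members -/

namespace Mem

variable {U' G' V' : Set P}

theorem low (k : Mem car Y U G V) : IsLowerSet G := k.two.bd.low

theorem om_eq (k : Mem car Y U G V) : Om U = G := k.om.antisymm k.two.bd.sub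

theorem cl_eq (k : Mem car Y U G V) : cl U = U ∪ G := by rw [Hk.cl_eq, k.om_eq]

theorem sb (k : Mem car Y U G V) (hY : Amb Y) : Sub Y U := k.two.sb hY k.sub
theorem sb' (k : Mem car Y U G V) (hY : Amb Y) : Sub Y V := k.two.sb' hY k.sub
theorem bd' (k : Mem car Y U G V) (hY : IsUpperSet Y) : Bd V G := k.two.bd' hY k.sub

/-- both sides at once -/
theorem side (k : Mem car Y U G V) (hY : Amb Y) (h : X = U ∨ X = V) :
    ∃ X', Two car Y X G X' ∧ Sub Y X ∧ INC X G ∧ INC X' G := by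
  rcases h with rfl | rfl
  exacts [⟨V, k.two, k.sb hY, k.inc, k.inc'⟩, ⟨U, k.two.symm hY.up k.sub, k.sb' hY, k.inc', k.inc⟩]

theorem mfIn (k : Mem car Y U G V) (hN : NmStmt) (hY : Rg Y) : MfIn G Set.univ :=
  k.two.bd.mfIn ((hN P).1 U (k.two.rg hY k.sub)).1

theorem nest (k : Mem car Y U G V) (k' : Mem car Y U' G' V') (hY : Amb Y) (hd : Disjoint G G')
    (h : G' ⊆ U) : G ⊆ V' := by
  refine (k'.two.side k.conn k.sub hd).resolve_left fun j => ?_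
  obtain ⟨x, hx⟩ := k.ne
  obtain ⟨a, -, o, ho, -⟩ := esc_om hY.esc hY.up (k.two.up.union k'.two.up) (Or.inr (j hx))
    (Set.union_subset k.two.sub k'.two.sub)
  obtain ⟨b, hb | hb, l⟩ := ho.2
  · exact ho.1 (Or.inr (j (k.om ⟨fun i => ho.1 (Or.inl i), b, hb, l⟩)))
  · exact ho.1 (Or.inl (h (k'.om ⟨fun i => ho.1 (Or.inr i), b, hb, l⟩)))

theorem connU (k : Mem car Y U G V) (hY : Amb Y) : Conn U := by
  have r := (k.two.rg hY.toRg k.sub).ws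
  rw [r.conn_iff, k.cl_eq]
  have key : ∀ x ∈ U ∪ G, ∃ o ∈ G, Rch (U ∪ G) x o := fun x hx => hx.elim (fun j =>
    let ⟨a, h1, o, h2, h3⟩ := esc_om hY.esc hY.up k.two.up j k.two.sub
    ⟨o, k.om h2, (h1.mono Set.subset_union_left).trans
      (Rch.of_cm (Or.inl (h1.mem j)) (Or.inr (k.om h2)) (Or.inr h3))⟩) fun j => ⟨x, j, Rch.rfl⟩
  intro x hx y hy
  obtain ⟨o, h1, h2⟩ := key x hx
  obtain ⟨o', h3, h4⟩ := key y hy
  exact h2.trans (((k.conn o h1 o' h3).mono Set.subset_union_right).trans h4.symm)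

end Mem

section fam

variable {k : ℕ} {U G V : Fin k → Set P} {t : St} {f : t.P → P}

theorem Fm.side (h : Fm car Y k U G V) {i j : Fin k} (e : i ≠ j) : G j ⊆ U i ∨ G j ⊆ V i :=
  (h.mem i).two.side (h.mem j).conn (h.mem j).sub (h.dj j i e.symm)

theorem Fm.nest (h : Fm car Y k U G V) (hY : Amb Y) {i j : Fin k} (e : i ≠ j) (l : G j ⊆ U i) :
    G i ⊆ V j := (h.mem i).nest (h.mem j) hY (h.dj i j e) l

theorem Fm.pre (h : Fm car Y k U G V) (hY : Amb Y) (hf : Tw P t f) :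
    Fm (car ∘ f) (f ⁻¹' Y) k (fun i => f ⁻¹' U i) (fun i => f ⁻¹' G i) fun i => f ⁻¹' V i :=
  ⟨fun i => (h.mem i).pre hf, fun i j e => (h.dj i j e).preimage f,
    fun i j e => (h.np i j e).pre (h.nest hY e) hf⟩

theorem Fm.low (h : Fm car Y k U G V) : IsLowerSet (⋃ j, G j) :=
  isLowerSet_iUnion fun j => (h.mem j).low

theorem fm_zero (car : P → R) (Y : Set P) : Fm car Y 0 Fin.elim0 Fin.elim0 Fin.elim0 :=
  ⟨fun i => i.elim0, fun i => i.elim0, fun i => i.elim0⟩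

end fam

theorem KH.amb' {t : St} {f : t.P → Ch P} {k : ℕ} {U G V : Fin k → Set t.P} (h : KH Y t f k U G V) :
    Amb (f ⁻¹' (Ch.top ⁻¹' Y)) := (h.amb.pre (Tw.one P)).pre h.tw

theorem KH.pre {t t' : St} {f : t.P → Ch P} {k : ℕ} {U G V : Fin k → Set t.P} {g : t'.P → t.P}
    (h : KH Y t f k U G V) (hg : Tw t.P t' g) :
    KH Y t' (f ∘ g) k (fun i => g ⁻¹' U i) (fun i => g ⁻¹' G i) fun i => g ⁻¹' V i :=
  ⟨h.amb, h.tw.trans hg, h.fm.pre h.amb' hg⟩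

/-! ### the outer format and the cut -/

theorem ws_yo (hT : Cut21.Thick A) : WS (Yo A) A id :=
  WS.of_ge (fun _ k => k.1) (fun _ _ _ _ l => l) fun a ha => by
    by_cases k : a ∈ Cut21.Fr A
    · convert hT.inn a k using 3 with b
      exact ⟨fun j => ⟨j.1.1, j.2, j.1.2⟩, fun j => ⟨⟨j.1, j.2.2⟩, j.2.1⟩⟩
    · exact Kh11.sctr_min (m := a) ⟨⟨ha, k⟩, le_rfl⟩ fun _ j => j.2

theorem amb_yo {s : St} (h : Cut21.Stt s) : Amb (Yo s.A) := by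
  have g := Sup43.good_inn h.toGood h.thick
  refine ⟨⟨Sup43.inn_up, g.mf, g.nice⟩, g.bnd, g.bnd2, fun a ha => ?_⟩
  obtain ⟨b, hb, r, x, hx, c⟩ := h.esc a ha.1
  by_cases k : b ∈ Yo s.A
  · exact ⟨b, k, ((ws_yo h.thick).rch_iff ha k).2 r, x, fun j => hx j.1, c⟩
  · obtain ⟨i, h1, h2, h3⟩ := (h.thick.inn b (by_contra fun j => k ⟨hb, j⟩)).ne
    exact ⟨i, ⟨h1, h3⟩, ((ws_yo h.thick).rch_iff ha ⟨h1, h3⟩).2
      (r.trans (Rch.of_cm hb h1 (Or.inl h2))), b, k, Or.inr h2⟩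

section cut

variable {s t s' u u' : St} {z : t.P → t.P → ℤ} {π : s'.P → t.P} {f : u.P → t.P}

theorem jk_desc (k : Cut21.JK t.A z) (h : Desc t u f) : Cut21.JK u.A (pb f z) := fun x y hy l => by
  rw [h.A_eq, (Tw.of_desc h).om] at hy
  exact k _ _ hy (h.mono l)

theorem lc_desc (k : Cut21.LC t.A z) (h : Desc t u f) : Cut21.LC u.A (pb f z) := fun x n h1 h2 => by
  rw [h.A_eq] at h1 h2 ⊢
  obtain ⟨a, h3, h4, h5⟩ := h2
  have e := ((Tw.of_desc h).ws_up x {a | a ∈ t.A ∧ z (f x) a = n}).ctr_iff.2 (by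
    convert k (f x) n h1 ⟨f a, h3, h.mono h4, h5⟩ using 3 with b
    exact ⟨fun j => ⟨j.1.1, j.2, j.1.2⟩, fun j => ⟨⟨j.1, j.2.2⟩, j.2.1⟩⟩)
  convert e using 3 with b
  exact ⟨fun j => ⟨j.2.1, j.1, j.2.2⟩, fun j => ⟨j.2.1, j.1, j.2.2⟩⟩

theorem CutH.of (k : CutH t s' z π) (h : Desc t u f) {g : u'.P → s'.P} (h' : Desc s' u' g)
    {π' : u'.P → u.P} (c : Ind26.Cov u u' (pb f z) π') : CutH u u' (pb f z) π' :=
  ⟨Alg36.stt_desc k.st h, Alg36.stt_desc k.st' h', h.sf k.sf, jk_desc k.jk h, lc_desc k.lc h,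
    k.max.desc h, c⟩

theorem CutH.desc (k : CutH t s' z π) (h : Desc t u f) : ∃ (u' : St) (g : u'.P → s'.P)
    (π' : u'.P → u.P), Desc s' u' g ∧ CutH u u' (pb f z) π' ∧ f ∘ π' = π ∘ g :=
  let ⟨u', g, π', h1, h2, h3⟩ := k.cov.desc h
  ⟨u', g, π', h1, k.of h h1 h2, h3⟩

theorem CutH.lift (k : CutH t s' z π) {g : u'.P → s'.P} (h : Desc s' u' g) : ∃ (u : St)
    (f : u.P → t.P) (π' : u'.P → u.P), Desc t u f ∧ CutH u u' (pb f z) π' ∧ f ∘ π' = π ∘ g :=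
  let ⟨u, f, π', h1, h2, h3⟩ := k.cov.lift h
  ⟨u, f, π', h1, k.of h1 h h2, h3⟩

theorem CutH.amb (k : CutH t s' z π) : Amb (Yo t.A) := amb_yo k.st
theorem CutH.amb' (k : CutH t s' z π) : Amb (Yo s'.A) := amb_yo k.st'

theorem CutH.s1 (k : CutH t s' z π) : S1 (Yo t.A) z :=
  S1.of_z1 ⟨k.sf.coc.mono Sup43.inn_sub, k.sf.mono.mono Sup43.inn_sub, fun x y hp =>
    let ⟨a, h1, h2⟩ := Sup43.dp_up Sup43.inn_up hp
    k.jk x y ((Classical.em (y ∈ t.A)).imp id fun j => ⟨j, a, h1.1, h2⟩) hp.le⟩ Sup43.inn_up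

end cut

end Crest.Agent.X212.Hk
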