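import Crest.Agent.X212.Kh11.Fib3
import Crest.Agent.X212.Hp13.W

-- ▼ part X212/Kh11/Br
section

/-!
# X212 / H: weak equivalences for sets, in the names of `Hp13` (helper11)
-/

set_option autoImplicit false
set_option linter.unusedSectionVars false

open Finset Classical

noncomputable section

namespace Crest.Agent.X212.Kh11

open Hp13 (Ch Cm CocOn ExOn Conn IsCmp eu pb)

variable {P Q R : Type} [PartialOrder P] [Fintype P] [PartialOrder Q] [Fintype Q]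
  [PartialOrder R] [Fintype R]

/-- a set as a finset -/
def fs (E : Set P) : Finset P := univ.filter (· ∈ E)

@[simp] lemma mem_fs {E : Set P} {x : P} : x ∈ fs E ↔ x ∈ E := by simp [fs]

lemma fs_filter (E : Set P) (p : P → Prop) : (fs E).filter p = fs {x | x ∈ E ∧ p x} := by
  ext x; simp

lemma rch_fs {E : Set P} {x y : P} : Rch (fs E) x y ↔ Hp13.Rch E x y := by
  have : Stp (fs E) = fun x y => x ∈ E ∧ y ∈ E ∧ Cm x y := by
    funext a b; simp [Stp, Cm]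
  unfold Rch Hp13.Rch
  rw [this]

lemma cn_fs {E : Set P} : Cn (fs E) ↔ Conn E := by
  simp only [Cn, Conn, mem_fs, rch_fs]

lemma cmp_fs (E : Set P) (x : P) : cmp (fs E) x = fs (Hp13.cmp E x) := by
  ext y; simp [mem_cmp, Hp13.cmp, rch_fs]

lemma coc_fs {G : Type} [AddCommGroup G] {E : Set P} {z : P → P → G} :
    Coc (fs E) z ↔ CocOn E z := by simp only [Coc, CocOn, mem_fs]

lemma ex_fs {G : Type} [AddCommGroup G] {E : Set P} {z : P → P → G} :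
    Ex (fs E) z ↔ ExOn E z := by simp only [Ex, ExOn, mem_fs]

lemma chi_fs (E : Set P) : chi (fs E) = eu E := by
  unfold chi red eu
  rw [← add_sum_erase _ _ (empty_mem_chs (fs E))]
  simp only [card_empty, pow_zero, sub_add_cancel_left, neg_inj]
  symm
  refine sum_bij (fun c _ => c.1) ?_ ?_ ?_ ?_
  · intro c hc
    rw [mem_filter] at hc
    rw [mem_erase, mem_chs]
    exact ⟨c.2.1.ne_empty, fun x hx => mem_fs.2 (hc.2 x hx), c.2.2⟩
  · exact fun a _ b _ h => Ch.ext h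
  · intro c hc
    rw [mem_erase, mem_chs] at hc
    exact ⟨⟨c, nonempty_iff_ne_empty.2 hc.1, hc.2.2⟩,
      mem_filter.2 ⟨mem_univ _, fun x hx => mem_fs.1 (hc.2.1 hx)⟩, rfl⟩
  · exact fun _ _ => rfl

lemma ctr_fs {E : Set P} : Ctr (fs E) ↔ Hp13.Ctr E :=
  ⟨fun h => ⟨let ⟨x, hx⟩ := h.ne; ⟨x, mem_fs.1 hx⟩, cn_fs.1 h.cn,
      fun G _ z hz => ex_fs.1 (h.h1 G z (coc_fs.2 hz)), (chi_fs E).symm.trans h.chi⟩,
   fun h => ⟨let ⟨x, hx⟩ := h.ne; ⟨x, mem_fs.2 hx⟩, cn_fs.2 h.conn, (chi_fs E).trans h.eu,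
      fun G _ z hz => ex_fs.2 (h.ex G z (coc_fs.1 hz))⟩⟩

lemma sctr_cone {E : Set P} {m : P} (hm : m ∈ E) (h : ∀ x ∈ E, Cm x m) : Hp13.Ctr E :=
  ctr_fs.1 (ctr_cone (mem_fs.2 hm) (fun x hx => h x (mem_fs.1 hx)))

lemma sctr_max {E : Set P} {m : P} (hm : m ∈ E) (h : ∀ x ∈ E, x ≤ m) : Hp13.Ctr E :=
  sctr_cone hm (fun x hx => Or.inl (h x hx))

lemma sctr_min {E : Set P} {m : P} (hm : m ∈ E) (h : ∀ x ∈ E, m ≤ x) : Hp13.Ctr E :=
  sctr_cone hm (fun x hx => Or.inr (h x hx))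

/-- `C` is a union of components of `E` -/
def Clo (E C : Set P) : Prop := C ⊆ E ∧ ∀ x ∈ C, ∀ y ∈ E, Cm x y → y ∈ C

lemma Clo.low {E C : Set P} (h : Clo E C) : Low (fs E) (fs C) :=
  ⟨fun _ hx => mem_fs.2 (h.1 (mem_fs.1 hx)), fun x hx y hy hle =>
    mem_fs.2 (h.2 x (mem_fs.1 hx) y (mem_fs.1 hy) (Or.inr hle))⟩

lemma Clo.upp {E C : Set P} (h : Clo E C) : Upp (fs E) (fs C) :=
  ⟨fun _ hx => mem_fs.2 (h.1 (mem_fs.1 hx)), fun x hx y hy hle =>
    mem_fs.2 (h.2 x (mem_fs.1 hx) y (mem_fs.1 hy) (Or.inl hle))⟩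

lemma clo_cmp {E C : Set P} (h : IsCmp E C) : Clo E C :=
  ⟨h.sub, fun _ hx _ hy hc => h.clopen hx hy hc⟩

lemma clo_self (E : Set P) : Clo E E := ⟨subset_rfl, fun _ _ _ hy _ => hy⟩

/-- weak equivalence of subsets of finite posets -/
def WS (A : Set P) (B : Set Q) (f : P → Q) : Prop := WE (fs A) (fs B) f

namespace WS

variable {A : Set P} {B : Set Q} {f : P → Q}

lemma maps (h : WS A B f) {x : P} (hx : x ∈ A) : f x ∈ B := mem_fs.1 (WE.maps h x (mem_fs.2 hx))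

lemma mono (h : WS A B f) {x y : P} (hx : x ∈ A) (hy : y ∈ A) (hle : x ≤ y) : f x ≤ f y :=
  WE.mono h x (mem_fs.2 hx) y (mem_fs.2 hy) hle

lemma surj (h : WS A B f) {y : Q} (hy : y ∈ B) : ∃ x ∈ A, Hp13.Rch B (f x) y :=
  let ⟨x, hx, hr⟩ := WE.surj h y (mem_fs.2 hy); ⟨x, mem_fs.1 hx, rch_fs.1 hr⟩

lemma rch_iff (h : WS A B f) {x x' : P} (hx : x ∈ A) (hx' : x' ∈ A) :
    Hp13.Rch A x x' ↔ Hp13.Rch B (f x) (f x') := by
  rw [← rch_fs, ← rch_fs]; exact WE.rch_iff h (mem_fs.2 hx) (mem_fs.2 hx')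

lemma eu_eq (h : WS A B f) : eu A = eu B := by
  rw [← chi_fs, ← chi_fs]; exact WE.chi_eq h

lemma conn_iff (h : WS A B f) : Conn A ↔ Conn B := by
  rw [← cn_fs, ← cn_fs]; exact WE.cn_iff h

lemma ctr_iff (h : WS A B f) : Hp13.Ctr A ↔ Hp13.Ctr B := by
  rw [← ctr_fs, ← ctr_fs]; exact WE.ctr_iff h

lemma ne_iff (h : WS A B f) : A.Nonempty ↔ B.Nonempty :=
  ⟨fun ⟨_, hx⟩ => ⟨_, h.maps hx⟩, fun ⟨_, hy⟩ => let ⟨x, hx, _⟩ := h.surj hy; ⟨x, hx⟩⟩

lemma ex (h : WS A B f) {G : Type} [AddCommGroup G] {z : Q → Q → G} (hz : CocOn B z)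
    (he : ExOn A (pb f z)) : ExOn B z :=
  ex_fs.1 (WE.ex h G z (coc_fs.2 hz) (ex_fs.2 he))

lemma onto (h : WS A B f) {G : Type} [AddCommGroup G] {z : P → P → G} (hz : CocOn A z) :
    ∃ w : Q → Q → G, CocOn B w ∧ ExOn A (z - pb f w) :=
  let ⟨w, hw, he⟩ := WE.onto h G z (coc_fs.2 hz); ⟨w, coc_fs.1 hw, ex_fs.1 he⟩

lemma coc_pb (h : WS A B f) {G : Type} [AddCommGroup G] {z : Q → Q → G} (hz : CocOn B z) :
    CocOn A (pb f z) := fun _ hx _ hy _ hw h1 h2 =>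
  hz _ (h.maps hx) _ (h.maps hy) _ (h.maps hw) (h.mono hx hy h1) (h.mono hy hw h2)

lemma ex_pb (h : WS A B f) {G : Type} [AddCommGroup G] {z : Q → Q → G} (hz : ExOn B z) :
    ExOn A (pb f z) :=
  let ⟨g, hg⟩ := hz; ⟨g ∘ f, fun _ hx _ hy hle => hg _ (h.maps hx) _ (h.maps hy) (h.mono hx hy hle)⟩

theorem of_le (hm : ∀ x ∈ A, f x ∈ B) (hf : ∀ x ∈ A, ∀ y ∈ A, x ≤ y → f x ≤ f y)
    (h : ∀ y ∈ B, Hp13.Ctr {x | x ∈ A ∧ f x ≤ y}) : WS A B f := by
  refine WE.of_le (by simpa using hm) (by simpa using hf) (fun y hy => ?_)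
  have := ctr_fs.2 (h y (mem_fs.1 hy))
  convert this using 1
  ext x; simp

theorem of_ge (hm : ∀ x ∈ A, f x ∈ B) (hf : ∀ x ∈ A, ∀ y ∈ A, x ≤ y → f x ≤ f y)
    (h : ∀ y ∈ B, Hp13.Ctr {x | x ∈ A ∧ y ≤ f x}) : WS A B f := by
  refine WE.of_ge (by simpa using hm) (by simpa using hf) (fun y hy => ?_)
  have := ctr_fs.2 (h y (mem_fs.1 hy))
  convert this using 1
  ext x; simp

theorem comp {C : Set R} {g : Q → R} (h : WS A B f) (h' : WS B C g) : WS A C (g ∘ f) :=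
  WE.comp (f := f) (g := g) h h'

theorem congr {g : P → Q} (h : WS A B f) (e : ∀ x ∈ A, g x = f x) : WS A B g :=
  WE.congr h (by simpa using e)

theorem restr (h : WS A B f) {C : Set Q} (hC : Clo B C) : WS {x | x ∈ A ∧ f x ∈ C} C f := by
  have := WE.restr h hC.low hC.upp
  unfold WS
  convert this using 1
  ext x; simp

theorem cmp_eq (h : WS A B f) {x : P} (hx : x ∈ A) :
    Hp13.cmp A x = {t | t ∈ A ∧ f t ∈ Hp13.cmp B (f x)} := by
  ext t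
  exact ⟨fun a => ⟨a.1, h.maps a.1, (h.rch_iff hx a.1).1 a.2⟩,
    fun a => ⟨a.1, (h.rch_iff hx a.1).2 a.2.2⟩⟩

theorem cmp (h : WS A B f) {x : P} (hx : x ∈ A) : WS (Hp13.cmp A x) (Hp13.cmp B (f x)) f := by
  rw [h.cmp_eq hx]
  exact h.restr (clo_cmp (Hp13.isCmp_cmp (h.maps hx)))

/-- the components correspond -/
theorem isCmp_pre (h : WS A B f) {C : Set Q} (hC : IsCmp B C) :
    IsCmp A {t | t ∈ A ∧ f t ∈ C} := by
  obtain ⟨y, hy, rfl⟩ := hC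
  obtain ⟨x, hx, hr⟩ := h.surj hy
  exact ⟨x, hx, by rw [h.cmp_eq hx, Hp13.cmp_eq hr]⟩

theorem isCmp_ex (h : WS A B f) {C : Set P} (hC : IsCmp A C) :
    ∃ D, IsCmp B D ∧ C = {t | t ∈ A ∧ f t ∈ D} := by
  obtain ⟨x, hx, rfl⟩ := hC
  exact ⟨_, Hp13.isCmp_cmp (h.maps hx), h.cmp_eq hx⟩

/-- two out of three -/
theorem cancel {C : Set R} {g : Q → R} (h : WS A B f) (h' : WS A C (g ∘ f))
    (hm : ∀ x ∈ B, g x ∈ C) (hg : ∀ x ∈ B, ∀ y ∈ B, x ≤ y → g x ≤ g y) : WS B C g := by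
  have hm' : ∀ x ∈ fs B, g x ∈ fs C := by simpa using hm
  have hg' : ∀ x ∈ fs B, ∀ y ∈ fs B, x ≤ y → g x ≤ g y := by simpa using hg
  refine ⟨hm', hg', fun t ht => ?_, fun y hy y' hy' hr => ?_, fun D d1 d2 => ?_,
    fun G _ z hz he => WE.ex h' G z hz (he.comap (WE.maps h) (WE.mono h)), fun G _ z hz => ?_⟩
  · obtain ⟨x, hx, a⟩ := WE.surj h' t ht
    exact ⟨f x, WE.maps h x hx, a⟩
  · obtain ⟨x, hx, a⟩ := WE.surj h y hy
    obtain ⟨x', hx', a'⟩ := WE.surj h y' hy'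
    have := WE.inj h' x hx x' hx' (((a.map hm' hg').trans hr).trans (a'.map hm' hg').symm)
    exact (a.symm.trans (this.map (WE.maps h) (WE.mono h))).trans a'
  · have l1 : Low (fs B) ((fs B).filter (fun x => g x ∈ D)) :=
      ⟨filter_subset _ _, fun x hx y hy hle => mem_filter.2 ⟨hy, d1.2 _ (mem_filter.1 hx).2 _
        (hm' y hy) (hg' y hy x (mem_filter.1 hx).1 hle)⟩⟩
    have l2 : Upp (fs B) ((fs B).filter (fun x => g x ∈ D)) :=
      ⟨filter_subset _ _, fun x hx y hy hle => mem_filter.2 ⟨hy, d2.2 _ (mem_filter.1 hx).2 _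
        (hm' y hy) (hg' x (mem_filter.1 hx).1 y hy hle)⟩⟩
    rw [← WE.chi h' D d1 d2, ← WE.chi h _ l1 l2]
    congr 1
    ext x
    simp only [mem_filter]
    exact ⟨fun a => ⟨a.1, a.2.2⟩, fun a => ⟨a.1, WE.maps h x a.1, a.2⟩⟩
  · obtain ⟨w, hw, he⟩ := WE.onto h' G _ (hz.comap (WE.maps h) (WE.mono h))
    refine ⟨w, hw, WE.ex h G _ ?_ he⟩
    intro x hx y hy t ht h1 h2
    simp only
    rw [hz x hx y hy t ht h1 h2, hw _ (hm' x hx) _ (hm' y hy) _ (hm' t ht) (hg' x hx y hy h1)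
      (hg' y hy t ht h2)]
    abel

/-- the other two out of three -/
theorem cancel' {C : Set R} {g : Q → R} (h : WS B C g) (h' : WS A C (g ∘ f))
    (hm : ∀ x ∈ A, f x ∈ B) (hf : ∀ x ∈ A, ∀ y ∈ A, x ≤ y → f x ≤ f y) : WS A B f := by
  have hm' : ∀ x ∈ fs A, f x ∈ fs B := by simpa using hm
  have hf' : ∀ x ∈ fs A, ∀ y ∈ fs A, x ≤ y → f x ≤ f y := by simpa using hf
  refine ⟨hm', hf', fun y hy => ?_, fun x hx x' hx' hr =>
    WE.inj h' x hx x' hx' (hr.map (WE.maps h) (WE.mono h)), fun D d1 d2 => ?_,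
    fun G _ z hz he => ?_, fun G _ z hz => ?_⟩
  · obtain ⟨x, hx, a⟩ := WE.surj h' _ (WE.maps h y hy)
    exact ⟨x, hx, WE.inj h _ (hm' x hx) y hy a⟩
  · set D' := (fs C).filter (fun t => ∃ y ∈ D, Rch (fs C) (g y) t) with hD'
    have e : ∀ y ∈ fs B, g y ∈ D' ↔ y ∈ D := by
      intro y hy
      rw [hD', mem_filter]
      refine ⟨fun ⟨_, y', hy', hr⟩ => ?_, fun a => ⟨WE.maps h y hy, y, a, Rch.rfl⟩⟩
      exact (Rch.in_clopen d1 d2 hy' (WE.inj h y' (d1.1 hy') y hy hr)).mem hy'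
    have l1 : Low (fs C) D' := ⟨filter_subset _ _, fun x hx y hy hle => by
      obtain ⟨a, t, ht, hr⟩ := mem_filter.1 hx
      exact mem_filter.2 ⟨hy, t, ht, hr.trans (Rch.of_ge a hy hle)⟩⟩
    have l2 : Upp (fs C) D' := ⟨filter_subset _ _, fun x hx y hy hle => by
      obtain ⟨a, t, ht, hr⟩ := mem_filter.1 hx
      exact mem_filter.2 ⟨hy, t, ht, hr.trans (Rch.of_le a hy hle)⟩⟩
    have a1 := WE.chi h' D' l1 l2
    have a2 := WE.chi h D' l1 l2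
    have e1 : (fs B).filter (fun x => g x ∈ D') = D := by
      ext y
      rw [mem_filter]
      exact ⟨fun a => (e y a.1).1 a.2, fun a => ⟨d1.1 a, (e y (d1.1 a)).2 a⟩⟩
    rw [e1] at a2
    rw [a2, ← a1]
    congr 1
    exact filter_congr (fun x hx => (e _ (hm' x hx)).symm)
  · obtain ⟨w, hw, hew⟩ := WE.onto h G z hz
    have h1 : Ex (fs A) (fun x y => w (g (f x)) (g (f y))) := by
      obtain ⟨a, ha⟩ := he
      obtain ⟨b, hb⟩ := hew.comap hm' hf'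
      refine ⟨fun x => a x - b x, fun x hx y hy hle => ?_⟩
      have e1 := ha x hx y hy hle
      have e2 := hb x hx y hy hle
      simp only at e1 e2 ⊢
      rw [e1, sub_eq_iff_eq_add] at e2
      rw [← sub_eq_zero] at e2 ⊢
      rw [← neg_eq_zero, ← e2]; abel
    have h2 := (WE.ex h' G w hw h1).comap (WE.maps h) (WE.mono h)
    refine (hew.add h2).congr ?_
    intro x _ y _ _
    abel
  · obtain ⟨w, hw, he⟩ := WE.onto h' G z hz
    exact ⟨_, hw.comap (WE.maps h) (WE.mono h), he⟩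

theorem of_int {D A : Set P} {r : P → P} (hD : D ⊆ A) (h1 : ∀ x ∈ A, r x ∈ D ∧ r x ≤ x)
    (h2 : ∀ x ∈ A, ∀ b ∈ D, b ≤ x → b ≤ r x) : WS D A id :=
  we_incl_of_int (r := r) (fun _ hx => mem_fs.2 (hD (mem_fs.1 hx))) (by simpa using h1)
    (by simpa using h2)

theorem of_clo {D A : Set P} {r : P → P} (hD : D ⊆ A) (h1 : ∀ x ∈ A, r x ∈ D ∧ x ≤ r x)
    (h2 : ∀ x ∈ A, ∀ b ∈ D, x ≤ b → r x ≤ b) : WS D A id :=
  we_incl_of_clo (r := r) (fun _ hx => mem_fs.2 (hD (mem_fs.1 hx))) (by simpa using h1)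
    (by simpa using h2)

theorem of_int' {D A : Set P} (hD : D ⊆ A)
    (h : ∀ x ∈ A, ∃ w ∈ D, w ≤ x ∧ ∀ b ∈ D, b ≤ x → b ≤ w) : WS D A id :=
  of_le (fun _ hx => hD hx) (fun _ _ _ _ h => h) (fun y hy =>
    let ⟨w, hw, h1, h2⟩ := h y hy; sctr_max (m := w) ⟨hw, h1⟩ (fun x hx => h2 x hx.1 hx.2))

theorem of_clo' {D A : Set P} (hD : D ⊆ A)
    (h : ∀ x ∈ A, ∃ w ∈ D, x ≤ w ∧ ∀ b ∈ D, x ≤ b → w ≤ b) : WS D A id :=
  of_ge (fun _ hx => hD hx) (fun _ _ _ _ h => h) (fun y hy =>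
    let ⟨w, hw, h1, h2⟩ := h y hy; sctr_min (m := w) ⟨hw, h1⟩ (fun x hx => h2 x hx.1 hx.2))

/-- an order isomorphism of subsets -/
theorem of_iso (hm : ∀ x ∈ A, f x ∈ B) (hs : ∀ y ∈ B, ∃ x ∈ A, f x = y)
    (h : ∀ x ∈ A, ∀ y ∈ A, f x ≤ f y ↔ x ≤ y) : WS A B f := by
  refine of_ge hm (fun x hx y hy hle => (h x hx y hy).2 hle) (fun y hy => ?_)
  obtain ⟨x, hx, rfl⟩ := hs y hy
  exact sctr_min (m := x) ⟨hx, le_rfl⟩ (fun t ht => (h x hx t ht.1).1 ht.2)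

theorem refl (A : Set P) : WS A A id :=
  of_iso (fun _ h => h) (fun y hy => ⟨y, hy, rfl⟩) (fun _ _ _ _ => Iff.rfl)

end WS

end Crest.Agent.X212.Kh11
end
end

-- ▼ part X212/Kh11/Beat

/-!
# X212 / H: families of chains, dominated points, cell-like maps (helper11)
-/

set_option autoImplicit false
set_option linter.unusedSectionVars false

open Finset Classical

noncomputable section

namespace Crest.Agent.X212.Kh11

open Hp13 (Ch Cm CocOn ExOn Conn IsCmp eu pb)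

variable {P Q R : Type} [PartialOrder P] [Fintype P] [PartialOrder Q] [Fintype Q]
  [PartialOrder R] [Fintype R]

/-- the members of `F` that lie in `X` -/
def In (X : Set P) (F : Set (Ch P)) : Set (Ch P) := {c | (∀ x ∈ c.1, x ∈ X) ∧ c ∈ F}

/-- a dominated point can be removed -/
theorem beat1 {X : Set P} {z w : P} (hw : w ∈ X) (hne : w ≠ z)
    (dom : ∀ x ∈ X, Cm z x → Cm w x) {F : Set (Ch P)} (up : ∀ c ∈ F, ∀ d, c ≤ d → d ∈ F)
    (inv : ∀ c d : Ch P, w ∈ d.1 → c.1 = insert z d.1 → c ∈ F → d ∈ F) :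
    WS (In (X \ {z}) F) (In X F) id := by
  have h1 : WS {c | c ∈ In X F ∧ (z ∈ c.1 → w ∈ c.1)} (In X F) id := by
    refine WS.of_clo (r := fun c => if h : z ∈ c.1 ∧ ∀ x ∈ c.1, x ∈ X then
      c.ins w (fun x hx => dom x (h.2 x hx) (c.cm h.1 hx)) else c) (fun _ h => h.1) ?_ ?_
    · intro c hc
      by_cases hz : z ∈ c.1
      · rw [dif_pos ⟨hz, hc.1⟩]
        refine ⟨⟨⟨fun x hx => ?_, up c hc.2 _ (c.le_ins _ _)⟩, fun _ => mem_insert_self _ _⟩,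
          c.le_ins _ _⟩
        rcases mem_insert.1 hx with e | e
        exacts [e ▸ hw, hc.1 x e]
      · rw [dif_neg (fun h => hz h.1)]
        exact ⟨⟨hc, fun h => absurd h hz⟩, le_rfl⟩
    · intro c hc b hb hle
      by_cases hz : z ∈ c.1
      · rw [dif_pos ⟨hz, hc.1⟩]
        exact insert_subset (hb.2 (hle hz)) hle
      · rw [dif_neg (fun h => hz h.1)]
        exact hle
  have h2 : WS (In (X \ {z}) F) {c | c ∈ In X F ∧ (z ∈ c.1 → w ∈ c.1)} id := by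
    refine WS.of_int (r := fun c => if h : w ∈ c.1 then
      c.sub (c.1.erase z) ⟨w, mem_erase.2 ⟨hne, h⟩⟩ (erase_subset _ _) else c) ?_ ?_ ?_
    · exact fun c hc => ⟨⟨fun x hx => (hc.1 x hx).1, hc.2⟩, fun h => absurd rfl (hc.1 z h).2⟩
    · intro c hc
      by_cases h : w ∈ c.1
      · rw [dif_pos h]
        refine ⟨⟨fun x hx => ⟨hc.1.1 x (mem_erase.1 hx).2, (mem_erase.1 hx).1⟩, ?_⟩,
          erase_subset _ _⟩
        by_cases hz : z ∈ c.1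
        · exact inv c _ (mem_erase.2 ⟨hne, h⟩) (insert_erase hz).symm hc.1.2
        · exact up c hc.1.2 _ (fun x hx => mem_erase.2 ⟨fun e => hz (e ▸ hx), hx⟩)
      · rw [dif_neg h]
        exact ⟨⟨fun x hx => ⟨hc.1.1 x hx, fun e => h (hc.2 (e ▸ hx))⟩, hc.1.2⟩, le_rfl⟩
    · intro c _ b hb hle
      by_cases h : w ∈ c.1
      · rw [dif_pos h]
        exact fun x hx => mem_erase.2 ⟨(hb.1 x hx).2, hle hx⟩
      · rw [dif_neg h]
        exact hle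
  exact h2.comp h1

/-- `z` may be replaced by `w` in the members of `F` -/
def Rpl (F : Set (Ch P)) (z w : P) : Prop :=
  ∀ c d : Ch P, w ∈ d.1 → c.1 = insert z d.1 → c ∈ F → d ∈ F

/-- an interior operator on the carrier -/
theorem beat_int {D Z : Set P} {F : Set (Ch P)} (up : ∀ c ∈ F, ∀ d, c ≤ d → d ∈ F) (hD : D ⊆ Z)
    (h : ∀ z ∈ Z, ∃ w ∈ D, w ≤ z ∧ (∀ d ∈ D, d ≤ z → d ≤ w) ∧ Rpl F z w) :
    WS (In D F) (In Z F) id := by
  induction hn : (Z \ D).ncard generalizing Z with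
  | zero =>
    rw [Set.ncard_eq_zero (Set.toFinite _), Set.sdiff_eq_empty] at hn
    rw [Set.Subset.antisymm hn hD]
    exact WS.refl _
  | succ n ih =>
    obtain ⟨z, hz⟩ := (Set.toFinite (Z \ D)).exists_minimal
      (Set.nonempty_of_ncard_ne_zero (by omega))
    obtain ⟨w, hw, h1, h2, inv⟩ := h z hz.1.1
    have a := beat1 (X := Z) (hD hw) (fun e : w = z => hz.1.2 (e ▸ hw)) (fun x hx hc => by
      rcases hc with hc | hc
      · exact Or.inl (h1.trans hc)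
      · by_cases hx' : x ∈ D
        · exact Or.inr (h2 x hx' hc)
        · exact Or.inl (h1.trans (hz.2 ⟨hx, hx'⟩ hc))) up inv
    refine (ih (Z := Z \ {z}) (fun x hx => ⟨hD hx, fun e => hz.1.2 (e ▸ hx)⟩)
      (fun x hx => h x hx.1) ?_).comp a
    rw [Set.sdiff_sdiff_comm, Set.ncard_sdiff_singleton_of_mem hz.1, hn]; rfl

/-- a closure operator on the carrier -/
theorem beat_clo {D Z : Set P} {F : Set (Ch P)} (up : ∀ c ∈ F, ∀ d, c ≤ d → d ∈ F) (hD : D ⊆ Z)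
    (h : ∀ z ∈ Z, ∃ w ∈ D, z ≤ w ∧ (∀ d ∈ D, z ≤ d → w ≤ d) ∧ Rpl F z w) :
    WS (In D F) (In Z F) id := by
  induction hn : (Z \ D).ncard generalizing Z with
  | zero =>
    rw [Set.ncard_eq_zero (Set.toFinite _), Set.sdiff_eq_empty] at hn
    rw [Set.Subset.antisymm hn hD]
    exact WS.refl _
  | succ n ih =>
    obtain ⟨z, hz⟩ := (Set.toFinite (Z \ D)).exists_maximal
      (Set.nonempty_of_ncard_ne_zero (by omega))
    obtain ⟨w, hw, h1, h2, inv⟩ := h z hz.1.1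
    have a := beat1 (X := Z) (hD hw) (fun e : w = z => hz.1.2 (e ▸ hw)) (fun x hx hc => by
      rcases hc with hc | hc
      · by_cases hx' : x ∈ D
        · exact Or.inl (h2 x hx' hc)
        · exact Or.inr ((hz.2 ⟨hx, hx'⟩ hc).trans h1)
      · exact Or.inr (hc.trans h1)) up inv
    refine (ih (Z := Z \ {z}) (fun x hx => ⟨hD hx, fun e => hz.1.2 (e ▸ hx)⟩)
      (fun x hx => h x hx.1) ?_).comp a
    rw [Set.sdiff_sdiff_comm, Set.ncard_sdiff_singleton_of_mem hz.1, hn]; rfl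

/-- a family inside a totally ordered carrier has a largest member -/
theorem ctr_in_chain (e : Ch P) {F : Set (Ch P)} (he : e ∈ F) : Hp13.Ctr (In (e.1 : Set P) F) :=
  sctr_max (m := e) ⟨fun _ h => h, he⟩ (fun _ hc _ hx => hc.1 _ hx)

/-- `top` is a weak equivalence from the chains of `E` to `E` -/
theorem ws_top (E : Set P) : WS (In E Set.univ) E Ch.top := by
  refine WS.of_le (fun c hc => hc.1 _ c.top_mem) (fun _ _ _ _ h => Ch.top_mono h) (fun y hy => ?_)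
  have h1 : WS {c : Ch P | (c ∈ In E Set.univ ∧ c.top ≤ y) ∧ y ∈ c.1}
      {c : Ch P | c ∈ In E Set.univ ∧ c.top ≤ y} id := by
    refine WS.of_clo (r := fun c => if h : c.top ≤ y then
      c.ins y (fun x hx => Or.inr ((Ch.le_top hx).trans h)) else c) (fun _ h => h.1) ?_ ?_
    · intro c hc
      rw [dif_pos hc.2]
      refine ⟨⟨⟨⟨fun x hx => ?_, trivial⟩, ?_⟩, mem_insert_self _ _⟩, c.le_ins _ _⟩
      · rcases mem_insert.1 hx with e | e
        exacts [e ▸ hy, hc.1.1 x e]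
      · rcases mem_insert.1 (Ch.top_mem (c.ins y _)) with e | e
        exacts [e.le, (Ch.le_top e).trans hc.2]
    · intro c hc b hb hle
      rw [dif_pos hc.2]
      exact insert_subset hb.2 hle
  refine h1.ctr_iff.1 (sctr_min (m := Ch.pt y) ⟨⟨⟨by simpa using hy, trivial⟩, by simp⟩, by simp⟩
    (fun c hc => Ch.pt_le.2 hc.2))

/-- cell-like maps -/
structure CE (f : Q → P) : Prop where
  mono : Monotone f
  ctr : ∀ n e : Ch P, n ≤ e → Hp13.Ctr {d : Ch Q | n ≤ Ch.img f mono d ∧ Ch.img f mono d ≤ e}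

namespace CE

variable {f : Q → P}

theorem upper (h : CE f) {e : Ch P} {F : Set (Ch P)} (he : e ∈ F)
    (up : ∀ c ∈ F, ∀ d, c ≤ d → d ≤ e → d ∈ F) :
    Hp13.Ctr {d : Ch Q | Ch.img f h.mono d ∈ F ∧ Ch.img f h.mono d ≤ e} := by
  have : WS {d : Ch Q | Ch.img f h.mono d ∈ F ∧ Ch.img f h.mono d ≤ e} {c | c ∈ F ∧ c ≤ e}
      (Ch.img f h.mono) := by
    refine WS.of_ge (fun _ hd => hd) (fun _ _ _ _ hle => Ch.img_mono _ hle) (fun n hn => ?_)
    convert h.ctr n e hn.2 using 1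
    ext d
    exact ⟨fun a => ⟨a.2, a.1.2⟩, fun a => ⟨⟨up n hn.1 _ a.1 a.2, a.2⟩, a.1⟩⟩
  exact this.ctr_iff.2 (sctr_max (m := e) ⟨he, le_rfl⟩ (fun _ hc => hc.2))

/-- on every order convex family of chains -/
theorem ws (h : CE f) {X : Set (Ch P)} (hX : X.OrdConnected) :
    WS (Ch.img f h.mono ⁻¹' X) X (Ch.img f h.mono) :=
  WS.of_le (fun _ hd => hd) (fun _ _ _ _ hle => Ch.img_mono _ hle) (fun _ he =>
    h.upper he (fun _ hc _ h1 h2 => hX.out hc he ⟨h1, h2⟩))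

theorem img_comp {g : R → Q} (hf : Monotone f) (hg : Monotone g) (d : Ch R) :
    Ch.img (f ∘ g) (hf.comp hg) d = Ch.img f hf (Ch.img g hg d) := by
  ext x
  simp only [Ch.mem_img, Function.comp]
  exact ⟨fun ⟨a, ha, e⟩ => ⟨_, ⟨a, ha, rfl⟩, e⟩, fun ⟨_, ⟨a, ha, rfl⟩, e⟩ => ⟨a, ha, e⟩⟩

theorem comp {g : R → Q} (h : CE f) (h' : CE g) : CE (f ∘ g) := by
  refine ⟨h.mono.comp h'.mono, fun n e hne => ?_⟩
  have := h'.ws (X := {d : Ch Q | n ≤ Ch.img f h.mono d ∧ Ch.img f h.mono d ≤ e})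
    ⟨fun _ a _ b _ c => ⟨a.1.trans (Ch.img_mono _ c.1), (Ch.img_mono _ c.2).trans b.2⟩⟩
  convert this.ctr_iff.2 (h.ctr n e hne) using 1
  ext d
  simp only [Set.mem_ofPred_eq, Set.mem_preimage, img_comp h.mono h'.mono]

theorem refl : CE (id : P → P) := by
  refine ⟨monotone_id, fun n e hne => ?_⟩
  have e1 : ∀ d : Ch P, Ch.img id monotone_id d = d := fun d => Ch.ext (image_id)
  simp only [e1]
  exact sctr_max (m := e) ⟨hne, le_rfl⟩ (fun _ h => h.2)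

/-- on every subset -/
theorem ws_pre (h : CE f) (E : Set P) : WS (f ⁻¹' E) E f := by
  have h1 := h.ws (X := In E Set.univ)
    ⟨fun _ _ _ b _ c => ⟨fun x hx => b.1 x (c.2 hx), trivial⟩⟩
  have e : Ch.img f h.mono ⁻¹' In E Set.univ = In (f ⁻¹' E) Set.univ := by
    ext d
    exact ⟨fun a => ⟨fun x hx => a.1 _ (Ch.mem_img.2 ⟨x, hx, rfl⟩), trivial⟩,
      fun a => ⟨fun x hx => let ⟨y, hy, k⟩ := Ch.mem_img.1 hx; k ▸ a.1 y hy, trivial⟩⟩
  rw [e] at h1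
  refine (ws_top (f ⁻¹' E)).cancel ((h1.comp (ws_top E)).congr ?_) (fun _ hx => hx)
    (fun _ _ _ _ hle => h.mono hle)
  intro d _
  exact (Ch.top_img h.mono d).symm

theorem acyc (h : CE f) : Hp13.Acyc f := fun e =>
  (h.ws_pre _).eu_eq.trans (sctr_max (m := e.top) e.top_mem (fun _ hx => Ch.le_top hx)).eu

/-- every chain is the image of a chain, compatibly with a given face -/
theorem lift (h : CE f) (e : Ch P) : ∃ d, Ch.img f h.mono d = e :=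
  let ⟨d, hd⟩ := (h.ctr e e le_rfl).ne; ⟨d, le_antisymm hd.2 hd.1⟩

theorem surj (h : CE f) : Function.Surjective f := fun x => by
  obtain ⟨d, hd⟩ := h.lift (Ch.pt x)
  exact ⟨d.top, by rw [← Ch.top_img h.mono, hd, Ch.top_pt]⟩

end CE

/-- the part of a chain below a point -/
def Ch.dn (e : Ch P) (x : P) (h : e.bot ≤ x) : Ch P :=
  e.sub (e.1.filter (· ≤ x)) ⟨e.bot, mem_filter.2 ⟨e.bot_mem, h⟩⟩ (filter_subset _ _)

/-- the part of a chain above a point -/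
def Ch.up (e : Ch P) (x : P) (h : x ≤ e.top) : Ch P :=
  e.sub (e.1.filter (x ≤ ·)) ⟨e.top, mem_filter.2 ⟨e.top_mem, h⟩⟩ (filter_subset _ _)

theorem ce_top : CE (Ch.top : Ch P → P) := by
  refine ⟨Ch.top_mono, fun n e hne => ?_⟩
  set F : Set (Ch (Ch P)) := {d | n ≤ Ch.img Ch.top Ch.top_mono d} with hF
  have up : ∀ c ∈ F, ∀ d, c ≤ d → d ∈ F := fun c hc d h => le_trans hc (Ch.img_mono _ h)
  have inv : ∀ z w : Ch P, w.top = z.top → Rpl F z w := by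
    intro z w hw c d hd hc h x hx
    obtain ⟨a, ha, k⟩ := Ch.mem_img.1 (h hx)
    rw [hc] at ha
    rcases mem_insert.1 ha with e1 | e1
    · exact Ch.mem_img.2 ⟨w, hd, by rw [hw, ← e1, k]⟩
    · exact Ch.mem_img.2 ⟨a, e1, k⟩
  have h1 : WS (In {c : Ch P | c ≤ e} F) (In {c : Ch P | c.top ∈ e.1} F) id :=
    beat_int up (fun c hc => hc c.top_mem) (fun z hz =>
      ⟨z.sub (z.1.filter (· ∈ e.1)) ⟨z.top, mem_filter.2 ⟨z.top_mem, hz⟩⟩ (filter_subset _ _),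
        fun x hx => (mem_filter.1 hx).2, filter_subset _ _,
        fun d hd hle x hx => mem_filter.2 ⟨hle hx, hd hx⟩,
        inv z _ (Ch.top_eq (mem_filter.2 ⟨z.top_mem, hz⟩)
          (fun x hx => Ch.le_top (mem_filter.1 hx).1))⟩)
  have hdn : ∀ x (hx : x ∈ e.1), (Ch.dn e x (Ch.bot_le hx)).top = x := fun x hx =>
    Ch.top_eq (mem_filter.2 ⟨hx, le_rfl⟩) (fun y hy => (mem_filter.1 hy).2)
  have h2 : WS (In {c : Ch P | ∃ x, ∃ hx : x ∈ e.1, c = Ch.dn e x (Ch.bot_le hx)} F)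
      (In {c : Ch P | c ≤ e} F) id := by
    refine beat_clo up (by rintro _ ⟨x, hx, rfl⟩; exact filter_subset _ _) (fun z hz =>
      ⟨_, ⟨_, hz z.top_mem, rfl⟩, fun x hx => mem_filter.2 ⟨hz hx, Ch.le_top hx⟩, ?_,
        inv z _ (hdn _ (hz z.top_mem))⟩)
    rintro _ ⟨x, hx, rfl⟩ hle y hy
    exact mem_filter.2 ⟨(mem_filter.1 hy).1,
      (mem_filter.1 hy).2.trans (mem_filter.1 (hle z.top_mem)).2⟩
  have h3 : Hp13.Ctr (In {c : Ch P | ∃ x, ∃ hx : x ∈ e.1, c = Ch.dn e x (Ch.bot_le hx)} F) := by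
    let fl : Ch (Ch P) := Ch.mk' (fs {c : Ch P | ∃ x, ∃ hx : x ∈ e.1, c = Ch.dn e x (Ch.bot_le hx)})
      ⟨_, mem_fs.2 ⟨_, e.top_mem, rfl⟩⟩ (by
        intro a ha b hb
        obtain ⟨x, hx, rfl⟩ := mem_fs.1 ha
        obtain ⟨y, hy, rfl⟩ := mem_fs.1 hb
        rcases e.total hx hy with h | h
        · exact Or.inl (fun t ht => mem_filter.2 ⟨(mem_filter.1 ht).1, (mem_filter.1 ht).2.trans h⟩)
        · exact Or.inr (fun t ht => mem_filter.2 ⟨(mem_filter.1 ht).1, (mem_filter.1 ht).2.trans h⟩))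
    refine sctr_max (m := fl) ⟨fun _ h => mem_fs.1 h, fun x hx => ?_⟩
      (fun c hc x hx => mem_fs.2 (hc.1 x hx))
    exact Ch.mem_img.2 ⟨_, mem_fs.2 ⟨x, hne hx, rfl⟩, hdn x (hne hx)⟩
  convert h1.ctr_iff.1 (h2.ctr_iff.1 h3) using 1
  ext d
  refine ⟨fun a => ⟨fun x hx => a.2 (Ch.mem_img.2 ⟨x, hx, rfl⟩), a.1⟩, fun a => ⟨a.2, fun x hx => ?_⟩⟩
  obtain ⟨y, hy, k⟩ := Ch.mem_img.1 hx
  exact k ▸ a.1 y hy

theorem _root_.Crest.Agent.X212.Hp13.Desc.ce {s t : Hp13.St} {f : t.P → s.P}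
    (h : Hp13.Desc s t f) : CE f := by
  induction h with
  | refl => exact CE.refl
  | step _ ih => exact ih.comp ce_top

end Crest.Agent.X212.Kh11
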